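import Vale.Agent.P200.Cyc.Model
import Vale.Agent.P200.Quad.Reduce

/-!
From as many forms as variables to any number of variables and any field, in any degrees.
-/

universe u

namespace Vale.Agent.P200.Cyc

open MvPolynomial Module Quad

variable {K : Type*} [Field K]

/-- The statement over an infinite field, in split coordinates. -/
lemma exists_stack [Infinite K] {n m c : ℕ} {a : Fin c → ℕ} (hA : Models K a) (ha : ∀ i, 0 < a i)
    (hnm : n = m + c)
    {f : Fin c → MvPolynomial (Fin n) K}
    (hf : ∀ i, (f i).IsHomogeneous (a i)) (hreg : RegList ⊥ (List.ofFn f))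
    {I : Ideal (MvPolynomial (Fin n) K)} (hI : HomogI I) (hfI : ∀ i, f i ∈ I) :
    ∃ s : Set (Fin m ⊕ Fin c →₀ ℕ), (∀ e ∈ s, ∀ e', e ≤ e' → e' ∈ s) ∧
      (∀ i, Finsupp.single (Sum.inr i) (a i) ∈ s) ∧
      ∀ D, Nat.card {e : Fin m ⊕ Fin c →₀ ℕ // e.degree = D ∧ e ∈ s} =
        finrank K (degPart D I) := by
  classical
  have hpos : ∀ g ∈ List.ofFn f, HomogPos g := by
    intro g hg
    obtain ⟨i, rfl⟩ := List.mem_ofFn.1 hg
    exact ⟨a i, ha i, hf i⟩
  obtain ⟨ls, hls, hregls, hind⟩ := exists_linear_extension hpos hreg m (by simp; omega)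
  obtain ⟨Φ, hΦl, hΦ⟩ := Quad.exists_change hnm ls hls hind
  let F : Fin c → MvPolynomial (Fin m ⊕ Fin c) K := fun i => Φ.symm (f i)
  have hF : ∀ i, (F i).IsHomogeneous (a i) := fun i => by
    have : F i = homogeneousComponent (a i) (F i) := by
      apply Φ.injective
      rw [← hΦ, show Φ (F i) = f i from Φ.apply_symm_apply _, homogeneousComponent_eq_self (hf i)]
    rw [this]
    exact homogeneousComponent_isHomogeneous _ _
  set Ys := List.ofFn fun k : Fin m => (X (Sum.inl k) : MvPolynomial (Fin m ⊕ Fin c) K) with hYs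
  have hreg' : RegList ⊥ (List.ofFn F ++ Ys) := by
    have h := regList_equiv Φ (List.ofFn F ++ Ys) ⊥ ?_
    · rwa [show (⊥ : Ideal (MvPolynomial (Fin n) K)).comap Φ.toRingHom = ⊥ from
        Ideal.comap_bot_of_injective _ Φ.injective] at h
    convert hregls using 2
    simp [F, Ys, List.map_ofFn, Function.comp_def, hΦl]
  have hposF : ∀ g ∈ List.ofFn F ++ Ys, HomogPos g := by
    intro g hg
    simp only [List.mem_append, hYs, List.mem_ofFn] at hg
    rcases hg with ⟨i, rfl⟩ | ⟨k, rfl⟩
    exacts [⟨a i, ha i, hF i⟩, ⟨1, one_pos, isHomogeneous_X K _⟩]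
  have h1 := regList_split _ _ _ (regList_perm List.perm_append_comm hposF homogI_bot hreg')
  rw [sup_bot_eq, hYs, ← Quad.ker_projX] at h1
  have h2 := regList_map_surjective (Quad.projX K m c).toRingHom (Quad.projX_surjective m c) _ _ le_rfl h1
  rw [(Ideal.map_eq_bot_iff_le_ker (Quad.projX K m c).toRingHom).2 le_rfl, List.map_ofFn] at h2
  have hπ : ∀ i, (Quad.projX K m c).toRingHom (F i) = Quad.coefY 0 (F i) := fun i => Quad.projX_eq_coefY _
  simp only [Function.comp_def, hπ] at h2
  obtain ⟨T, hT⟩ := hA (fun i => Quad.coefY 0 (F i))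
    (fun i => by simpa using (Quad.coefY_homogeneous (hF i) 0).1) h2
  let I' := I.comap Φ.toRingHom
  have hI' : HomogI I' := fun u hu t => by
    show Φ (homogeneousComponent t u) ∈ I
    rw [← hΦ]
    exact hI _ hu t
  have hfl : ∀ μ i, Quad.coefY 0 (F i) ∈ Quad.layer I' μ := fun μ i =>
    Quad.layer_mono I' (zero_le (a := μ)) (Quad.coefY_zero_mem I' hI'
      (show Φ (F i) ∈ I by rw [show Φ (F i) = f i from Φ.apply_symm_apply _]; exact hfI i))
  let s : Set (Fin m ⊕ Fin c →₀ ℕ) :=
    {e | Quad.xPart e ∈ T (Quad.layer I' (Quad.yPart e)) (Quad.xPart e).degree}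
  have hadd : ∀ e ∈ s, ∀ v, e + Finsupp.single v 1 ∈ s := by
    intro e he v
    simp only [s, Set.mem_ofPred_eq] at he ⊢
    rcases v with k | i
    · have hx : Quad.xPart (e + Finsupp.single (Sum.inl k) 1) = Quad.xPart e := by
        ext l; simp [Quad.xPart_apply]
      have hy : Quad.yPart e ≤ Quad.yPart (e + Finsupp.single (Sum.inl k) 1) := fun l => by
        simp [Quad.yPart_apply]
      rw [hx]
      exact (hT _ (hfl _)).2 _ (Quad.layer_mono I' hy) _ he
    · have hx : Quad.xPart (e + Finsupp.single (Sum.inr i) 1) = Quad.xPart e + Finsupp.single i 1 := by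
        ext l; simp [Quad.xPart_apply, Finsupp.single_apply]
      have hy : Quad.yPart (e + Finsupp.single (Sum.inr i) 1) = Quad.yPart e := by
        ext l; simp [Quad.yPart_apply]
      rw [hx, hy, map_add, Finsupp.degree_single]
      exact ((hT _ (hfl _)).1 _).2.2.2 _ he i
  have hup : ∀ e ∈ s, ∀ e', e ≤ e' → e' ∈ s := by
    intro e he e' hle
    obtain ⟨δ, rfl⟩ := le_iff_exists_add.1 hle
    clear hle
    induction δ using Finsupp.induction with
    | zero => simpa using he
    | single_add v n δ hk hn ih =>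
      clear hn
      induction n with
      | zero => simpa using ih
      | succ n ihn =>
        rw [Finsupp.single_add, show e + (Finsupp.single v n + Finsupp.single v 1 + δ) =
          e + (Finsupp.single v n + δ) + Finsupp.single v 1 by abel]
        exact hadd _ ihn v
  refine ⟨s, hup, fun i => ?_, fun D => ?_⟩
  · have hx : Quad.xPart (Finsupp.single (Sum.inr i : Fin m ⊕ Fin c) (a i)) = Finsupp.single i (a i) := by
      ext k; simp [Quad.xPart_apply, Finsupp.single_apply]
    simp only [s, Set.mem_ofPred_eq, hx]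
    exact ((hT _ (hfl _)).1 _).2.2.1 _ rfl ⟨i, by simp⟩
  · rw [← finrank_degPart_comap Φ hΦ I D, Quad.finrank_degPart_eq_sum]
    rw [Finset.sum_congr rfl fun μ _ => ((hT _ (hfl μ)).1 (D - μ.degree)).2.1.symm]
    rw [← Finset.card_sigma]
    refine (Nat.card_congr ?_).trans (Nat.card_eq_finsetCard _)
    refine
      { toFun := fun e => ⟨⟨Quad.yPart e.1, Quad.xPart e.1⟩, Finset.mem_sigma.2 ?_⟩
        invFun := fun z => ⟨Finsupp.sumElim z.1.1 z.1.2, ?_⟩
        left_inv := fun e => Subtype.ext (Quad.sumElim_parts e.1)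
        right_inv := fun z => Subtype.ext (Sigma.ext (Quad.parts_sumElim _ _).1
          (heq_of_eq (Quad.parts_sumElim _ _).2)) }
    · have h1 := e.2.1
      rw [Quad.degree_parts] at h1
      refine ⟨Quad.mem_yExps.2 (show (Quad.yPart e.1).degree ≤ D by omega), ?_⟩
      show Quad.xPart e.1 ∈ T (Quad.layer I' (Quad.yPart e.1)) (D - (Quad.yPart e.1).degree)
      rw [show D - (Quad.yPart e.1).degree = (Quad.xPart e.1).degree by omega]
      exact e.2.2
    · obtain ⟨h1, h2⟩ := Finset.mem_sigma.1 z.2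
      rw [Quad.mem_yExps] at h1
      have h3 := ((hT _ (hfl z.1.1)).1 _).1 _ h2
      refine ⟨?_, ?_⟩
      · rw [Quad.degree_parts, (Quad.parts_sumElim _ _).1, (Quad.parts_sumElim _ _).2]
        omega
      · simp only [s, Set.mem_ofPred_eq, (Quad.parts_sumElim _ _).1, (Quad.parts_sumElim _ _).2, h3]
        exact h2

/-- A monomial ideal with the same Hilbert function, given the case of as many forms as variables
over the algebraic closure. -/
theorem exists_monomialIdeal {K : Type u} [Field K] {n c : ℕ} {a : Fin c → ℕ} (ha : ∀ i, 0 < a i)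
    (hA : Models (AlgebraicClosure K) a) (hcn : c ≤ n) {f : Fin c → MvPolynomial (Fin n) K}
    (hf : ∀ i, (f i).IsHomogeneous (a i)) (hreg : RegList ⊥ (List.ofFn f))
    {I : Ideal (MvPolynomial (Fin n) K)} (hI : HomogI I) (hfI : ∀ i, f i ∈ I) :
    ∃ s : Set (Fin n →₀ ℕ), (∀ i, Finsupp.single (Fin.castLE hcn i) (a i) ∈ s) ∧
      ∀ d, finrank K (degPart d (Ideal.span ((fun e => monomial e (1 : K)) '' s))) =
        finrank K (degPart d I) := by
  obtain ⟨m, rfl⟩ : ∃ m, n = c + m := ⟨n - c, by omega⟩
  let L := AlgebraicClosure K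
  let φ := map (σ := Fin (c + m)) (algebraMap K L)
  have hreg' : RegList ⊥ (List.ofFn fun i => φ (f i)) := by
    have := regList_extI (L := L) _ _ hreg
    rwa [extI, Ideal.map_bot, List.map_ofFn] at this
  obtain ⟨s, hup, hpow, hcard⟩ := exists_stack (K := L) hA ha (m := m) (n := c + m) (by omega)
    (f := fun i => φ (f i)) (fun i => (hf i).map _) hreg' (homogI_extI hI)
    (fun i => Ideal.mem_map_of_mem _ (hfI i))
  let ε : Fin m ⊕ Fin c ≃ Fin (c + m) := (Equiv.sumComm _ _).trans finSumFinEquiv
  let E := Finsupp.domCongr (M := ℕ) ε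
  have hE : ∀ e : Fin (c + m) →₀ ℕ, (E.symm e).degree = e.degree := fun e => by
    simp only [Finsupp.degree_eq_sum]
    exact Fintype.sum_equiv ε _ _ fun x => by simp [E]
  refine ⟨{e | E.symm e ∈ s}, fun i => ?_, fun d => ?_⟩
  · show E.symm (Finsupp.single (Fin.castLE hcn i) (a i)) ∈ s
    rw [show E.symm (Finsupp.single (Fin.castLE hcn i) (a i)) = Finsupp.single (Sum.inr i) (a i) by
      apply E.injective
      rw [AddEquiv.apply_symm_apply]
      ext x
      simp [E, ε, Finsupp.single_apply, Fin.ext_iff]]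
    exact hpow i
  · rw [finrank_monomialIdeal]
    · rw [← finrank_degPart_extI (L := L) I d, ← hcard d]
      exact Nat.card_congr
        { toFun := fun e => ⟨E.symm e.1, (hE e.1).trans e.2.1, e.2.2⟩
          invFun := fun e => ⟨E e.1, by
            rw [← hE, AddEquiv.symm_apply_apply]; exact e.2.1, by
            show E.symm (E e.1) ∈ s
            rw [AddEquiv.symm_apply_apply]; exact e.2.2⟩
          left_inv := fun e => Subtype.ext (E.apply_symm_apply _)
          right_inv := fun e => Subtype.ext (E.symm_apply_apply _) }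
    · intro e he e' hle
      refine hup _ he _ fun x => ?_
      simpa [E] using hle (ε x)

end Vale.Agent.P200.Cyc
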