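import Vale.Agent.P200.Cyc.Factor
import Vale.Agent.P200.Cyc.Reduce
import Vale.Agent.P200.Box.LexPlusPowers

/-!
Forms of prime degree `p` in characteristic zero or greater than `p`: models, and lex-plus-powers
spaces.
-/

namespace Vale.Agent.P200.Cyc

open MvPolynomial Module
open scoped TensorProduct

universe u

variable {K : Type u} [Field K] {p : ℕ}

/-- Pairwise twisted commuting linear factorisations for forms of prime degree. -/
theorem factorises [IsAlgClosed K] (hp : p.Prime)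
    (hchar : ∀ i : ℕ, 0 < i → i ≤ p → (i : K) ≠ 0) {n : ℕ}
    {f : Fin n → MvPolynomial (Fin n) K} (hf : ∀ i, (f i).IsHomogeneous p)
    (hreg : RegList ⊥ (List.ofFn f)) :
    ∃ (D : Type u) (_ : DivisionRing D) (_ : Algebra K D) (g : Fin n → Fin n → D)
      (om : Fin n → Fin n → K) (E : Fin n → Fin n → D),
      (∀ k l, om k l ≠ 0) ∧
      (∀ k l, k ≠ l → ∀ i j, g k i * g l j = om k l • (g l j * g k i)) ∧
      (∀ k, (∑ i, g k i ⊗ₜ[K] Quad.mkA f (X i)) ^ p = 0) ∧
      ∀ i j, ∑ k, E i k * g k j = if i = j then 1 else 0 := by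
  rcases Nat.eq_zero_or_pos n with rfl | hn
  · exact ⟨K, inferInstance, inferInstance, fun k => k.elim0, fun k => k.elim0, fun k => k.elim0,
      fun k => k.elim0, fun k => k.elim0, fun k => k.elim0, fun k => k.elim0⟩
  obtain ⟨D, iD, iA, g, ω, E, hω, hg, hpow, hE⟩ := exists_factorisation_prime hp hchar hn hf hreg
  refine ⟨D, iD, iA, g, fun k l => if k < l then ω else ω⁻¹, E, fun k l => ?_, fun k l hkl i j => ?_,
    hpow, hE⟩
  · dsimp only
    split_ifs
    exacts [hω, inv_ne_zero hω]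
  · dsimp only
    rcases lt_or_gt_of_ne hkl with h | h
    · rw [if_pos h]
      exact hg k l h i j
    · rw [if_neg (not_lt.2 h.le), hg l k h j i, inv_smul_smul₀ hω]

/-- Regular sequences of forms of prime degree have models. -/
theorem models_prime [IsAlgClosed K] (hp : p.Prime)
    (hchar : ∀ i : ℕ, 0 < i → i ≤ p → (i : K) ≠ 0) {n : ℕ} {a : Fin n → ℕ} (ha : ∀ i, a i = p) :
    Models K a := by
  obtain rfl : a = fun _ => p := funext ha
  intro f hf hreg
  obtain ⟨D, iD, iA, g, om, E, hom, hcomm, hpow, hE⟩ := factorises hp hchar hf hreg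
  exact hasModel f g (fun k l h => ⟨om k l, hom k l, hcomm k l h⟩) hpow E hE (fun _ => hp.pos) hf hreg

/-- An ideal containing a regular sequence of forms of prime degree `p`, in characteristic zero or
greater than `p`, has a lex-plus-powers space closed under the variables. -/
theorem exists_lpp_prime (hp : p.Prime) (hchar : ∀ i : ℕ, 0 < i → i ≤ p → (i : K) ≠ 0) {n c : ℕ}
    (hcn : c ≤ n) {f : Fin c → MvPolynomial (Fin n) K}
    (hf : ∀ i, (f i).IsHomogeneous p) (hreg : RegList ⊥ (List.ofFn f))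
    {I : Ideal (MvPolynomial (Fin n) K)} (hI : HomogI I) (hfI : ∀ i, f i ∈ I) :
    ∃ T : ℕ → Finset (Fin n →₀ ℕ), ∀ d,
      (∀ e ∈ T d, e.degree = d) ∧
      (∀ e : Fin n →₀ ℕ, e.degree = d → (∃ i : Fin c, p ≤ e (Fin.castLE hcn i)) → e ∈ T d) ∧
      (∀ e ∈ T d, ∀ e' : Fin n →₀ ℕ, e'.degree = d →
        (∀ i : Fin c, e (Fin.castLE hcn i) < p) → (∀ i : Fin c, e' (Fin.castLE hcn i) < p) →
        toLex e < toLex e' → e' ∈ T d) ∧
      (T d).card = finrank K (degPart d I) ∧
      ∀ e ∈ T d, ∀ v, e + Finsupp.single v 1 ∈ T (d + 1) := by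
  have hchar' : ∀ i : ℕ, 0 < i → i ≤ p → (i : AlgebraicClosure K) ≠ 0 := fun i h1 h2 => by
    rw [← map_natCast (algebraMap K (AlgebraicClosure K))]
    exact fun h => hchar i h1 h2 ((map_eq_zero _).1 h)
  obtain ⟨s, hs, hd⟩ := exists_monomialIdeal (a := fun _ => p) (fun _ => hp.pos)
    (models_prime hp hchar' fun _ => rfl) hcn hf hreg hI hfI
  obtain ⟨T, hT⟩ := Box.exists_lpp K hcn (a := fun _ => p) (fun _ _ _ => le_rfl) s hs
  exact ⟨T, fun d => ⟨(hT d).1, (hT d).2.1, (hT d).2.2.1, (hT d).2.2.2.1.trans (hd d),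
    (hT d).2.2.2.2⟩⟩

end Vale.Agent.P200.Cyc
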