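import Vale.Agent.P200.Cyc.Exact

/-!
The residue sums of the Hilbert function of a graded right module are balanced.
-/

namespace Vale.Agent.P200.Cyc

open MvPolynomial Module
open scoped TensorProduct

universe u v

variable {K : Type u} [Field K] {L₀ L B : Type v} [Field L₀] [Algebra K L₀] [Field L]
  [Algebra L₀ L] [Ring B] [Algebra K B] [Algebra L₀ B] [Algebra L B] [IsScalarTower K L₀ B]
  [IsScalarTower L₀ L B] {σ : Type} [Fintype σ] {p : ℕ} {F : σ → MvPolynomial σ K}
  {S : Sys K L₀ L B p F} (Fm : Fam S)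

lemma phiQ_pow_p [Infinite K] : S.phiQ ^ p = 0 := by
  rw [Sys.phiQ, ← map_pow, S.phi_pow, map_sum]
  refine Finset.sum_eq_zero fun l _ => ?_
  rw [mkQ_tmul, show Ideal.Quotient.mkₐ K (Ideal.span (Set.range F)) (F l) = 0 from
    Ideal.Quotient.eq_zero_iff_mem.2 (Ideal.subset_span ⟨l, rfl⟩), TensorProduct.tmul_zero]

lemma finite_qDeg (F : σ → MvPolynomial σ K) (i : ℕ) : FiniteDimensional K (qDeg F i) :=
  Module.Finite.map _ _

lemma MQ_eq_range (d i : ℕ) : MQ Fm d i = LinearMap.range (TensorProduct.map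
    (((Polynomial.monomial d).restrictScalars K).comp (Fm.M d).subtype) (qDeg F i).subtype) := by
  rw [← Submodule.map_top, ← TensorProduct.span_tmul_eq_top, Submodule.map_span, MQ]
  congr 1
  ext y
  constructor
  · rintro ⟨x, hx, a, ha, rfl⟩
    exact ⟨⟨x, hx⟩ ⊗ₜ ⟨a, ha⟩, ⟨⟨x, hx⟩, ⟨a, ha⟩, rfl⟩, rfl⟩
  · rintro ⟨_, ⟨⟨x, hx⟩, ⟨a, ha⟩, rfl⟩, rfl⟩
    exact ⟨x, hx, a, ha, rfl⟩

lemma finite_MQ (hp : 0 < p) (d i : ℕ) : FiniteDimensional K (MQ Fm d i) := by
  have := finite_M Fm hp d
  have := finite_qDeg F i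
  rw [MQ_eq_range]
  exact Module.Finite.range _

lemma finrank_MQ (hp : 0 < p) (d i : ℕ) :
    finrank K (MQ Fm d i) = finrank K (Fm.M d) * finrank K (qDeg F i) := by
  have := finite_M Fm hp d
  have := finite_qDeg F i
  rw [MQ_eq_range, LinearMap.finrank_range_of_inj, Module.finrank_tensorProduct]
  refine TensorProduct.map_injective_of_flat_flat _ _ ?_ (qDeg F i).subtype_injective
  rw [LinearMap.coe_comp]
  exact (Polynomial.monomial_injective d).comp (Fm.M d).subtype_injective

/-- Reindexing a residue class by a shift. -/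
lemma sum_residue_shift {N k p a : ℕ} (r : ℕ → ℤ) (hr : ∀ e, N ≤ e + k → r e = 0) :
    ∑ e ∈ (Finset.range N).filter (fun e => e % p = a % p), (if k ≤ e then r (e - k) else 0) =
      ∑ e ∈ (Finset.range N).filter (fun e => (e + k) % p = a % p), r e := by
  rw [← Finset.sum_filter, Finset.filter_filter]
  rw [← Finset.sum_filter_add_sum_filter_not ((Finset.range N).filter fun e => (e + k) % p = a % p)
    (fun e => e + k < N), Finset.sum_eq_zero (s := Finset.filter (fun e => ¬ e + k < N) _)
    (fun e he => hr e (Nat.le_of_not_lt (Finset.mem_filter.1 he).2)), add_zero, Finset.filter_filter]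
  refine Finset.sum_nbij' (fun e => e - k) (fun e => e + k) ?_ ?_ ?_ ?_ (fun e _ => rfl)
  all_goals simp only [Set.MapsTo, Finset.coe_filter, Finset.mem_filter, Finset.mem_range, Set.mem_ofPred_eq]
  · rintro e ⟨h1, h2, h3⟩
    rw [Nat.sub_add_cancel h3]
    omega
  · rintro e ⟨h1, h2, h3⟩
    exact ⟨h3, h2, Nat.le_add_left _ _⟩
  · rintro e ⟨-, -, h3⟩
    exact Nat.sub_add_cancel h3
  · rintro e -
    exact Nat.add_sub_cancel e k

/-- The residue sums are balanced in large weights. -/
theorem balanced [Infinite K] (hp : p.Prime) (hF : ∀ l, (F l).IsHomogeneous p)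
    (hsyz : ∀ w : σ → MvPolynomial σ K, ∑ l, F l * w l = 0 →
      ∀ l, w l ∈ Ideal.span (Set.range F))
    (hA : ∀ e, (finrank K (qDeg F e) : ℤ) = boxCoeff p (Fintype.card σ) e) :
    ∃ s₀, ∀ s, s₀ ≤ s → ∀ a,
      resSum p (Fintype.card σ) (fun d => (finrank K (Fm.M d) : ℤ)) s a =
        resSum p (Fintype.card σ) (fun d => (finrank K (Fm.M d) : ℤ)) s (a + 1) := by
  classical
  set N := Fintype.card σ * (p - 1) + 1
  choose d₁ hd₁ using eventually_exact Fm hF hsyz hp.pos (j := 1) hp.pos
  choose d₂ hd₂ using eventually_exact Fm hF hsyz hp.pos (j := p - 1) (Nat.sub_le _ _)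
  refine ⟨(Finset.range N).sup d₁ + (Finset.range N).sup d₂ + 1, fun s hs a => ?_⟩
  let C : ℕ → Submodule K (Polynomial B ⊗[K] QF F) := fun e => MQ Fm (s + e) e
  let T : ℕ → Polynomial B ⊗[K] QF F →ₗ[K] Polynomial B ⊗[K] QF F := fun k =>
    LinearMap.mulRight K (S.phiQ ^ k)
  let r : ℕ → ℕ → ℤ := fun k e => (finrank K ((C e).map (T k)) : ℤ)
  have hC : ∀ e, (finrank K (C e) : ℤ) =
      boxCoeff p (Fintype.card σ) e * (finrank K (Fm.M (s + e)) : ℤ) := by
    intro e
    show (finrank K (MQ Fm (s + e) e) : ℤ) = _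
    rw [finrank_MQ Fm hp.pos, Nat.cast_mul, hA, mul_comm]
  have hbox : ∀ e, N ≤ e → boxCoeff p (Fintype.card σ) e = 0 := fun e he =>
    Polynomial.coeff_eq_zero_of_natDegree_lt (lt_of_lt_of_le (natDegree_box _ _) he)
  have hbot : ∀ e, N ≤ e → C e = ⊥ := fun e he => by
    have := finite_MQ Fm hp.pos (s + e) e
    have h := hC e
    rw [hbox e he, zero_mul, Nat.cast_eq_zero] at h
    exact Submodule.finrank_eq_zero.1 h
  have key : ∀ k l, k + l = p → (∀ e, e < N → ∀ y ∈ C e, y * S.phiQ ^ k = 0 →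
      y ∈ bd Fm (p - k) (s + e) e) →
      ∀ e, e < N → (finrank K (C e) : ℤ) = r k e + if l ≤ e then r l (e - l) else 0 := by
    intro k l hkl hex e he
    have hfin : FiniteDimensional K (C e) := finite_MQ Fm hp.pos (s + e) e
    have h := finrank_map_add_ker (T k) (C e)
    have hker : C e ⊓ LinearMap.ker (T k) = if l ≤ e then (C (e - l)).map (T l) else ⊥ := by
      apply le_antisymm
      · rintro y ⟨hy, hy0⟩
        have := hex e he y hy hy0
        rw [bd, show p - k = l by omega] at this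
        by_cases hl : l ≤ e
        · rw [if_pos ⟨by omega, hl⟩, show s + e - l = s + (e - l) by omega] at this
          rw [if_pos hl]
          exact this
        · rw [if_neg (fun h => hl h.2)] at this
          rw [if_neg hl]
          exact this
      · split_ifs with hl
        · rintro _ ⟨y, hy, rfl⟩
          refine ⟨?_, ?_⟩
          · have := phiQ_pow_MQ Fm hy l
            rw [show s + (e - l) + l = s + e by omega, Nat.sub_add_cancel hl] at this
            exact this
          · show y * S.phiQ ^ l * S.phiQ ^ k = 0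
            rw [mul_assoc, ← pow_add, Nat.add_comm, hkl, phiQ_pow_p, mul_zero]
        · exact bot_le
    rw [hker] at h
    simp only [r]
    by_cases hl : l ≤ e
    · rw [if_pos hl] at h ⊢
      omega
    · rw [if_neg hl, finrank_bot] at h
      rw [if_neg hl]
      omega
  have he1 : ∀ e, e < N → ∀ y ∈ C e, y * S.phiQ ^ 1 = 0 → y ∈ bd Fm (p - 1) (s + e) e := by
    intro e he
    have := Finset.le_sup (f := d₁) (Finset.mem_range.2 he)
    exact hd₁ e (s + e) (by omega)
  have he2 : ∀ e, e < N → ∀ y ∈ C e, y * S.phiQ ^ (p - 1) = 0 →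
      y ∈ bd Fm (p - (p - 1)) (s + e) e := by
    intro e he
    have := Finset.le_sup (f := d₂) (Finset.mem_range.2 he)
    exact hd₂ e (s + e) (by omega)
  have hvan : ∀ k e, N ≤ e + k → r k e = 0 := by
    intro k e he
    have : (C e).map (T k) = ⊥ := (Submodule.eq_bot_iff _).2 fun y hy => by
      obtain ⟨x, hx, rfl⟩ := hy
      have := phiQ_pow_MQ Fm hx k
      rw [Nat.add_assoc] at this
      exact (Submodule.mem_bot K).1 ((hbot _ he).le this)
    show (finrank K ↥((C e).map (T k)) : ℤ) = 0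
    rw [this, finrank_bot, Nat.cast_zero]
  have hp1 : 1 + (p - 1) = p := by have := hp.pos; omega
  have hS : ∀ b k l, k + l = p → (∀ e, e < N → ∀ y ∈ C e, y * S.phiQ ^ k = 0 →
      y ∈ bd Fm (p - k) (s + e) e) →
      resSum p (Fintype.card σ) (fun d => (finrank K (Fm.M d) : ℤ)) s b =
        (∑ e ∈ (Finset.range N).filter (fun e => e % p = b % p), r k e) +
        ∑ e ∈ (Finset.range N).filter (fun e => (e + l) % p = b % p), r l e := by
    intro b k l hkl hex
    rw [← sum_residue_shift (r l) (hvan l), ← Finset.sum_add_distrib, resSum]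
    refine Finset.sum_congr rfl fun e he => ?_
    rw [← key k l hkl hex e (Finset.mem_range.1 (Finset.mem_filter.1 he).1), hC]
  rw [hS a 1 (p - 1) hp1 he1, hS (a + 1) (p - 1) 1 (by omega) he2, add_comm]
  have hmod : ∀ e, ((e + (p - 1)) % p = a % p ↔ e % p = (a + 1) % p) ∧
      ((e + 1) % p = (a + 1) % p ↔ e % p = a % p) := fun e => by
    have h1 : ∀ x y, (x + 1) % p = (y + 1) % p ↔ x % p = y % p := fun x y =>
      ⟨fun h => Nat.ModEq.add_right_cancel' 1 h, fun h => Nat.ModEq.add_right 1 h⟩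
    refine ⟨?_, h1 e a⟩
    have : e + (p - 1) + 1 = e + p := by omega
    rw [← h1, this, Nat.add_mod_right]
  congr 1
  · exact Finset.sum_congr (Finset.filter_congr fun e _ => (hmod e).1) fun _ _ => rfl
  · exact Finset.sum_congr (Finset.filter_congr fun e _ => (hmod e).2.symm) fun _ _ => rfl

end Vale.Agent.P200.Cyc
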