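import Vale.Agent.P200.Cyc.Spec

/-!
Binary forms of prime degree over a field of degree prime to `p`: each of them either splits, or
is the norm form of a cyclic extension, so that it is a weighted cyclic product of linear forms.
-/

namespace Vale.Agent.P200.Cyc

open Module Polynomial

variable {L₀ E : Type*} [Field L₀] [Field E] [Algebra L₀ E] {p : ℕ}

/-- The dehomogenisation of a binary form. -/
noncomputable def dehom (G : MvPolynomial (Fin 2) L₀) : L₀[X] := MvPolynomial.aeval ![X, 1] G

theorem natDegree_dehom_le {G : MvPolynomial (Fin 2) L₀} (hG : G.IsHomogeneous p) :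
    (dehom G).natDegree ≤ p := by
  rw [dehom, G.as_sum, map_sum]
  refine natDegree_sum_le_of_forall_le _ _ fun e he => ?_
  have hd : e 0 + e 1 = p := by
    have := hG (MvPolynomial.mem_support_iff.1 he)
    simpa [Finsupp.weight_apply, Finsupp.sum_fintype, Fin.sum_univ_two] using this
  simp [MvPolynomial.aeval_monomial, Finsupp.prod_fintype, Fin.prod_univ_two]
  exact le_trans (natDegree_C_mul_X_pow_le _ _) (by omega)

theorem aeval_eq_sum {G : MvPolynomial (Fin 2) L₀} (hG : G.IsHomogeneous p) (x : Fin 2 → E) :
    MvPolynomial.aeval x G = ∑ k ∈ Finset.range (p + 1),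
      algebraMap L₀ E ((dehom G).coeff k) * x 0 ^ k * x 1 ^ (p - k) := by
  rw [dehom, G.as_sum]
  simp only [map_sum, finsetSum_coeff, Finset.sum_mul]
  rw [Finset.sum_comm]
  refine Finset.sum_congr rfl fun e he => ?_
  have hd : e 0 + e 1 = p := by
    have := hG (MvPolynomial.mem_support_iff.1 he)
    simpa [Finsupp.weight_apply, Finsupp.sum_fintype, Fin.sum_univ_two] using this
  rw [Finset.sum_eq_single (e 0)]
  · simp [MvPolynomial.aeval_monomial, Finsupp.prod_fintype, Fin.prod_univ_two,
      show p - e 0 = e 1 by omega, mul_assoc]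
  · intro k _ hk
    simp [MvPolynomial.aeval_monomial, Finsupp.prod_fintype, Fin.prod_univ_two, hk]
  · intro h
    exact absurd (Finset.mem_range.2 (by omega)) h

/-- A binary form is the product of the linear forms given by the roots of its dehomogenisation. -/
theorem aeval_eq_prod_roots [IsAlgClosed E] {G : MvPolynomial (Fin 2) L₀}
    (hG : G.IsHomogeneous p) (x : Fin 2 → E) :
    MvPolynomial.aeval x G = algebraMap L₀ E (dehom G).leadingCoeff *
      x 1 ^ (p - Multiset.card ((dehom G).aroots E)) *
      (((dehom G).aroots E).map fun θ => x 0 - θ * x 1).prod := by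
  set g := (dehom G).map (algebraMap L₀ E) with hg
  set R := (dehom G).aroots E with hR
  have hsp : g.Splits := IsAlgClosed.splits g
  have hcard : Multiset.card R = (dehom G).natDegree := by
    rw [hR, aroots_def, ← hg, ← hsp.natDegree_eq_card_roots, hg, natDegree_map]
  have hle : Multiset.card R ≤ p := hcard ▸ natDegree_dehom_le hG
  have hlc : g.leadingCoeff = algebraMap L₀ E (dehom G).leadingCoeff := leadingCoeff_map _
  have hev : ∀ t, g.eval t = algebraMap L₀ E (dehom G).leadingCoeff *
      (R.map fun θ => t - θ).prod := fun t => by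
    rw [← hlc, hR, aroots_def, ← hg]
    conv_lhs => rw [hsp.eq_prod_roots]
    simp [eval_multiset_prod, Multiset.map_map]
  rw [aeval_eq_sum hG]
  by_cases h1 : x 1 = 0
  · rw [Finset.sum_eq_single p (fun k hk hkp => by
      simp [h1, Nat.sub_ne_zero_of_lt (lt_of_le_of_ne (Nat.lt_succ_iff.1 (Finset.mem_range.1 hk)) hkp)])
      (fun h => absurd (Finset.mem_range.2 (Nat.lt_succ_self p)) h)]
    rcases hle.lt_or_eq with hlt | heq
    · rw [coeff_eq_zero_of_natDegree_lt (hcard ▸ hlt)]
      simp [h1, Nat.sub_ne_zero_of_lt hlt]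
    · simp [h1, heq, leadingCoeff, hcard ▸ heq]
  · have h : ∑ k ∈ Finset.range (p + 1),
        algebraMap L₀ E ((dehom G).coeff k) * x 0 ^ k * x 1 ^ (p - k) =
        x 1 ^ p * g.eval (x 0 / x 1) := by
      rw [eval_eq_sum_range' (n := p + 1) (by
        rw [hg, natDegree_map]; exact Nat.lt_succ_of_le (natDegree_dehom_le hG)), Finset.mul_sum]
      refine Finset.sum_congr rfl fun k hk => ?_
      rw [hg, coeff_map, div_pow, pow_sub₀ _ h1 (Nat.lt_succ_iff.1 (Finset.mem_range.1 hk))]
      field_simp
    rw [h, hev]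
    have hp : x 1 ^ p = x 1 ^ (p - Multiset.card R) * x 1 ^ Multiset.card R := by
      rw [← pow_add, Nat.sub_add_cancel hle]
    have hprod : (R.map fun θ => x 0 - θ * x 1).prod =
        x 1 ^ Multiset.card R * (R.map fun θ => x 0 / x 1 - θ).prod := by
      rw [← Multiset.prod_replicate, ← Multiset.map_const', ← Multiset.prod_map_mul]
      refine congrArg _ (Multiset.map_congr rfl fun θ _ => ?_)
      field_simp
    rw [hp, hprod]
    ring

section Blocks

variable [Fact p.Prime]

/-- The functions with values in `L`. -/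
noncomputable def constW (L : IntermediateField L₀ E) (p : ℕ) : Subalgebra L (ZMod p → E) :=
  ((Algebra.ofId L E).compLeft (ZMod p)).range

omit [Fact p.Prime] in
theorem mem_constW {L : IntermediateField L₀ E} {u : ZMod p → E} :
    u ∈ constW L p ↔ ∀ i, u i ∈ L := by
  constructor
  · rintro ⟨v, rfl⟩ i
    exact (v i).2
  · intro h
    exact ⟨fun i => ⟨u i, h i⟩, rfl⟩

/-- A block all of whose linear factors are defined over `L`. -/
noncomputable def splitBlock (L : IntermediateField L₀ E) (gam : E) (hgam : gam ^ p ∈ L)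
    (lam : Fin 2 → ZMod p → E) (hlam : ∀ j i, lam j i ∈ L) : Block L p where
  gam := gam
  gam_pow := hgam
  W := constW L p
  shift u hu := mem_constW.2 fun i => mem_constW.1 hu (i + 1)
  W_finite := Module.Finite.range ((Algebra.ofId L E).compLeft (ZMod p)).toLinearMap
  W_le := (LinearMap.finrank_range_le ((Algebra.ofId L E).compLeft (ZMod p)).toLinearMap).trans
    (by rw [finrank_fintype_fun_eq_card, ZMod.card])
  const u hu _ := mem_constW.1 hu 0
  lam := lam
  lam_mem j := mem_constW.2 (hlam j)

/-- The forms that split over `L`. -/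
theorem exists_split [IsAlgClosed E] (L : IntermediateField L₀ E) {G : MvPolynomial (Fin 2) L₀}
    (hG : G.IsHomogeneous p) (h : ∀ θ ∈ (dehom G).aroots E, θ ∈ L) :
    ∃ B : Block L p, ∀ x : Fin 2 → E,
      B.gam ^ p * ∏ i, (∑ j, x j * B.lam j i) = MvPolynomial.aeval x G := by
  classical
  set R := (dehom G).aroots E with hR
  set l := R.toList with hl
  have hlen : l.length ≤ p := by
    rw [hl, Multiset.length_toList, hR]
    exact (card_roots' _).trans (by rw [natDegree_map]; exact natDegree_dehom_le hG)
  let c := algebraMap L₀ E (dehom G).leadingCoeff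
  let d : Fin p → E := fun i => if i = ⟨0, NeZero.pos p⟩ then c else 1
  let a : Fin 2 → Fin p → E := fun j i =>
    d i * if hi : (i : ℕ) < l.length then ![1, -l[(i : ℕ)]] j else ![0, 1] j
  let e : Fin p ≃ ZMod p := (ZMod.finEquiv p).toEquiv
  have ha : ∀ j i, a j i ∈ L := by
    intro j i
    refine mul_mem ?_ ?_
    · dsimp only [d]
      split_ifs
      exacts [L.algebraMap_mem _, one_mem L]
    · split_ifs with hi
      · fin_cases j
        · exact one_mem L
        · exact neg_mem (h _ (Multiset.mem_toList.1 (List.getElem_mem hi)))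
      · fin_cases j
        exacts [zero_mem L, one_mem L]
  refine ⟨splitBlock L 1 (by simp) (fun j i => a j (e.symm i)) (fun j i => ha j _), fun x => ?_⟩
  change (1 : E) ^ p * ∏ i, (∑ j, x j * a j (e.symm i)) = _
  rw [one_pow, one_mul, Equiv.prod_comp e.symm fun i => ∑ j, x j * a j i]
  have hterm : ∀ i : Fin p, ∑ j, x j * a j i =
      d i * if hi : (i : ℕ) < l.length then x 0 - l[(i : ℕ)] * x 1 else x 1 := by
    intro i
    simp only [a, Fin.sum_univ_two]
    split_ifs <;> simp <;> ring
  simp only [hterm, Finset.prod_mul_distrib]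
  rw [aeval_eq_prod_roots hG, ← hR, mul_assoc]
  congr 1
  · exact (Finset.prod_eq_single (f := d) ⟨0, NeZero.pos p⟩ (fun i _ hi => if_neg hi)
      (fun h => absurd (Finset.mem_univ _) h)).trans (if_pos rfl)
  · have key : (List.ofFn fun i : Fin p =>
        if hi : (i : ℕ) < l.length then x 0 - l[(i : ℕ)] * x 1 else x 1) =
        l.map (fun θ => x 0 - θ * x 1) ++ List.replicate (p - l.length) (x 1) := by
      refine List.ext_getElem (by simp; omega) fun n h1 h2 => ?_
      by_cases hn : n < l.length
      · simp [hn]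
      · rw [List.getElem_append_right (by simp; omega)]
        simp [hn]
    rw [← List.prod_ofFn, key, List.prod_append, List.prod_replicate, mul_comm]
    rw [← Multiset.prod_coe, ← Multiset.map_coe, hl, Multiset.coe_toList, Multiset.length_toList]

variable (M : IntermediateField L₀ E)

/-- Cyclic orbit functions of the elements fixed by a subgroup. -/
noncomputable def orbW [FiniteDimensional L₀ M] (P : Subgroup Gal(M/L₀)) (H : Subgroup Gal(M/L₀))
    (hHP : H ≤ P) (σ : Gal(M/L₀)) (hσ : σ ∈ P) :
    Subalgebra (IntermediateField.lift (IntermediateField.fixedField P)) (ZMod p → E) where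
  carrier := {u | ∃ e ∈ IntermediateField.fixedField H, ∀ i : ZMod p,
    u i = (((σ ^ i.val) e : M) : E)}
  add_mem' := by
    rintro u v ⟨a, ha, hu⟩ ⟨b, hb, hv⟩
    exact ⟨a + b, add_mem ha hb, fun i => by simp [hu i, hv i]⟩
  mul_mem' := by
    rintro u v ⟨a, ha, hu⟩ ⟨b, hb, hv⟩
    exact ⟨a * b, mul_mem ha hb, fun i => by simp [hu i, hv i]⟩
  algebraMap_mem' := by
    rintro ⟨c, hc⟩
    have hcM : c ∈ M := IntermediateField.lift_le _ hc
    have hcP : (⟨c, hcM⟩ : M) ∈ IntermediateField.fixedField P :=
      (IntermediateField.mem_lift (⟨c, hcM⟩ : M)).1 hc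
    refine ⟨⟨c, hcM⟩, IntermediateField.fixedField_le hHP hcP, fun i => ?_⟩
    have hfix := (IntermediateField.mem_fixedField_iff P _).1 hcP
    rw [hfix _ (pow_mem hσ _)]
    rfl

/-- The forms that do not split over the fixed field of a `p`-group. -/
theorem exists_cyclic [IsAlgClosed E] [FiniteDimensional L₀ M] [IsGalois L₀ M]
    (P : Subgroup Gal(M/L₀)) (hP : IsPGroup p P) {G : MvPolynomial (Fin 2) L₀}
    (hG : G.IsHomogeneous p) (θ : M)
    (hθ : (θ : E) ∈ (dehom G).aroots E) (hθL : θ ∉ IntermediateField.fixedField P) :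
    ∃ B : Block (IntermediateField.lift (IntermediateField.fixedField P)) p, ∀ x : Fin 2 → E,
      B.gam ^ p * ∏ i, (∑ j, x j * B.lam j i) = MvPolynomial.aeval x G := by
  classical
  have hp : p.Prime := Fact.out
  set R := (dehom G).aroots E with hR
  have hRp : Multiset.card R ≤ p :=
    (card_roots' _).trans (by rw [natDegree_map]; exact natDegree_dehom_le hG)
  have hmap : ∀ (τ : Gal(M/L₀)) (t : M), (t : E) ∈ R → ((τ t : M) : E) ∈ R := by
    intro τ t ht
    rw [hR, mem_aroots] at ht ⊢
    refine ⟨ht.1, ?_⟩
    have h0 : aeval t (dehom G) = 0 :=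
      Subtype.val_injective (by simpa [aeval_algebraMap_apply] using
        (aeval_algHom_apply M.val t (dehom G)).symm.trans ht.2)
    have h1 := congrArg (fun y : M => M.val (τ y)) h0
    simp only [map_zero] at h1
    rw [← aeval_algHom_apply τ, ← aeval_algHom_apply M.val] at h1
    exact h1
  set H0 : Subgroup P := MulAction.stabilizer P θ with hH0
  have hidx : H0.index = p := by
    rw [hH0, MulAction.index_stabilizer]
    have hsub : (fun t : M => (t : E)) '' MulAction.orbit P θ ⊆ (R.toFinset : Set E) := by
      rintro _ ⟨_, ⟨τ, rfl⟩, rfl⟩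
      exact Multiset.mem_toFinset.2 (hmap τ.1 θ hθ)
    have hfin : (MulAction.orbit P θ).Finite :=
      Set.Finite.of_finite_image ((R.toFinset.finite_toSet).subset hsub)
        Subtype.val_injective.injOn
    have := hfin.to_subtype
    obtain ⟨n, hn⟩ := hP.card_orbit θ
    rw [Nat.card_coe_set_eq] at hn
    have hle : (MulAction.orbit P θ).ncard ≤ p := by
      rw [← Set.ncard_image_of_injective _ Subtype.val_injective]
      refine (Set.ncard_le_ncard hsub).trans ?_
      rw [Set.ncard_coe_finset]
      exact (Multiset.toFinset_card_le R).trans hRp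
    have hne : n ≠ 0 := by
      rintro rfl
      obtain ⟨a, ha⟩ := Set.ncard_eq_one.1 (hn.trans (pow_zero p))
      refine hθL ((IntermediateField.mem_fixedField_iff P θ).2 fun τ hτ => ?_)
      have h1 : θ ∈ MulAction.orbit P θ := MulAction.mem_orbit_self θ
      have h2 : (⟨τ, hτ⟩ : P) • θ ∈ MulAction.orbit P θ := MulAction.mem_orbit θ _
      rw [ha, Set.mem_singleton_iff] at h1 h2
      exact h2.trans h1.symm
    rw [hn] at hle ⊢
    have : n ≤ 1 := (Nat.pow_le_pow_iff_right hp.one_lt).1 (hle.trans (pow_one p).ge)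
    rw [show n = 1 by omega, pow_one]
  obtain ⟨k, hk⟩ := IsPGroup.iff_card.1 hP
  have hnormal : H0.Normal := by
    refine Subgroup.normal_of_index_eq_minFac_card ?_
    have hk0 : k ≠ 0 := by
      rintro rfl
      have := H0.index_dvd_card
      rw [hidx, hk, pow_zero, Nat.dvd_one] at this
      exact hp.one_lt.ne' this
    rw [hidx, hk, hp.pow_minFac hk0]
  obtain ⟨s, hs⟩ : ∃ s : P, s ∉ H0 := by
    by_contra! hc
    have : H0 = ⊤ := eq_top_iff.2 fun s _ => hc s
    rw [this, Subgroup.index_top] at hidx
    exact hp.one_lt.ne hidx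
  have hpow : ∀ n, s ^ n ∈ H0 ↔ p ∣ n := by
    intro n
    have ho : orderOf (s : P ⧸ H0) = p := by
      refine orderOf_eq_prime ?_ (by rwa [ne_eq, QuotientGroup.eq_one_iff])
      rw [← QuotientGroup.mk_pow, QuotientGroup.eq_one_iff]
      exact hidx ▸ H0.pow_index_mem s
    rw [← QuotientGroup.eq_one_iff, QuotientGroup.mk_pow, ← orderOf_dvd_iff_pow_eq_one, ho]
  set H := H0.map P.subtype with hH
  set σ : Gal(M/L₀) := s.1 with hσ
  have hfix : ∀ e : M, e ∈ IntermediateField.fixedField H ↔ ∀ h ∈ H0, h.1 e = e := by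
    intro e
    simp [hH]
  have hθH : θ ∈ IntermediateField.fixedField H := (hfix θ).2 fun h hh => hh
  have hper : ∀ e ∈ IntermediateField.fixedField H, ∀ n, (σ ^ n) e = (σ ^ (n % p)) e := by
    intro e he n
    conv_lhs => rw [← Nat.mod_add_div n p, pow_add, AlgEquiv.mul_apply]
    congr 1
    exact (hfix e).1 he _ ((hpow _).2 (dvd_mul_right p _))
  let f : ZMod p → E := fun i => (((σ ^ i.val) θ : M) : E)
  have hinj : Function.Injective f := by
    have key : ∀ i j : ZMod p, i.val ≤ j.val → f i = f j → i = j := by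
      intro i j hij h
      have h1 : (σ ^ i.val) θ = (σ ^ j.val) θ := Subtype.val_injective h
      rw [← Nat.add_sub_cancel' hij, pow_add, AlgEquiv.mul_apply] at h1
      have h2 := (σ ^ i.val).injective h1
      have h3 : p ∣ j.val - i.val := (hpow _).1 h2.symm
      have := Nat.eq_zero_of_dvd_of_lt h3 (lt_of_le_of_lt (Nat.sub_le _ _) (ZMod.val_lt j))
      exact ZMod.val_injective p (by omega)
    intro i j h
    rcases le_total i.val j.val with hij | hij
    exacts [key i j hij h, (key j i hij h.symm).symm]
  have hfR : R = Finset.univ.val.map f := by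
    refine (Multiset.eq_of_le_of_card_le ?_ ?_).symm
    · rw [Multiset.le_iff_subset (Finset.univ.nodup.map hinj)]
      intro t ht
      obtain ⟨i, -, rfl⟩ := Multiset.mem_map.1 ht
      exact hmap _ θ hθ
    · simpa using hRp
  set L := IntermediateField.lift (IntermediateField.fixedField P) with hL
  have hHP : H ≤ P := Subgroup.map_subtype_le _
  let K := IntermediateField.lift (IntermediateField.fixedField H)
  have hLK : L ≤ K := by
    intro c hc
    have hcM : c ∈ M := IntermediateField.lift_le _ hc
    exact (IntermediateField.mem_lift (⟨c, hcM⟩ : M)).2 (IntermediateField.fixedField_le hHP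
      ((IntermediateField.mem_lift (⟨c, hcM⟩ : M)).1 hc))
  let K' := IntermediateField.extendScalars hLK
  have hrank : finrank L K' = p := by
    have hT := Module.finrank_mul_finrank L₀ L K'
    have hLr : finrank L₀ L = P.index := by
      rw [hL, ← (IntermediateField.liftAlgEquiv _).toLinearEquiv.finrank_eq,
        IntermediateField.finrank_eq_fixingSubgroup_index,
        IntermediateField.fixingSubgroup_fixedField]
    have hKr : finrank L₀ K' = p * P.index := by
      change finrank L₀ K = _
      rw [← (IntermediateField.liftAlgEquiv _).toLinearEquiv.finrank_eq,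
        IntermediateField.finrank_eq_fixingSubgroup_index,
        IntermediateField.fixingSubgroup_fixedField, hH, Subgroup.index_map_subtype, hidx]
    rw [hLr, hKr, mul_comm p] at hT
    exact Nat.eq_of_mul_eq_mul_left (Nat.pos_of_ne_zero Subgroup.index_ne_zero_of_finite) hT
  let W := orbW (p := p) M P H hHP σ s.2
  have h0 : ∀ u ∈ W, u 0 ∈ K' := by
    rintro u ⟨e, he, hu⟩
    rw [hu 0, ZMod.val_zero, pow_zero, AlgEquiv.one_apply]
    exact (IntermediateField.mem_lift e).2 he
  let φ : W →ₗ[L] K' :=
    { toFun := fun u => ⟨u.1 0, h0 _ u.2⟩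
      map_add' := fun _ _ => rfl
      map_smul' := fun _ _ => rfl }
  have hφ : Function.Injective φ := by
    rintro ⟨u, a, ha, hu⟩ ⟨v, b, hb, hv⟩ h
    have h' : u 0 = v 0 := congrArg Subtype.val h
    rw [hu 0, hv 0, ZMod.val_zero, pow_zero, AlgEquiv.one_apply, AlgEquiv.one_apply] at h'
    refine Subtype.ext (funext fun i => ?_)
    change u i = v i
    rw [hu i, hv i, Subtype.val_injective h']
  have : FiniteDimensional L K' := Module.finite_of_finrank_pos (hrank ▸ hp.pos)
  obtain ⟨γ, hγ⟩ := IsAlgClosed.exists_pow_nat_eq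
    (algebraMap L₀ E (dehom G).leadingCoeff) hp.pos
  let B : Block L p :=
    { gam := γ
      gam_pow := hγ ▸ L.algebraMap_mem _
      W := W
      shift := by
        rintro u ⟨e, he, hu⟩
        refine ⟨σ e, (hfix _).2 fun h hh => ?_, fun i => ?_⟩
        · have := (hfix e).1 he _ (hnormal.conj_mem' h hh s)
          simpa [hσ] using congrArg σ this
        · change u (i + 1) = _
          rw [hu, ← AlgEquiv.mul_apply, ← pow_succ, hper e he (i.val + 1), ZMod.val_add,
            ZMod.val_one]
      W_finite := Module.Finite.of_injective φ hφ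
      W_le := (LinearMap.finrank_le_finrank_of_injective hφ).trans hrank.le
      const := by
        rintro u ⟨e, he, hu⟩ hc
        have hσe : σ e = e := by
          have := hc 1
          rw [hu, hu, ZMod.val_one, ZMod.val_zero, pow_one, pow_zero, AlgEquiv.one_apply] at this
          exact Subtype.val_injective this
        have hle : H0 ≤ MulAction.stabilizer P e := fun h hh => (hfix e).1 he h hh
        have htop : MulAction.stabilizer P e = ⊤ := by
          rcases (Nat.dvd_prime hp).1 (hidx ▸ Subgroup.index_dvd_of_le hle) with h1 | h1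
          · exact Subgroup.index_eq_one.1 h1
          · have h2 := Subgroup.relIndex_mul_index hle
            rw [h1, hidx] at h2
            have h3 : H0.relIndex (MulAction.stabilizer P e) = 1 :=
              Nat.eq_of_mul_eq_mul_right hp.pos (by rw [h2, one_mul])
            exact absurd (Subgroup.relIndex_eq_one.1 h3 (show s • e = e from hσe)) hs
        rw [hu, ZMod.val_zero, pow_zero, AlgEquiv.one_apply]
        refine (IntermediateField.mem_lift e).2 ((IntermediateField.mem_fixedField_iff P e).2
          fun τ hτ => ?_)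
        exact htop.ge (Subgroup.mem_top (⟨τ, hτ⟩ : P))
      lam := ![fun _ => 1, fun i => -f i]
      lam_mem := fun j => by
        fin_cases j
        · exact one_mem W
        · exact neg_mem (show f ∈ W from ⟨θ, hθH, fun _ => rfl⟩) }
  refine ⟨B, fun x => ?_⟩
  change γ ^ p * ∏ i, (∑ j, x j * ![fun _ => (1 : E), fun i => -f i] j i) = _
  rw [hγ, aeval_eq_prod_roots hG, ← hR, hfR]
  simp [Fin.sum_univ_two, Multiset.map_map, sub_eq_add_neg, mul_comm (x 1), ZMod.card]

end Blocks

/-- A field of degree prime to `p` over which every form has a weighted cyclic factorisation. -/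
theorem exists_blockField' [IsAlgClosed E] [Algebra.IsAlgebraic L₀ E] [Fact p.Prime]
    (hchar : ∀ i : ℕ, 0 < i → i ≤ p → (i : L₀) ≠ 0) {b : ℕ}
    (G : Fin b → MvPolynomial (Fin 2) L₀) (hG : ∀ r, (G r).IsHomogeneous p) :
    ∃ L : IntermediateField L₀ E, FiniteDimensional L₀ L ∧ Algebra.IsSeparable L₀ L ∧
      (finrank L₀ L).Coprime p ∧
      ∃ B : Fin b → Block L p, ∀ r, ∀ x : Fin 2 → E,
        (B r).gam ^ p * ∏ i, (∑ j, x j * (B r).lam j i) = MvPolynomial.aeval x (G r) := by
  classical
  let S : Set E := ⋃ r, {t | t ∈ (dehom (G r)).aroots E}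
  have hS : S.Finite := Set.finite_iUnion fun r => Multiset.finite_toSet _
  let M := IntermediateField.adjoin L₀ S
  have hfd : FiniteDimensional L₀ M := by
    have := hS.to_subtype
    exact IntermediateField.finiteDimensional_adjoin
      fun t _ => Algebra.IsIntegral.isIntegral t
  have : IsAlgClosure L₀ E := ⟨inferInstance, inferInstance⟩
  have : Normal L₀ E := IsAlgClosure.normal L₀ E
  have hn : Normal L₀ M := by
    refine IntermediateField.normal_iff_forall_map_le.2 fun σ => ?_
    rw [IntermediateField.adjoin_map]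
    refine IntermediateField.adjoin.mono _ _ _ ?_
    rintro _ ⟨t, ht, rfl⟩
    obtain ⟨r, hr⟩ := Set.mem_iUnion.1 ht
    refine Set.mem_iUnion.2 ⟨r, ?_⟩
    rw [Set.mem_ofPred_eq, mem_aroots] at hr ⊢
    exact ⟨hr.1, by rw [aeval_algHom_apply, hr.2, map_zero]⟩
  have hsep : Algebra.IsSeparable L₀ M := by
    refine (IntermediateField.isSeparable_adjoin_iff_isSeparable L₀ E).2 fun t ht => ?_
    obtain ⟨r, hr⟩ := Set.mem_iUnion.1 ht
    rw [Set.mem_ofPred_eq, mem_aroots] at hr
    have hint : IsIntegral L₀ t := Algebra.IsIntegral.isIntegral t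
    refine (separable_iff_derivative_ne_zero (minpoly.irreducible hint)).2 fun h0 => ?_
    have hpos := minpoly.natDegree_pos hint
    have := congrArg (fun q : L₀[X] => q.coeff ((minpoly L₀ t).natDegree - 1)) h0
    simp only [coeff_derivative, coeff_zero, Nat.sub_add_cancel hpos] at this
    rw [(minpoly.monic hint).coeff_natDegree, one_mul] at this
    refine hchar _ hpos ((natDegree_le_of_dvd (minpoly.dvd L₀ t hr.2) hr.1).trans
      (natDegree_dehom_le (hG r))) ?_
    rw [← this, ← Nat.cast_add_one, Nat.sub_add_cancel hpos]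
  have : IsGalois L₀ M := { to_isSeparable := hsep, to_normal := hn }
  obtain ⟨P⟩ : Nonempty (Sylow p Gal(M/L₀)) := inferInstance
  refine ⟨IntermediateField.lift (IntermediateField.fixedField (P : Subgroup Gal(M/L₀))), ?_, ?_,
    ?_, ?_⟩
  · exact (IntermediateField.liftAlgEquiv _).toLinearEquiv.finiteDimensional
  · exact Algebra.IsSeparable.of_algHom L₀ M
      (IntermediateField.inclusion (IntermediateField.lift_le _))
  · rw [← (IntermediateField.liftAlgEquiv _).toLinearEquiv.finrank_eq,
      IntermediateField.finrank_eq_fixingSubgroup_index,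
      IntermediateField.fixingSubgroup_fixedField]
    exact ((Fact.out : p.Prime).coprime_iff_not_dvd.2 P.not_dvd_index).symm
  suffices ∀ r, ∃ B : Block (IntermediateField.lift
      (IntermediateField.fixedField (P : Subgroup Gal(M/L₀)))) p, ∀ x : Fin 2 → E,
      B.gam ^ p * ∏ i, (∑ j, x j * B.lam j i) = MvPolynomial.aeval x (G r) by
    choose B hB using this
    exact ⟨B, hB⟩
  intro r
  have hM : ∀ t ∈ (dehom (G r)).aroots E, t ∈ M :=
    fun t ht => IntermediateField.subset_adjoin _ _ (Set.mem_iUnion.2 ⟨r, ht⟩)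
  by_cases h : ∀ t ∈ (dehom (G r)).aroots E,
      t ∈ IntermediateField.lift (IntermediateField.fixedField (P : Subgroup Gal(M/L₀)))
  · exact exists_split _ (hG r) h
  push Not at h
  obtain ⟨t, ht, htL⟩ := h
  exact exists_cyclic M P P.isPGroup' (hG r) ⟨t, hM t ht⟩ ht
    fun hf => htL ((IntermediateField.mem_lift (⟨t, hM t ht⟩ : M)).2 hf)

/-- The factorisation of the values gives one of the polynomial, so that the coefficients of the
product of the factors come from `L₀`. -/
theorem map_dehom_eq [IsAlgClosed E] [NeZero p] {G : MvPolynomial (Fin 2) L₀}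
    {L : IntermediateField L₀ E} (B : Block L p)
    (h : ∀ x : Fin 2 → E, B.gam ^ p * ∏ i, (∑ j, x j * B.lam j i) = MvPolynomial.aeval x G) :
    C (B.gam ^ p) * ∏ i, (C (B.lam 0 i) * X + C (B.lam 1 i)) =
      (dehom G).map (algebraMap L₀ E) := by
  refine Polynomial.funext fun t => ?_
  rw [eval_mul, eval_C, eval_prod, eval_map, ← aeval_def, dehom]
  have e : (fun i => aeval t (![(X : L₀[X]), 1] i)) = ![t, 1] := by
    ext i
    fin_cases i <;> simp
  have e' : aeval t (MvPolynomial.aeval ![(X : L₀[X]), 1] G) = MvPolynomial.aeval ![t, 1] G := by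
    rw [← e, ← MvPolynomial.comp_aeval]
    rfl
  rw [e', ← h]
  simp [Fin.sum_univ_two, mul_comm t]

end Vale.Agent.P200.Cyc
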