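import Vale.Agent.P200.Cyc.Hilbert
import Vale.Agent.P200.Quad.Euler

/-!
Sums of binary forms of degree `p` in paired linear forms: a regular sequence of them whose
pullbacks lie in the ideal of a regular sequence of degree `p`.
-/

noncomputable section

namespace Vale.Agent.P200.Cyc

open MvPolynomial Module

variable {K : Type*} [Field K]

/-- A regular sequence filling the variables has no common zero but the origin. -/
lemma eq_zero_of_common_zero {n : ℕ} {f : Fin n → MvPolynomial (Fin n) K} {a : Fin n → ℕ}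
    (ha : ∀ i, 0 < a i) (hf : ∀ i, (f i).IsHomogeneous (a i)) (hreg : RegList ⊥ (List.ofFn f))
    {x : Fin n → K} (hx : ∀ i, eval x (f i) = 0) : x = 0 := by
  classical
  funext i
  set d := ∑ j, a j + 1
  have hd := finrank_degPart_forms ha hf hreg d
  have hall : outBox a d = (Finset.univ : Finset (Fin n)).finsuppAntidiag d := by
    refine Finset.filter_true_of_mem fun e he => ?_
    by_contra hcon
    push Not at hcon
    have : ∑ j, e j ≤ ∑ j, a j := Finset.sum_le_sum fun j _ => (hcon j).le
    change Finset.univ.sum ⇑e ≤ _ at this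
    simp only [Finset.mem_finsuppAntidiag, Finset.subset_univ, and_true] at he
    omega
  have htop : degPart d (Ideal.span (Set.range f)) = homogeneousSubmodule (Fin n) K d := by
    refine Submodule.eq_of_le_of_finrank_eq inf_le_left ?_
    rw [hd, hall, Quad.finrank_homog, ← Nat.card_eq_finsetCard]
    exact Nat.card_congr (Equiv.subtypeEquivRight fun e => by simp [Finsupp.degree_eq_sum])
  have hmem : (X i : MvPolynomial (Fin n) K) ^ d ∈ Ideal.span (Set.range f) := by
    have : (X i : MvPolynomial (Fin n) K) ^ d ∈ degPart d (Ideal.span (Set.range f)) := by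
      rw [htop]; exact isHomogeneous_X_pow i d
    exact (mem_degPart.1 this).2
  have hker : Ideal.span (Set.range f) ≤ RingHom.ker (eval x) :=
    Ideal.span_le.2 fun g ⟨j, hj⟩ => hj ▸ hx j
  have h0 := hker hmem
  rw [RingHom.mem_ker, map_pow, eval_X] at h0
  exact eq_zero_of_pow_eq_zero h0

/-- A space of forms without common zero contains a nonzerodivisor modulo an ideal with vanishing
socle. -/
lemma exists_nzd_mem {σ : Type*} [Finite σ] [IsAlgClosed K] {W : Submodule K (MvPolynomial σ K)}
    (hW : ∀ y : σ → K, (∀ P ∈ W, eval y P = 0) → y = 0)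
    {J : Ideal (MvPolynomial σ K)} (h : SocFree J) : ∃ g ∈ W, Nzd J g := by
  by_contra hcon
  push Not at hcon
  set S := MvPolynomial σ K
  have hfin := associatedPrimes.finite S (S ⧸ J)
  classical
  let s : Finset (Subspace K W) :=
    hfin.toFinset.image fun P => (P.restrictScalars K).comap W.subtype
  have hcover : (⋃ p ∈ s, (p : Set W)) = Set.univ := by
    rw [Set.eq_univ_iff_forall]
    intro l
    have hl := hcon (l : S) l.2
    unfold Nzd at hl
    push Not at hl
    obtain ⟨u, hu1, hu2⟩ := hl
    have : (l : S) ∈ {r : S | ∃ x : S ⧸ J, x ≠ 0 ∧ r • x = 0} :=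
      ⟨Submodule.Quotient.mk u, fun h0 => hu2 ((Submodule.Quotient.mk_eq_zero J).1 h0),
        (Submodule.Quotient.mk_eq_zero J).2 hu1⟩
    rw [← biUnion_associatedPrimes_eq_zero_divisors S (S ⧸ J), Set.mem_iUnion₂] at this
    obtain ⟨P, hP, hlP⟩ := this
    rw [Set.mem_iUnion₂]
    exact ⟨_, Finset.mem_image.2 ⟨P, hfin.mem_toFinset.2 hP, rfl⟩, hlP⟩
  obtain ⟨P, hP, hPtop⟩ := Finset.mem_image.1 (Subspace.top_mem_of_biUnion_eq_univ hcover)
  rw [hfin.mem_toFinset, AssociatedPrimes.mem_iff, isAssociatedPrime_iff] at hP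
  obtain ⟨hprime, x, hx⟩ := hP
  obtain ⟨u, rfl⟩ := Submodule.Quotient.mk_surjective J x
  have hzero : ∀ y ∈ zeroLocus K P, y = 0 := by
    intro y hy
    refine hW y fun g hg => ?_
    have hgP : g ∈ P := by
      have : (⟨g, hg⟩ : W) ∈ (P.restrictScalars K).comap W.subtype := hPtop ▸ Submodule.mem_top
      exact this
    simpa [aeval_def] using hy g hgP
  have hXu : ∀ i, X i * u ∈ J := by
    intro i
    have h1 : (X i : S) ∈ P := by
      rw [← hprime.radical, ← vanishingIdeal_zeroLocus_eq_radical (K := K)]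
      intro y hy
      simp [hzero y hy]
    rw [hx, Submodule.mem_colon_singleton, Submodule.mem_bot, ← Submodule.Quotient.mk_smul,
      Submodule.Quotient.mk_eq_zero] at h1
    exact h1
  have hu := h u hXu
  rw [(Submodule.Quotient.mk_eq_zero J).2 hu] at hx
  exact hprime.ne_top (by rw [hx]; ext r; simp [Submodule.mem_colon_singleton])

section grid

variable {p n : ℕ} (hchar : ∀ i : ℕ, 0 < i → i ≤ p → (i : K) ≠ 0)

include hchar in
lemma natCast_factorial_ne_zero : ((Nat.factorial p : ℕ) : K) ≠ 0 := by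
  rw [← Finset.prod_Ico_id_eq_factorial, Nat.cast_prod, Finset.prod_ne_zero_iff]
  intro i hi
  rw [Finset.mem_Ico] at hi
  exact hchar i (by omega) (by omega)

include hchar in
lemma multinomial_ne_zero {e : Fin n →₀ ℕ} (he : e.degree = p) :
    ((e.multinomial : ℕ) : K) ≠ 0 := by
  intro h0
  apply natCast_factorial_ne_zero hchar
  rw [Finsupp.multinomial_eq] at h0
  rw [← he, Finsupp.degree_apply, ← Nat.multinomial_spec, Nat.cast_mul, h0, mul_zero]

/-- The linear form with the coefficients `v`. -/
def lin (v : Fin n → K) : MvPolynomial (Fin n) K := ∑ i, v i • X i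

lemma lin_isHomogeneous (v : Fin n → K) : (lin v).IsHomogeneous 1 :=
  (homogeneousSubmodule (Fin n) K 1).sum_mem fun i _ =>
    Submodule.smul_mem _ _ (isHomogeneous_X K i)

lemma coeff_lin_pow (v : Fin n → K) (e : Fin n →₀ ℕ) :
    coeff e (lin v ^ p) = if e.degree = p then (e.multinomial : K) * e.prod (fun i m => v i ^ m) else 0 := by
  rw [lin, coeff_linearCombination_X_pow_of_fintype, Finsupp.degree_apply]
  rfl

/-- The grid `{0, …, p}`. -/
def gridVec (x : Fin n → Fin (p + 1)) : Fin n → K := fun i => ((x i : ℕ) : K)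

include hchar in
/-- A functional vanishing on the forms of a regular sequence cannot be a `p`-th power of a linear
form on the pairs from the grid. -/
lemma grid_contradiction (hp : 0 < p) {f : Fin n → MvPolynomial (Fin n) K}
    (hf : ∀ i, (f i).IsHomogeneous p) (hreg : RegList ⊥ (List.ofFn f))
    (l : MvPolynomial (Fin n) K →ₗ[K] K) (hl : ∀ g ∈ Ideal.span (Set.range f), l g = 0)
    (a : Fin n → Fin (p + 1)) (ha : l (lin (gridVec a) ^ p) ≠ 0)
    (h : ∀ b : Fin n → Fin (p + 1), ∃ u w : K,
      l (lin (gridVec a) ^ p) = u ^ p ∧ l (lin (gridVec b) ^ p) = w ^ p ∧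
      l (lin (gridVec a) ^ (p - 1) * lin (gridVec b)) = u ^ (p - 1) * w) : False := by
  classical
  set c0 := l (lin (gridVec a) ^ p) with hc0
  let β : Fin n → K := fun i => l (lin (gridVec a) ^ (p - 1) * X i)
  have hβ : ∀ v : Fin n → K, l (lin (gridVec a) ^ (p - 1) * lin v) = ∑ i, β i * v i := by
    intro v
    rw [show lin v = ∑ i, v i • X i from rfl, Finset.mul_sum, map_sum]
    refine Finset.sum_congr rfl fun i _ => ?_
    rw [mul_smul_comm, map_smul, smul_eq_mul, mul_comm]
  set cc := (c0 ^ (p - 1))⁻¹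
  have hgrid : ∀ b : Fin n → Fin (p + 1),
      l (lin (gridVec b) ^ p) = cc * (∑ i, β i * (gridVec b i : K)) ^ p := by
    intro b
    obtain ⟨u, w, h1, h2, h3⟩ := h b
    have hu : u ≠ 0 := by
      rintro rfl
      exact ha (h1.trans (zero_pow hp.ne'))
    simp only [cc]
    rw [← hβ, h3, h2, mul_pow, ← pow_mul, mul_comm (p - 1) p, pow_mul, ← h1, ← mul_assoc,
      inv_mul_cancel₀ (pow_ne_zero _ ha), one_mul]
  let E := (Finset.univ : Finset (Fin n)).finsuppAntidiag p
  have hE : ∀ e : Fin n →₀ ℕ, e ∈ E ↔ e.degree = p := fun e => by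
    simp [E, Finsupp.degree_eq_sum]
  let P : MvPolynomial (Fin n) K :=
    ∑ e ∈ E, monomial e ((e.multinomial : K) * l (monomial e 1))
  have hP : P.IsHomogeneous p := (homogeneousSubmodule (Fin n) K p).sum_mem fun e he =>
    isHomogeneous_monomial _ ((hE e).1 he)
  have hexp : ∀ g : MvPolynomial (Fin n) K, g.IsHomogeneous p →
      g = ∑ e ∈ E, monomial e (coeff e g) := by
    intro g hg
    ext e
    rw [coeff_sum]
    simp only [coeff_monomial, Finset.sum_ite_eq']
    split_ifs with he
    · rfl
    · exact hg.coeff_eq_zero fun h => he ((hE e).2 h)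
  have hPeval : ∀ v : Fin n → K, eval v P = l (lin v ^ p) := by
    intro v
    have hv : (lin v ^ p).IsHomogeneous p := by simpa using (lin_isHomogeneous v).pow p
    conv_rhs => rw [hexp _ hv]
    rw [map_sum, map_sum]
    refine Finset.sum_congr rfl fun e he => ?_
    rw [eval_monomial, coeff_lin_pow, if_pos ((hE e).1 he),
      show monomial e ((e.multinomial : K) * e.prod fun i m => v i ^ m) =
        ((e.multinomial : K) * e.prod fun i m => v i ^ m) • monomial e (1 : K) by
        rw [smul_monomial, smul_eq_mul, mul_one], map_smul, smul_eq_mul]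
    ring
  let Q : MvPolynomial (Fin n) K := cc • (lin β ^ p)
  have hQ : Q.IsHomogeneous p := (homogeneousSubmodule (Fin n) K p).smul_mem _
    (by simpa using (lin_isHomogeneous β).pow p)
  have hPQ : P - Q = 0 := by
    let S : Finset K := Finset.univ.image fun j : Fin (p + 1) => ((j : ℕ) : K)
    refine eq_zero_of_eval_zero_at_prod_finset _ (fun _ => S) (fun i => ?_) fun x hx => ?_
    · have hcard : S.card = p + 1 := by
        rw [Finset.card_image_of_injective, Finset.card_univ, Fintype.card_fin]
        intro j j' hjj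
        by_contra hne
        rcases Nat.lt_or_gt_of_ne (fun h => hne (Fin.ext h)) with hlt | hlt
        · refine hchar ((j' : ℕ) - j) (by omega) (by omega) ?_
          rw [Nat.cast_sub hlt.le, sub_eq_zero]; exact hjj.symm
        · refine hchar ((j : ℕ) - j') (by omega) (by omega) ?_
          rw [Nat.cast_sub hlt.le, sub_eq_zero]; exact hjj
      rw [hcard]
      refine Nat.lt_succ_of_le ((degreeOf_le_totalDegree _ i).trans ?_)
      exact (hP.sub hQ).totalDegree_le
    · have hx' : ∀ i, ∃ j : Fin (p + 1), ((j : ℕ) : K) = x i := fun i => by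
        simpa [S] using hx i
      choose b hb using hx'
      obtain rfl : gridVec b = x := funext hb
      rw [map_sub, hPeval, hgrid, sub_eq_zero]
      simp [Q, lin, smul_eval, mul_comm]
  have hmon : ∀ e : Fin n →₀ ℕ, e.degree = p →
      l (monomial e 1) = cc * e.prod (fun i m => β i ^ m) := by
    intro e he
    have h1 := congrArg (coeff e) (sub_eq_zero.1 hPQ)
    simp only [P, Q, coeff_sum, coeff_monomial, Finset.sum_ite_eq', (hE e).2 he, if_true,
      coeff_smul, coeff_lin_pow, if_pos he, smul_eq_mul] at h1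
    refine mul_left_cancel₀ (multinomial_ne_zero hchar he) ?_
    rw [h1]
    ring
  have hlin : ∀ g : MvPolynomial (Fin n) K, g.IsHomogeneous p → l g = cc * eval β g := by
    intro g hg
    conv_lhs => rw [hexp g hg]
    conv_rhs => rw [hexp g hg]
    rw [map_sum, map_sum, Finset.mul_sum]
    refine Finset.sum_congr rfl fun e he => ?_
    rw [eval_monomial, show monomial e (coeff e g) = coeff e g • monomial e (1 : K) by
      rw [smul_monomial, smul_eq_mul, mul_one], map_smul, smul_eq_mul, hmon e ((hE e).1 he)]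
    ring
  have hcc : cc ≠ 0 := inv_ne_zero (pow_ne_zero _ ha)
  have hβ0 : β = 0 := eq_zero_of_common_zero (fun _ => hp) hf hreg fun i => by
    have := hlin (f i) (hf i)
    rw [hl _ (Ideal.subset_span ⟨i, rfl⟩)] at this
    exact (mul_eq_zero.1 this.symm).resolve_left hcc
  apply ha
  rw [hc0, hgrid a, hβ0]
  simp [hp.ne']

end grid

variable {p n : ℕ}

/-- The pullback of a binary form to two linear forms. -/
def pullBin (v : Fin 2 → Fin n → K) : MvPolynomial (Fin 2) K →ₐ[K] MvPolynomial (Fin n) K :=
  aeval fun j => lin (v j)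

/-- Blocks: a regular sequence of sums of binary forms of degree `p` whose pullbacks lie in the
ideal of `f` on every copy. -/
theorem exists_blocks [IsAlgClosed K] (hp : 0 < p) (hn : 0 < n)
    (hchar : ∀ i : ℕ, 0 < i → i ≤ p → (i : K) ≠ 0) {f : Fin n → MvPolynomial (Fin n) K}
    (hf : ∀ i, (f i).IsHomogeneous p) (hreg : RegList ⊥ (List.ofFn f)) :
    ∃ (b : ℕ) (cp : Fin b → Fin n) (Λ : Fin b × Fin 2 → Fin n → K)
      (Bin : Fin b × Fin 2 → Fin b → MvPolynomial (Fin 2) K),
      0 < b ∧ Monotone cp ∧ (∀ l r, (Bin l r).IsHomogeneous p) ∧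
      (∀ k i, ∃ q, cp q.1 = k ∧ Λ q = Pi.single i 1) ∧
      (∃ lst : List (Fin b × Fin 2), lst.Nodup ∧ (∀ q, q ∈ lst) ∧
        RegList ⊥ (lst.map fun l => ∑ r, rename (Prod.mk r) (Bin l r))) ∧
      ∀ k l, ∑ r with cp r = k, pullBin (fun j => Λ (r, j)) (Bin l r) ∈
        Ideal.span (Set.range f) := by
  classical
  let Pr := (Fin n → Fin (p + 1)) × (Fin n → Fin (p + 1))
  let e : Fin n × Fin (Fintype.card Pr) ≃ Fin (n * Fintype.card Pr) := finProdFinEquiv
  let b := n * Fintype.card Pr
  let cp : Fin b → Fin n := fun r => (e.symm r).1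
  let pr : Fin b → Pr := fun r => (Fintype.equivFin Pr).symm (e.symm r).2
  have hsurj : ∀ k x, ∃ r, cp r = k ∧ pr r = x := fun k x =>
    ⟨e (k, Fintype.equivFin Pr x), by simp [cp], by simp [pr]⟩
  let Λ : Fin b × Fin 2 → Fin n → K := fun q =>
    gridVec (if q.2 = 0 then (pr q.1).1 else (pr q.1).2)
  have hcp : Monotone cp := by
    intro r s hrs
    show (e.symm r).1 ≤ (e.symm s).1
    simp only [e, finProdFinEquiv_symm_apply, Fin.le_iff_val_le_val, Fin.coe_divNat]
    exact Nat.div_le_div_right hrs
  have hb : 0 < b := Nat.mul_pos hn Fintype.card_pos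
  have hunit : ∀ k i, ∃ q, cp q.1 = k ∧ Λ q = Pi.single i 1 := by
    intro k i
    obtain ⟨r, hr, hr'⟩ := hsurj k (Pi.single i ⟨1, by omega⟩, Pi.single i ⟨1, by omega⟩)
    refine ⟨(r, 0), hr, ?_⟩
    funext j
    simp only [Λ, if_true, hr', gridVec]
    rcases eq_or_ne j i with rfl | hne
    · simp
    · simp [hne]
  let co : ∀ r, (Fin b → homogeneousSubmodule (Fin 2) K p) →ₗ[K] MvPolynomial (Fin 2) K := fun r =>
    (homogeneousSubmodule (Fin 2) K p).subtype.comp (LinearMap.proj r)
  let pull : Fin n → (Fin b → homogeneousSubmodule (Fin 2) K p) →ₗ[K] MvPolynomial (Fin n) K := fun k =>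
    ∑ r ∈ Finset.univ.filter (fun r => cp r = k), (pullBin fun j => Λ (r, j)).toLinearMap.comp (co r)
  let toS : (Fin b → homogeneousSubmodule (Fin 2) K p) →ₗ[K] MvPolynomial (Fin b × Fin 2) K :=
    ∑ r, (rename (Prod.mk r)).toLinearMap.comp (co r)
  let I := Ideal.span (Set.range f)
  let C0 : Submodule K (Fin b → homogeneousSubmodule (Fin 2) K p) := ⨅ k, (I.restrictScalars K).comap (pull k)
  have hC0 : ∀ t, t ∈ C0 ↔ ∀ k, pull k t ∈ I := fun t => by simp [C0, Submodule.mem_iInf]
  let W := C0.map toS
  have hWhom : ∀ P ∈ W, P.IsHomogeneous p := by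
    rintro _ ⟨t, -, rfl⟩
    simp only [toS, LinearMap.sum_apply]
    exact (homogeneousSubmodule _ K p).sum_mem fun r _ => (t r).2.rename_isHomogeneous
  have hW : ∀ y : Fin b × Fin 2 → K, (∀ P ∈ W, eval y P = 0) → y = 0 := by
    intro y hy
    by_contra hne
    obtain ⟨⟨r₀, j₀⟩, hq⟩ := Function.ne_iff.1 hne
    let k := cp r₀
    let evk : (Fin b → homogeneousSubmodule (Fin 2) K p) →ₗ[K] K := ∑ r ∈ Finset.univ.filter (fun r => cp r = k),
      (aeval (fun j => y (r, j))).toLinearMap.comp (co r)
    let q : (Fin b → homogeneousSubmodule (Fin 2) K p) →ₗ[K] Quad.Quo f := (Quad.mkA f).comp (pull k)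
    have hker : evk ∈ (LinearMap.ker q).dualAnnihilator := by
      rw [Submodule.mem_dualAnnihilator]
      intro t ht
      have htI : pull k t ∈ I := Ideal.Quotient.eq_zero_iff_mem.1 ht
      let t' : (Fin b → homogeneousSubmodule (Fin 2) K p) := fun r => if cp r = k then t r else 0
      have ht' : t' ∈ C0 := by
        rw [hC0]
        intro k'
        simp only [pull, LinearMap.sum_apply] at htI ⊢
        by_cases hk : k' = k
        · subst hk
          convert htI using 1
          refine Finset.sum_congr rfl fun r hr => ?_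
          simp [co, t', (Finset.mem_filter.1 hr).2]
        · refine Ideal.sum_mem _ fun r hr => ?_
          simp [co, t', (Finset.mem_filter.1 hr).2, hk]
      have h0 := hy _ ⟨t', ht', rfl⟩
      simp only [toS, LinearMap.sum_apply, map_sum] at h0
      simp only [evk, LinearMap.sum_apply]
      rw [Finset.sum_filter]
      refine (Finset.sum_congr rfl fun r _ => ?_).trans h0
      simp only [co, t', LinearMap.comp_apply, AlgHom.toLinearMap_apply, LinearMap.proj_apply,
        Submodule.subtype_apply, eval_rename]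
      split_ifs with h
      · simp [aeval_def, Function.comp_def]
      · simp
    rw [← LinearMap.range_dualMap_eq_dualAnnihilator_ker] at hker
    obtain ⟨l', hl'⟩ := hker
    let l : MvPolynomial (Fin n) K →ₗ[K] K := l'.comp (Quad.mkA f)
    have hl : ∀ g ∈ I, l g = 0 := fun g hg => by
      show l' (Quad.mkA f g) = 0
      rw [show Quad.mkA f g = 0 from Ideal.Quotient.eq_zero_iff_mem.2 hg, map_zero]
    have hsingle : ∀ r, cp r = k → ∀ B : MvPolynomial (Fin 2) K, B.IsHomogeneous p →
        l (pullBin (fun j => Λ (r, j)) B) = aeval (fun j => y (r, j)) B := by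
      intro r hr B hB
      have h1 := LinearMap.congr_fun hl' (Pi.single r ⟨B, hB⟩)
      simp only [LinearMap.dualMap_apply', LinearMap.comp_apply, q, pull, evk,
        LinearMap.sum_apply] at h1
      rw [Finset.sum_eq_single r, Finset.sum_eq_single r] at h1
      · simpa [co, l] using h1
      · intro r' _ hr'; simp [co, hr']
      · simp [hr]
      · intro r' _ hr'; simp [co, hr']
      · simp [hr]
    have hpow : ∀ r, cp r = k → ∀ j, l (lin (Λ (r, j)) ^ p) = y (r, j) ^ p := fun r hr j => by
      simpa [pullBin] using hsingle r hr (X j ^ p) (isHomogeneous_X_pow j p)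
    let a : Fin n → Fin (p + 1) := if j₀ = 0 then (pr r₀).1 else (pr r₀).2
    have hΛa : Λ (r₀, j₀) = gridVec a := rfl
    refine grid_contradiction hchar hp hf hreg l hl a ?_ fun x => ?_
    · rw [← hΛa, hpow r₀ rfl]
      exact pow_ne_zero _ hq
    · obtain ⟨r, hr, hr'⟩ := hsurj k (a, x)
      have h0 : Λ (r, 0) = gridVec a := by simp [Λ, hr']
      have h1 : Λ (r, 1) = gridVec x := by simp [Λ, hr']
      refine ⟨y (r, 0), y (r, 1), ?_, ?_, ?_⟩
      · rw [← h0, hpow r hr]
      · rw [← h1, hpow r hr]
      · rw [← h0, ← h1]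
        have hB : (X 0 ^ (p - 1) * X 1 : MvPolynomial (Fin 2) K).IsHomogeneous p := by
          have := (isHomogeneous_X_pow (R := K) (0 : Fin 2) (p - 1)).mul (isHomogeneous_X K 1)
          rwa [show p - 1 + 1 = p by omega] at this
        simpa [pullBin] using hsingle r hr _ hB
  have hlists : ∀ j, j ≤ Fintype.card (Fin b × Fin 2) → ∃ L : List (MvPolynomial (Fin b × Fin 2) K),
      L.length = j ∧ (∀ P ∈ L, P ∈ W) ∧ RegList ⊥ L := by
    intro j
    induction j with
    | zero => exact fun _ => ⟨[], rfl, by simp, trivial⟩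
    | succ j ih =>
      intro hj
      obtain ⟨L, hlen, hmem, hL⟩ := ih (by omega)
      obtain ⟨g, hgW, hg⟩ := exists_nzd_mem hW
        (regList_socFree (fun P hP => ⟨p, hp, hWhom P (hmem P hP)⟩) (by omega) hL)
      refine ⟨L ++ [g], by simp [hlen], fun P hP => ?_, ?_⟩
      · rcases List.mem_append.1 hP with h | h
        · exact hmem P h
        · rw [List.mem_singleton.1 h]; exact hgW
      · rw [regList_concat, sup_bot_eq]
        exact ⟨hL, hg⟩
  obtain ⟨L, hlen, hmem, hL⟩ := hlists _ le_rfl
  let eσ : Fin L.length ≃ Fin b × Fin 2 := (finCongr hlen).trans (Fintype.equivFin _).symm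
  have hchoice : ∀ l, ∃ t, t ∈ C0 ∧ toS t = L.get (eσ.symm l) := fun l => by
    obtain ⟨t, ht, h⟩ := hmem _ (L.get_mem (eσ.symm l))
    exact ⟨t, ht, h⟩
  choose t ht htS using hchoice
  refine ⟨b, cp, Λ, fun l r => (t l r : MvPolynomial (Fin 2) K), hb, hcp, fun l r => (t l r).2,
    hunit, ⟨List.ofFn eσ, List.nodup_ofFn.2 eσ.injective,
      fun q => List.mem_ofFn.2 ⟨eσ.symm q, eσ.apply_symm_apply q⟩, ?_⟩, fun k l => ?_⟩
  · rw [List.map_ofFn]
    convert hL
    conv_rhs => rw [← List.ofFn_get L]
    congr 1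
    funext i
    have := htS (eσ i)
    rw [eσ.symm_apply_apply] at this
    rw [← this]
    simp [toS, co]
  · have := (hC0 _).1 (ht l) k
    simpa [pull, co] using this

end Vale.Agent.P200.Cyc
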