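import Mathlib
import Vale.Agent.P200.Avg.Gauss

/-!
Weighted translations of the group `(ℤ/p)^b`: one cyclic shift for each block, twisted by a root
of unity so that different blocks commute up to it.
-/

noncomputable section

namespace Vale.Agent.P200.Cyc

open Matrix

/-- The points on which the operators act. -/
abbrev Pt (p b : ℕ) : Type := Fin b → ZMod p

variable {E : Type*} [Field E] {p b : ℕ} [NeZero p]

/-- The translation by `v` with weight `u`. -/
def trans (u : Pt p b → E) (v : Pt p b) : Matrix (Pt p b) (Pt p b) E :=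
  Matrix.of fun x y => if y = x + v then u x else 0

lemma trans_apply (u : Pt p b → E) (v x y : Pt p b) :
    trans u v x y = if y = x + v then u x else 0 := rfl

lemma trans_mul_apply (u : Pt p b → E) (v : Pt p b) (M : Matrix (Pt p b) (Pt p b) E) (x y : Pt p b) :
    (trans u v * M) x y = u x * M (x + v) y := by
  rw [Matrix.mul_apply, Finset.sum_eq_single (x + v)]
  · simp [trans_apply]
  · intro z _ hz; simp [trans_apply, hz]
  · simp

lemma trans_mul (u u' : Pt p b → E) (v v' : Pt p b) :
    trans u v * trans u' v' = trans (fun x => u x * u' (x + v)) (v + v') := by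
  ext x y
  rw [trans_mul_apply, trans_apply, trans_apply, add_assoc]
  split_ifs <;> simp

lemma trans_const (c : E) : trans (p := p) (b := b) (fun _ => c) 0 = algebraMap E _ c := by
  ext x y
  simp [trans_apply, Matrix.algebraMap_matrix_apply, eq_comm]

lemma trans_one : trans (E := E) (p := p) (b := b) (fun _ => 1) 0 = 1 := by
  rw [trans_const, map_one]

lemma trans_smul (c : E) (u : Pt p b → E) (v : Pt p b) :
    c • trans u v = trans (fun x => c * u x) v := by
  ext x y
  simp [trans_apply]

lemma trans_add (u u' : Pt p b → E) (v : Pt p b) :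
    trans u v + trans u' v = trans (fun x => u x + u' x) v := by
  ext x y
  simp only [Matrix.add_apply, trans_apply]
  split_ifs <;> simp

lemma trans_pow (u : Pt p b → E) (v : Pt p b) : ∀ k : ℕ,
    trans u v ^ k = trans (fun x => ∏ t ∈ Finset.range k, u (x + t • v)) (k • v)
  | 0 => by simp [trans_one]
  | k + 1 => by
    rw [pow_succ, trans_pow u v k, trans_mul, succ_nsmul]
    simp only [Finset.prod_range_succ]

/-- The character given by a root of unity. -/
def chr (ω : E) (z : ZMod p) : E := ω ^ z.val

lemma chr_zero (ω : E) : chr (p := p) ω 0 = 1 := by simp [chr]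

lemma chr_add {ω : E} (hω : ω ^ p = 1) (z z' : ZMod p) : chr ω (z + z') = chr ω z * chr ω z' := by
  rw [chr, chr, chr, ← pow_add, ZMod.val_add, ← pow_eq_pow_mod (z.val + z'.val) hω]

lemma chr_one {ω : E} (hω : ω ^ p = 1) : chr (p := p) ω 1 = ω := by
  rw [chr, ZMod.val_one_eq_one_mod, ← pow_eq_pow_mod 1 hω, pow_one]

lemma chr_pow_self {ω : E} (hω : ω ^ p = 1) (z : ZMod p) : chr ω z ^ p = 1 := by
  rw [chr, ← pow_mul, mul_comm, pow_mul, hω, one_pow]

/-- The sum of the coordinates of the earlier blocks. -/
def psum (r : Fin b) (x : Pt p b) : ZMod p := ∑ q with q < r, x q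

lemma psum_add (r : Fin b) (x y : Pt p b) : psum r (x + y) = psum r x + psum r y :=
  Finset.sum_add_distrib

lemma psum_single (r s : Fin b) : psum r (Pi.single s (1 : ZMod p)) = if s < r then 1 else 0 := by
  simp [psum, Pi.single_apply]

lemma psum_single_self (r : Fin b) (c : ZMod p) : psum r (Pi.single r c) = 0 := by
  refine Finset.sum_eq_zero fun q hq => ?_
  rw [Pi.single_eq_of_ne]
  exact (Finset.mem_filter.1 hq).2.ne

variable (ω : E) (gam : Fin b → E) (lam : Fin b → Fin 2 → ZMod p → E)

/-- The weight of a generator. -/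
def genWt (q : Fin b × Fin 2) (x : Pt p b) : E :=
  chr ω (psum q.1 x) * gam q.1 * lam q.1 q.2 (x q.1)

/-- The generators. -/
def blockGen (q : Fin b × Fin 2) : Matrix (Pt p b) (Pt p b) E :=
  trans (genWt ω gam lam q) (Pi.single q.1 1)

/-- The generators of a later block pass those of an earlier one with the root of unity. -/
lemma blockGen_comm (hω : ω ^ p = 1) {q q' : Fin b × Fin 2} (h : q.1 < q'.1) :
    blockGen ω gam lam q * blockGen ω gam lam q' =
      ω • (blockGen ω gam lam q' * blockGen ω gam lam q) := by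
  simp only [blockGen, trans_mul, trans_smul, genWt, psum_add, chr_add hω, psum_single, if_pos h,
    if_neg (not_lt.2 h.le), chr_one hω, chr_zero, Pi.add_apply, Pi.single_eq_of_ne h.ne',
    Pi.single_eq_of_ne h.ne, add_zero]
  congr 1
  · funext x
    ring
  · exact add_comm _ _

/-- The combination of the generators of one block. -/
def blockComb (y : Fin b × Fin 2 → E) (r : Fin b) : Matrix (Pt p b) (Pt p b) E :=
  trans (fun x => chr ω (psum r x) * gam r * ∑ j, y (r, j) * lam r j (x r)) (Pi.single r 1)

lemma blockComb_eq (y : Fin b × Fin 2 → E) (r : Fin b) :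
    blockComb ω gam lam y r = ∑ j, y (r, j) • blockGen ω gam lam (r, j) := by
  simp only [Fin.sum_univ_two, blockGen, trans_smul, trans_add, blockComb, genWt]
  congr 1
  funext x
  ring

lemma blockComb_pow (hω : ω ^ p = 1) (y : Fin b × Fin 2 → E) (r : Fin b) :
    blockComb ω gam lam y r ^ p =
      algebraMap E _ (gam r ^ p * ∏ i : ZMod p, ∑ j, y (r, j) * lam r j i) := by
  rw [blockComb, trans_pow, ← trans_const]
  have hp0 : p • (Pi.single r (1 : ZMod p) : Pt p b) = 0 := by
    funext q; simp
  rw [hp0]
  congr 1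
  funext x
  have hterm : ∀ t : ℕ, chr ω (psum r (x + t • Pi.single r 1)) * gam r *
      ∑ j, y (r, j) * lam r j ((x + t • Pi.single r 1 : Pt p b) r) =
      chr ω (psum r x) * gam r * ∑ j, y (r, j) * lam r j (x r + (t : ZMod p)) := by
    intro t
    rw [← Pi.single_smul', psum_add, psum_single_self, add_zero, Pi.add_apply, Pi.single_eq_same,
      nsmul_eq_mul, mul_one]
  simp only [hterm, Finset.prod_mul_distrib, Finset.prod_const, Finset.card_range]
  rw [chr_pow_self hω, one_mul]
  congr 1
  refine Finset.prod_nbij' (fun t => x r + (t : ZMod p)) (fun i => (i - x r).val) (by simp)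
    (fun i _ => Finset.mem_range.2 (ZMod.val_lt _)) (fun t ht => ?_) (fun i _ => by simp)
    (fun t _ => rfl)
  simp [ZMod.val_natCast, Nat.mod_eq_of_lt (Finset.mem_range.1 ht)]

/-- The `p`-th power of a combination of all the generators. -/
theorem blockGen_power [Fact p.Prime] (hω : IsPrimitiveRoot ω p) (y : Fin b × Fin 2 → E) :
    (∑ q, y q • blockGen ω gam lam q) ^ p =
      algebraMap E _ (∑ r, gam r ^ p * ∏ i : ZMod p, ∑ j, y (r, j) * lam r j i) := by
  classical
  have hω1 := hω.pow_eq_one
  have hp := NeZero.pos p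
  have hsum : ∑ q, y q • blockGen ω gam lam q = ∑ r, blockComb ω gam lam y r := by
    simp only [blockComb_eq, Fintype.sum_prod_type]
  rw [hsum, map_sum]
  suffices key : ∀ s : Finset (Fin b),
      (∑ r ∈ s, blockComb ω gam lam y r) ^ p = ∑ r ∈ s, blockComb ω gam lam y r ^ p by
    rw [key]
    exact Finset.sum_congr rfl fun r _ => blockComb_pow ω gam lam hω1 y r
  intro s
  induction s using Finset.induction_on_max with
  | empty => simp [hp.ne']
  | insert a s hlt ih =>
    have ha : a ∉ s := fun h => lt_irrefl a (hlt a h)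
    rw [Finset.sum_insert ha, Finset.sum_insert ha, Avg.add_pow_of_root hp
      (hω.isRoot_cyclotomic hp) (q := ω) ?_, ih]
    rw [Finset.sum_mul, Finset.mul_sum, Finset.smul_sum]
    refine Finset.sum_congr rfl fun r hr => ?_
    simp only [blockComb_eq, Finset.sum_mul_sum, Finset.smul_sum, smul_mul_smul_comm,
      blockGen_comm ω gam lam hω1 (q := (r, _)) (q' := (a, _)) (hlt r hr)]
    rw [Finset.sum_comm]
    refine Finset.sum_congr rfl fun j _ => Finset.sum_congr rfl fun k _ => ?_
    rw [smul_smul, smul_smul, mul_comm (y (a, j)), mul_comm ω]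

/-- The binary form of a block in the system with parameters `w`. -/
def formG {K L₀ σ : Type*} [Field K] [Field L₀] [Algebra K L₀] [Fintype σ] (w : σ → L₀)
    (Bin : σ → Fin b → MvPolynomial (Fin 2) K) (r : Fin b) : MvPolynomial (Fin 2) L₀ :=
  ∑ l, MvPolynomial.C (w l) * MvPolynomial.map (algebraMap K L₀) (Bin l r)

/-- The operators moving only the blocks below the threshold, invariant under the others. -/
def old (R : Type*) [CommSemiring R] [Algebra R E] (r₀ : ℕ) :
    Submodule R (Matrix (Pt p b) (Pt p b) E) where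
  carrier := {M | (∀ x y, M x y ≠ 0 → ∀ q : Fin b, r₀ ≤ (q : ℕ) → y q = x q) ∧
    ∀ x y d : Pt p b, (∀ q : Fin b, (q : ℕ) < r₀ → d q = 0) → M (x + d) (y + d) = M x y}
  add_mem' := by
    rintro M N ⟨hM, hM'⟩ ⟨hN, hN'⟩
    refine ⟨fun x y h => ?_, fun x y d hd => by
      simp only [Matrix.add_apply, hM' x y d hd, hN' x y d hd]⟩
    by_cases h0 : M x y = 0
    · rw [Matrix.add_apply, h0, zero_add] at h
      exact hN x y h
    · exact hM x y h0
  zero_mem' := ⟨fun x y h => absurd rfl h, fun _ _ _ _ => rfl⟩
  smul_mem' := by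
    rintro c M ⟨hM, hM'⟩
    refine ⟨fun x y h => hM x y fun h0 => h ?_, fun x y d hd => by
      simp only [Matrix.smul_apply, hM' x y d hd]⟩
    rw [Matrix.smul_apply, h0, smul_zero]

variable {R : Type*} [CommSemiring R] [Algebra R E] {r₀ : ℕ}

lemma one_mem_old : (1 : Matrix (Pt p b) (Pt p b) E) ∈ old R r₀ := by
  refine ⟨fun x y h q _ => ?_, fun x y d _ => by simp [Matrix.one_apply]⟩
  by_contra hne
  exact h (Matrix.one_apply_ne fun hxy => hne (by rw [hxy]))

lemma blockGen_mul_old {q : Fin b × Fin 2} (hq : (q.1 : ℕ) < r₀)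
    {M : Matrix (Pt p b) (Pt p b) E} (hM : M ∈ old R r₀) :
    blockGen ω gam lam q * M ∈ old R r₀ := by
  refine ⟨fun x y h s hs => ?_, fun x y d hd => ?_⟩
  · rw [blockGen, trans_mul_apply] at h
    rw [hM.1 _ _ (right_ne_zero_of_mul h) s hs, Pi.add_apply, Pi.single_eq_of_ne, add_zero]
    rintro rfl
    omega
  · rw [blockGen, trans_mul_apply, trans_mul_apply, add_right_comm, hM.2 _ _ d hd]
    congr 1
    have h0 : psum q.1 d = 0 := Finset.sum_eq_zero fun s hs => hd s (by
      have : (s : ℕ) < (q.1 : ℕ) := (Finset.mem_filter.1 hs).2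
      omega)
    simp only [genWt, psum_add, h0, add_zero, Pi.add_apply, hd q.1 hq]

/-- The later generators are independent over the operators of the earlier blocks, when the two
linear factors of every later block are not proportional. -/
lemma blockGen_old_injective [Fact p.Prime] (hω : ω ≠ 0)
    (hgam : ∀ r : Fin b, r₀ ≤ (r : ℕ) → gam r ≠ 0)
    (hind : ∀ r : Fin b, r₀ ≤ (r : ℕ) → ∀ c : Fin 2 → E,
      (∀ i, ∑ j, lam r j i * c j = 0) → c = 0)
    (u : Fin b × Fin 2 → Matrix (Pt p b) (Pt p b) E) (hu : ∀ q, u q ∈ old R r₀)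
    (hsupp : ∀ q : Fin b × Fin 2, (q.1 : ℕ) < r₀ → u q = 0)
    (h : ∑ q, blockGen ω gam lam q * u q = 0) : u = 0 := by
  classical
  funext ⟨r, j⟩
  by_cases hr : (r : ℕ) < r₀
  · exact hsupp _ hr
  push Not at hr
  ext x' y
  set x : Pt p b := x' - Pi.single r 1 with hx
  by_cases hy : ∀ s : Fin b, r₀ ≤ (s : ℕ) → y s = x' s
  swap
  · push Not at hy
    obtain ⟨s, hs, hys⟩ := hy
    by_contra hne
    exact hys ((hu (r, j)).1 x' y hne s hs)
  have key : ∀ t : ZMod p, ∑ k, lam r k (x r + t) * u (r, k) x' y = 0 := by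
    intro t
    have h1 := congrFun (congrFun h (x + Pi.single r t)) (y + Pi.single r t)
    rw [Matrix.sum_apply, Matrix.zero_apply, Fintype.sum_prod_type, Finset.sum_eq_single r] at h1
    · simp only [blockGen, trans_mul_apply, genWt, psum_add, psum_single_self, add_zero,
        Pi.add_apply, Pi.single_eq_same] at h1
      have hu' : ∀ k, u (r, k) (x + Pi.single r t + Pi.single r 1) (y + Pi.single r t) =
          u (r, k) x' y := by
        intro k
        rw [show x + Pi.single r t + Pi.single r 1 = x' + Pi.single r t by rw [hx]; abel]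
        refine (hu (r, k)).2 x' y _ fun s hs => Pi.single_eq_of_ne (fun he => ?_) _
        subst he
        omega
      simp only [hu', mul_assoc, ← Finset.mul_sum] at h1
      have hc : chr ω (psum r x) ≠ 0 := pow_ne_zero _ hω
      simpa [hc, hgam r hr] using h1
    · intro s _ hsr
      refine Finset.sum_eq_zero fun k _ => ?_
      by_cases hs : (s : ℕ) < r₀
      · rw [hsupp (s, k) hs, mul_zero, Matrix.zero_apply]
      push Not at hs
      simp only [blockGen, trans_mul_apply]
      refine mul_eq_zero_of_right _ ?_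
      by_contra hne
      have h2 := (hu (s, k)).1 _ _ hne r hr
      simp only [hx, Pi.add_apply, Pi.sub_apply, Pi.single_eq_same, hy r hr,
        Pi.single_eq_of_ne (Ne.symm hsr), add_zero] at h2
      have h3 : (1 : ZMod p) = 0 := by linear_combination h2
      exact one_ne_zero h3
    · simp
  have := hind r hr (fun k => u (r, k) x' y) fun i => by
    simpa using key (i - x r)
  exact congrFun this j

end Vale.Agent.P200.Cyc
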