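import Vale.Agent.P200.Cyc.Spec
import Vale.Agent.P200.Cyc.Translate

/-!
The dimension of the pieces spanned by words in the twisted weighted translations, and the
independence of the two linear factors of a block when the dimension is the largest.
-/

noncomputable section

namespace Vale.Agent.P200.Cyc

open Module Matrix

section chains

variable {L E : Type*} [Field L] [Field E] [Algebra L E] {p b : ℕ} [NeZero p]

/-- Spaces of weights of the words in one block, indexed by their length. -/
structure Chain (L : Type*) {E : Type*} [Field L] [Field E] [Algebra L E] {p : ℕ} [NeZero p]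
    (gam : E) (lam : Fin 2 → ZMod p → E) (d : ℕ) where
  /-- the weights of each length -/
  A : ZMod p → Submodule L (ZMod p → E)
  one_mem : (fun _ => 1) ∈ A 0
  finite : ∀ v, FiniteDimensional L (A v)
  le : ∀ v, finrank L (A v) ≤ d
  step : ∀ j v u, u ∈ A v → (fun i => gam * lam j i * u (i + 1)) ∈ A (v + 1)

/-- The exponent of the twist of a translation. -/
def expo (v x : Pt p b) : ZMod p := ∑ r, v r * psum r x

lemma expo_add_right (v x y : Pt p b) : expo v (x + y) = expo v x + expo v y := by
  simp only [expo, psum_add, mul_add, Finset.sum_add_distrib]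

lemma expo_add_left (v w x : Pt p b) : expo (v + w) x = expo v x + expo w x := by
  simp only [expo, Pi.add_apply, add_mul, Finset.sum_add_distrib]

lemma expo_single (r : Fin b) (x : Pt p b) : expo (Pi.single r 1) x = psum r x := by
  rw [expo, Finset.sum_eq_single r (fun s _ hs => by simp [hs]) (by simp)]
  simp

variable {ω : E} {gam : Fin b → E} {lam : Fin b → Fin 2 → ZMod p → E} {d : Fin b → ℕ}

/-- A basic element of degree `v`. -/
def basic (ω : E) (v : Pt p b) (u : Fin b → ZMod p → E) : Matrix (Pt p b) (Pt p b) E :=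
  trans (fun x => chr ω (expo v x) * ∏ r, u r (x r)) v

lemma blockGen_mul_basic (hω : ω ^ p = 1) (q : Fin b × Fin 2) (v : Pt p b)
    (u : Fin b → ZMod p → E) :
    blockGen ω gam lam q * basic ω v u = chr ω (expo v (Pi.single q.1 1)) •
      basic ω (v + Pi.single q.1 1)
        (Function.update u q.1 fun i => gam q.1 * lam q.1 q.2 i * u q.1 (i + 1)) := by
  classical
  rw [blockGen, basic, basic, trans_mul, trans_smul]
  congr 1
  · funext x
    rw [genWt, expo_add_right, chr_add hω, expo_add_left, chr_add hω, expo_single,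
      ← Finset.mul_prod_erase _ _ (Finset.mem_univ q.1),
      ← Finset.mul_prod_erase _ (fun r => Function.update u q.1 _ r (x r)) (Finset.mem_univ q.1),
      Function.update_self, Pi.add_apply, Pi.single_eq_same]
    have h : ∏ r ∈ Finset.univ.erase q.1, u r ((x + Pi.single q.1 1 : Pt p b) r) =
        ∏ r ∈ Finset.univ.erase q.1, Function.update u q.1
          (fun i => gam q.1 * lam q.1 q.2 i * u q.1 (i + 1)) r (x r) :=
      Finset.prod_congr rfl fun r hr => by
        rw [Function.update_of_ne (Finset.ne_of_mem_erase hr), Pi.add_apply,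
          Pi.single_eq_of_ne (Finset.ne_of_mem_erase hr), add_zero]
    rw [h]
    ring
  · exact add_comm _ _

lemma word_basic (hω : ω ^ p = 1) (hωL : ∃ c : L, algebraMap L E c = ω)
    (C : ∀ r, Chain L (gam r) (lam r) (d r)) : ∀ l : List (Fin b × Fin 2),
    ∃ (c : L) (v : Pt p b) (u : Fin b → ZMod p → E), ∑ r, v r = (l.length : ZMod p) ∧
      (∀ r, u r ∈ (C r).A (v r)) ∧ (l.map (blockGen ω gam lam)).prod = c • basic ω v u
  | [] => ⟨1, 0, fun _ _ => 1, by simp, fun r => (C r).one_mem, by
      simp [basic, expo, chr_zero, trans_one]⟩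
  | q :: l => by
    classical
    obtain ⟨c, v, u, hv, hu, he⟩ := word_basic hω hωL C l
    obtain ⟨w, hw⟩ := hωL
    refine ⟨c * w ^ (expo v (Pi.single q.1 1)).val, v + Pi.single q.1 1,
      Function.update u q.1 fun i => gam q.1 * lam q.1 q.2 i * u q.1 (i + 1), ?_, fun r => ?_, ?_⟩
    · simp only [Pi.add_apply, Finset.sum_add_distrib, hv, Finset.sum_pi_single', Finset.mem_univ,
        if_true, List.length_cons, Nat.cast_add, Nat.cast_one]
    · rcases eq_or_ne r q.1 with rfl | hne
      · rw [Function.update_self, Pi.add_apply, Pi.single_eq_same]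
        exact (C q.1).step q.2 _ _ (hu q.1)
      · rw [Function.update_of_ne hne, Pi.add_apply, Pi.single_eq_of_ne hne, add_zero]
        exact hu r
    · rw [List.map_cons, List.prod_cons, he, mul_smul_comm, blockGen_mul_basic hω, mul_smul]
      congr 1
      rw [chr, ← hw, ← map_pow, algebraMap_smul]

/-- The pieces are at most as large as the chains allow. -/
theorem piece_bound (hb : 0 < b) (hω : ω ^ p = 1) (hωL : ∃ c : L, algebraMap L E c = ω)
    (C : ∀ r, Chain L (gam r) (lam r) (d r)) (j : ZMod p) :
    FiniteDimensional L (pieceOf L p (blockGen ω gam lam) j) ∧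
      finrank L (pieceOf L p (blockGen ω gam lam) j) ≤ p ^ (b - 1) * ∏ r, d r := by
  classical
  have hfin := fun r v => (C r).finite v
  let bs := fun r v => Module.finBasis L ((C r).A v)
  let Ix := Σ v : {v : Pt p b // ∑ r, v r = j}, ∀ r, Fin (finrank L ((C r).A (v.1 r)))
  let fam : Ix → Matrix (Pt p b) (Pt p b) E := fun z =>
    basic ω z.1.1 fun r => (bs r (z.1.1 r) (z.2 r) : ZMod p → E)
  have hle : pieceOf L p (blockGen ω gam lam) j ≤ Submodule.span L (Set.range fam) := by
    refine Submodule.span_le.2 ?_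
    rintro _ ⟨l, hl, rfl⟩
    obtain ⟨c, v, u, hv, hu, he⟩ := word_basic hω hωL C l
    rw [he]
    refine Submodule.smul_mem _ _ ?_
    have hu' : ∀ r x, u r x =
        ∑ k, (bs r (v r)).repr ⟨u r, hu r⟩ k • (bs r (v r) k : ZMod p → E) x := by
      intro r x
      have := congrFun (congrArg Subtype.val ((bs r (v r)).sum_repr ⟨u r, hu r⟩)) x
      simp only [Submodule.coe_sum, Submodule.coe_smul, Finset.sum_apply, Pi.smul_apply] at this
      exact this.symm
    have e : basic ω v u = ∑ f : ∀ r, Fin (finrank L ((C r).A (v r))),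
        (∏ r, (bs r (v r)).repr ⟨u r, hu r⟩ (f r)) •
          basic ω v (fun r => (bs r (v r) (f r) : ZMod p → E)) := by
      ext x y
      simp only [basic, trans_apply, Matrix.sum_apply, Matrix.smul_apply]
      split_ifs with hy
      · simp only [hu']
        rw [Fintype.prod_sum, Finset.mul_sum]
        refine Finset.sum_congr rfl fun f _ => ?_
        simp only [Algebra.smul_def, Finset.prod_mul_distrib, map_prod]
        ring
      · simp
    rw [e]
    exact sum_mem fun f _ => Submodule.smul_mem _ _
      (Submodule.subset_span ⟨⟨⟨v, hv.trans hl⟩, f⟩, rfl⟩)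
  have hfd : FiniteDimensional L (Submodule.span L (Set.range fam)) :=
    FiniteDimensional.span_of_finite L (Set.finite_range fam)
  refine ⟨Submodule.finiteDimensional_of_le hle, (Submodule.finrank_mono hle).trans ?_⟩
  refine (finrank_range_le_card fam).trans ?_
  rw [Fintype.card_sigma]
  refine (Finset.sum_le_card_nsmul _ _ (∏ r, d r) fun v _ => ?_).trans ?_
  · rw [Fintype.card_pi]
    exact Finset.prod_le_prod' fun r _ => by rw [Fintype.card_fin]; exact (C r).le _
  · rw [smul_eq_mul, Finset.card_univ]
    refine Nat.mul_le_mul_right _ ?_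
    obtain ⟨c, rfl⟩ : ∃ c, b = c + 1 := ⟨b - 1, by omega⟩
    let g : {v : Pt p (c + 1) // ∑ r, v r = j} → (Fin c → ZMod p) := fun v k => v.1 k.succ
    have hg : Function.Injective g := by
      rintro ⟨v, hv⟩ ⟨v', hv'⟩ h
      have hs : ∀ k : Fin c, v k.succ = v' k.succ := congrFun h
      refine Subtype.ext (funext fun k => ?_)
      rw [Fin.sum_univ_succ] at hv hv'
      rw [Finset.sum_congr rfl fun k _ => hs k] at hv
      cases k using Fin.cases with
      | zero => exact add_right_cancel (hv.trans hv'.symm)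
      | succ k => exact hs k
    refine (Fintype.card_le_of_injective g hg).trans ?_
    rw [Fintype.card_fun, ZMod.card, Fintype.card_fin, Nat.add_sub_cancel]

end chains

variable {L₀ E : Type*} [Field L₀] [Field E] [Algebra L₀ E] {L : IntermediateField L₀ E}
  {p : ℕ} [NeZero p]

lemma val_succ (v : ZMod p) :
    (v.val + 1 < p ∧ (v + 1).val = v.val + 1) ∨ (v.val + 1 = p ∧ v + 1 = 0) := by
  rcases Nat.lt_or_ge (v.val + 1) p with h | h
  · refine Or.inl ⟨h, ?_⟩
    rw [ZMod.val_add, ZMod.val_one_eq_one_mod, Nat.add_mod_mod, Nat.mod_eq_of_lt h]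
  · have h' : v.val + 1 = p := by have := ZMod.val_lt v; omega
    refine Or.inr ⟨h', ?_⟩
    calc v + 1 = ((v.val + 1 : ℕ) : ZMod p) := by push_cast; simp
      _ = 0 := by rw [h', ZMod.natCast_self]

/-- The weights allowed by a block. -/
def Block.chain (B : Block L p) : Chain L B.gam B.lam p where
  A v := (Subalgebra.toSubmodule B.W).map (LinearMap.lsmul L (ZMod p → E) (1 : L) ∘ₗ
    (LinearMap.mulLeft L (fun _ : ZMod p => B.gam ^ v.val)))
  one_mem := ⟨1, B.W.one_mem, by
    funext i
    simp⟩
  finite v := by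
    have : FiniteDimensional L (Subalgebra.toSubmodule B.W) := B.W_finite
    infer_instance
  le v := by
    have : FiniteDimensional L (Subalgebra.toSubmodule B.W) := B.W_finite
    exact (Submodule.finrank_map_le _ _).trans B.W_le
  step j v u hu := by
    obtain ⟨w, hw, rfl⟩ := hu
    have hmem : (fun i => B.lam j i * w (i + 1)) ∈ B.W := B.W.mul_mem (B.lam_mem j) (B.shift w hw)
    rcases val_succ v with ⟨-, h⟩ | ⟨h, h'⟩
    · refine ⟨_, hmem, ?_⟩
      funext i
      simp [h, pow_succ]
      ring
    · refine ⟨(⟨B.gam ^ p, B.gam_pow⟩ : L) • (fun i => B.lam j i * w (i + 1)),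
        B.W.smul_mem hmem _, ?_⟩
      funext i
      simp only [h', ZMod.val_zero, pow_zero, LinearMap.coe_comp, Function.comp_apply,
        LinearMap.lsmul_apply, one_smul, LinearMap.mulLeft_apply, Pi.mul_apply, Pi.smul_apply,
        one_mul]
      rw [show B.gam * B.lam j i * (B.gam ^ v.val * w (i + 1)) =
        B.gam ^ (v.val + 1) * (B.lam j i * w (i + 1)) by ring, h]
      rfl

/-- A chain of lines when the factors are multiples of one function with product in `L`. -/
def degenerateChain (gam : E) (lam : Fin 2 → ZMod p → E) (μ : ZMod p → E)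
    (hμ : ∀ j, ∃ c : L, ∀ i, gam * lam j i = (c : E) * μ i) (hπ : ∏ i, μ i ∈ L) :
    Chain L gam lam 1 where
  A v := Submodule.span L {fun i => ∏ t ∈ Finset.range v.val, μ (i + (t : ZMod p))}
  one_mem := Submodule.subset_span (by simp)
  finite v := FiniteDimensional.span_of_finite L (Set.finite_singleton _)
  le v := (finrank_span_le_card _).trans (by simp)
  step j v u hu := by
    obtain ⟨a, rfl⟩ := Submodule.mem_span_singleton.1 hu
    obtain ⟨c, hc⟩ := hμ j
    rw [Submodule.mem_span_singleton]
    have key : ∀ i, ∏ t ∈ Finset.range (v.val + 1), μ (i + (t : ZMod p)) =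
        μ i * ∏ t ∈ Finset.range v.val, μ (i + 1 + (t : ZMod p)) := by
      intro i
      rw [Finset.prod_range_succ', mul_comm, Nat.cast_zero, add_zero]
      congr 1
      refine Finset.prod_congr rfl fun t _ => ?_
      congr 1
      push_cast
      ring
    rcases val_succ v with ⟨-, h⟩ | ⟨h, h'⟩
    · refine ⟨c * a, funext fun i => ?_⟩
      simp only [Pi.smul_apply, IntermediateField.smul_def, smul_eq_mul, h, key,
        MulMemClass.coe_mul, hc]
      ring
    · refine ⟨c * a * ⟨_, hπ⟩, funext fun i => ?_⟩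
      have hall : ∏ t ∈ Finset.range p, μ (i + (t : ZMod p)) = ∏ k, μ k :=
        Finset.prod_nbij' (fun t => i + (t : ZMod p)) (fun k => (k - i).val) (by simp)
          (fun k _ => Finset.mem_range.2 (ZMod.val_lt _))
          (fun t ht => by simp [ZMod.val_natCast, Nat.mod_eq_of_lt (Finset.mem_range.1 ht)])
          (fun k _ => by simp) (fun t _ => rfl)
      simp only [h', Pi.smul_apply, IntermediateField.smul_def, smul_eq_mul, ZMod.val_zero,
        Finset.range_zero, Finset.prod_empty, mul_one, MulMemClass.coe_mul, hc]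
      rw [← hall, Finset.prod_congr (congrArg Finset.range h.symm) fun _ _ => rfl, key]
      ring

lemma prod_mem_L (B : Block L p) (j : Fin 2) : ∏ i, B.lam j i ∈ L := by
  have hsh : ∀ t : ℕ, (fun i => B.lam j (i + (t : ZMod p))) ∈ B.W := by
    intro t
    induction t with
    | zero => simpa using B.lam_mem j
    | succ t ih =>
      convert B.shift _ ih using 1
      funext i
      push_cast
      ring_nf
  have hmem : (fun i => ∏ t ∈ Finset.range p, B.lam j (i + (t : ZMod p))) ∈ B.W := by
    convert B.W.prod_mem (t := Finset.range p) fun t _ => hsh t using 1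
    funext i
    rw [Finset.prod_apply]
  have hall : ∀ i, ∏ t ∈ Finset.range p, B.lam j (i + (t : ZMod p)) = ∏ k, B.lam j k := fun i =>
    Finset.prod_nbij' (fun t => i + (t : ZMod p)) (fun k => (k - i).val) (by simp)
      (fun k _ => Finset.mem_range.2 (ZMod.val_lt _))
      (fun t ht => by simp [ZMod.val_natCast, Nat.mod_eq_of_lt (Finset.mem_range.1 ht)])
      (fun k _ => by simp) (fun t _ => rfl)
  have := B.const _ hmem fun i => by simp only [hall]
  rwa [hall] at this

lemma sum_pow_mem_L (B : Block L p) {u : ZMod p → E} (hu : u ∈ B.W) : ∑ i, u i ∈ L := by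
  have hsh : ∀ t : ℕ, (fun i => u (i + (t : ZMod p))) ∈ B.W := by
    intro t
    induction t with
    | zero => simpa using hu
    | succ t ih =>
      convert B.shift _ ih using 1
      funext i
      push_cast
      ring_nf
  have hmem : (fun i => ∑ t ∈ Finset.range p, u (i + (t : ZMod p))) ∈ B.W := by
    convert B.W.sum_mem (t := Finset.range p) fun t _ => hsh t using 1
    funext i
    rw [Finset.sum_apply]
  have hall : ∀ i, ∑ t ∈ Finset.range p, u (i + (t : ZMod p)) = ∑ k, u k := fun i =>
    Finset.sum_nbij' (fun t => i + (t : ZMod p)) (fun k => (k - i).val) (by simp)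
      (fun k _ => Finset.mem_range.2 (ZMod.val_lt _))
      (fun t ht => by simp [ZMod.val_natCast, Nat.mod_eq_of_lt (Finset.mem_range.1 ht)])
      (fun k _ => by simp) (fun t _ => rfl)
  have := B.const _ hmem fun i => by simp only [hall]
  rwa [hall] at this

/-- A block has independent linear factors or a chain of lines. -/
theorem Block.nondegenerate_or_chain (B : Block L p)
    (hchar : ∀ i : ℕ, 0 < i → i ≤ p → (i : E) ≠ 0) :
    (B.gam ≠ 0 ∧ ∀ c : Fin 2 → E, (∀ i, ∑ j, B.lam j i * c j = 0) → c = 0) ∨
      Nonempty (Chain L B.gam B.lam 1) := by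
  classical
  by_cases hgam : B.gam = 0
  · exact Or.inr ⟨degenerateChain _ _ 0 (fun j => ⟨0, fun i => by simp [hgam]⟩)
      (by simp [zero_pow (NeZero.ne p)])⟩
  by_cases hind : ∀ c : Fin 2 → E, (∀ i, ∑ j, B.lam j i * c j = 0) → c = 0
  · exact Or.inl ⟨hgam, hind⟩
  push Not at hind
  obtain ⟨c, hc, hc0⟩ := hind
  have hline : ∀ j, (∏ i, B.gam * B.lam j i) ∈ L := by
    intro j
    rw [Finset.prod_mul_distrib, Finset.prod_const, Finset.card_univ, ZMod.card]
    exact mul_mem B.gam_pow (prod_mem_L B j)
  simp only [Fin.sum_univ_two] at hc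
  by_cases h0 : B.lam 0 = 0
  · refine Or.inr ⟨degenerateChain _ _ (fun i => B.gam * B.lam 1 i) (fun j => ?_) (hline 1)⟩
    fin_cases j
    · exact ⟨0, fun i => by simp [h0]⟩
    · exact ⟨1, fun i => by simp⟩
  obtain ⟨i₀, hi₀⟩ := Function.ne_iff.1 h0
  have hc1 : c 1 ≠ 0 := by
    intro h1
    refine hc0 ?_
    have := hc i₀
    rw [h1, mul_zero, add_zero] at this
    funext j
    fin_cases j
    · exact (mul_eq_zero.1 this).resolve_left hi₀
    · exact h1
  set k := -c 0 / c 1
  have hk : ∀ i, B.lam 1 i = k * B.lam 0 i := by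
    intro i
    have h1 := hc i
    simp only [k]
    field_simp
    linear_combination h1
  have hkL : k ∈ L := by
    obtain ⟨a, ha⟩ : ∃ a : E, a ∈ Finset.univ.image (B.lam 0) ∧ a ≠ 0 :=
      ⟨B.lam 0 i₀, Finset.mem_image_of_mem _ (Finset.mem_univ _), hi₀⟩
    let V := ((Finset.univ.image (B.lam 0)).erase a)
    let q : Polynomial E := Polynomial.X * ∏ v ∈ V, (Polynomial.X - Polynomial.C v)
    have hex : ∃ n, n ≠ 0 ∧ ∑ i, B.lam 0 i ^ n ≠ 0 := by
      by_contra hcon
      push Not at hcon
      have h1 : ∑ i, q.eval (B.lam 0 i) = 0 := by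
        simp only [Polynomial.eval_eq_sum_range]
        rw [Finset.sum_comm]
        refine Finset.sum_eq_zero fun n _ => ?_
        rw [← Finset.mul_sum]
        rcases eq_or_ne n 0 with rfl | hn
        · simp [q]
        · rw [hcon n hn, mul_zero]
      have h2 : ∀ i, q.eval (B.lam 0 i) =
          if B.lam 0 i = a then q.eval a else 0 := by
        intro i
        split_ifs with h
        · rw [h]
        · simp only [q, Polynomial.eval_mul, Polynomial.eval_prod]
          refine mul_eq_zero_of_right _ (Finset.prod_eq_zero (i := B.lam 0 i) ?_ (by simp))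
          exact Finset.mem_erase.2 ⟨h, Finset.mem_image_of_mem _ (Finset.mem_univ _)⟩
      have hqa : q.eval a ≠ 0 := by
        simp only [q, Polynomial.eval_mul, Polynomial.eval_X, Polynomial.eval_prod]
        refine mul_ne_zero ha.2 (Finset.prod_ne_zero_iff.2 fun v hv => ?_)
        simpa [sub_eq_zero] using (Finset.ne_of_mem_erase hv).symm
      rw [Finset.sum_congr rfl fun i _ => h2 i, ← Finset.sum_filter, Finset.sum_const,
        nsmul_eq_mul] at h1
      refine (mul_ne_zero (hchar _ (Finset.card_pos.2 ?_) ?_) hqa) h1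
      · obtain ⟨i, -, hi⟩ := Finset.mem_image.1 ha.1
        exact ⟨i, Finset.mem_filter.2 ⟨Finset.mem_univ _, hi⟩⟩
      · exact (Finset.card_filter_le _ _).trans (by rw [Finset.card_univ, ZMod.card])
    obtain ⟨n, hn0, hn⟩ := hex
    obtain ⟨n, rfl⟩ := Nat.exists_eq_succ_of_ne_zero hn0
    have h1 := sum_pow_mem_L B (B.W.pow_mem (B.lam_mem 0) (n + 1))
    have h2 := sum_pow_mem_L B (B.W.mul_mem (B.lam_mem 1) (B.W.pow_mem (B.lam_mem 0) n))
    simp only [Pi.mul_apply, Pi.pow_apply, hk, mul_assoc, ← pow_succ', ← Finset.mul_sum] at h1 h2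
    have := mul_mem h2 (inv_mem h1)
    rwa [mul_assoc, mul_inv_cancel₀ hn, mul_one] at this
  refine Or.inr ⟨degenerateChain _ _ (fun i => B.gam * B.lam 0 i) (fun j => ?_) (hline 0)⟩
  fin_cases j
  · exact ⟨1, fun i => by simp⟩
  · exact ⟨⟨k, hkL⟩, fun i => by simp [hk]; ring⟩

/-- The largest pieces force every block to be nondegenerate. -/
theorem nondegenerate_of_full {b : ℕ} (hp : 1 < p) (hchar : ∀ i : ℕ, 0 < i → i ≤ p → (i : E) ≠ 0)
    {ω : E} (hω : ω ^ p = 1) (hωL : ω ∈ L) (B : Fin b → Block L p) (j : ZMod p)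
    (hfull : finrank L (pieceOf L p
      (blockGen ω (fun r => (B r).gam) fun r => (B r).lam) j) = p ^ (2 * b - 1)) (r : Fin b) :
    (B r).gam ≠ 0 ∧ ∀ c : Fin 2 → E, (∀ i, ∑ j, (B r).lam j i * c j = 0) → c = 0 := by
  classical
  rcases (B r).nondegenerate_or_chain hchar with h | ⟨⟨C₁⟩⟩
  · exact h
  exfalso
  have hb : 0 < b := r.pos
  let d : Fin b → ℕ := fun s => if s = r then 1 else p
  let C : ∀ s, Chain L (B s).gam (B s).lam (d s) := fun s =>
    if h : s = r then by
      subst h
      exact { A := C₁.A, one_mem := C₁.one_mem, finite := C₁.finite,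
              le := fun v => (C₁.le v).trans (by simp [d]), step := C₁.step }
    else { A := (B s).chain.A, one_mem := (B s).chain.one_mem, finite := (B s).chain.finite,
           le := fun v => ((B s).chain.le v).trans (by simp [d, h]), step := (B s).chain.step }
  have h1 := (piece_bound hb hω ⟨⟨ω, hωL⟩, rfl⟩ C j).2
  rw [hfull, ← Finset.mul_prod_erase _ d (Finset.mem_univ r), Finset.prod_congr rfl
    (fun s hs => show d s = p from if_neg (Finset.ne_of_mem_erase hs)), Finset.prod_const,
    Finset.card_erase_of_mem (Finset.mem_univ r), Finset.card_univ, Fintype.card_fin,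
    show d r = 1 from if_pos rfl, one_mul, ← pow_add] at h1
  have := (Nat.pow_le_pow_iff_right hp).1 h1
  omega

end Vale.Agent.P200.Cyc
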