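import Mathlib

/-!
Counting: balanced residue sums force the leading coefficients of all residue classes to be one
multiple of `p ^ (m - 1)`.
-/

namespace Vale.Agent.P200.Cyc

open Polynomial

section Shift

variable (R : Type*) [CommRing R]

/-- The shift of sequences. -/
def shiftE : (ℕ → R) →ₗ[R] (ℕ → R) := LinearMap.funLeft R R fun s => s + 1

variable {R}

/-- A polynomial in the shift applied to a sequence. -/
noncomputable def opS (q : R[X]) : (ℕ → R) →ₗ[R] (ℕ → R) := aeval (shiftE R) q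

lemma shiftE_pow (e : ℕ) (h : ℕ → R) (s : ℕ) : (shiftE R ^ e) h s = h (s + e) := by
  induction e generalizing s with
  | zero => rfl
  | succ e ih =>
    rw [pow_succ', Module.End.mul_apply]
    show (shiftE R ^ e) h (s + 1) = _
    rw [ih, Nat.add_assoc, Nat.add_comm 1]

lemma opS_apply (q : R[X]) (h : ℕ → R) (s : ℕ) (M : ℕ) (hM : q.natDegree < M) :
    opS q h s = ∑ e ∈ Finset.range M, q.coeff e * h (s + e) := by
  rw [opS, aeval_eq_sum_range' hM]
  simp [LinearMap.sum_apply, shiftE_pow]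

/-- Two sequences agree eventually. -/
def EvEq (g h : ℕ → R) : Prop := ∃ s₀, ∀ s, s₀ ≤ s → g s = h s

lemma EvEq.opS {g h : ℕ → R} (H : EvEq g h) (q : R[X]) : EvEq (opS q g) (opS q h) := by
  obtain ⟨s₀, hs⟩ := H
  refine ⟨s₀, fun s hle => ?_⟩
  rw [opS_apply q g s _ (Nat.lt_succ_self _), opS_apply q h s _ (Nat.lt_succ_self _)]
  exact Finset.sum_congr rfl fun e _ => by rw [hs _ (by omega)]

lemma opS_mul (q q' : R[X]) (h : ℕ → R) : opS (q * q') h = opS q (opS q' h) := by
  simp [opS, Module.End.mul_apply]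

lemma opS_map {S : Type*} [CommRing S] (φ : R →+* S) (q : R[X]) (h : ℕ → R) (s : ℕ) :
    opS (q.map φ) (fun t => φ (h t)) s = φ (opS q h s) := by
  rw [opS_apply q h s _ (Nat.lt_succ_self _),
    opS_apply (q.map φ) _ s (q.natDegree + 1) (Nat.lt_succ_of_le natDegree_map_le)]
  simp [coeff_map]

end Shift

/-- The difference of a sequence. -/
def dif (g : ℕ → ℤ) : ℕ → ℤ := fun s => g (s + 1) - g s

lemma dif_iter_sub (i : ℕ) : ∀ g h : ℕ → ℤ, dif^[i] (g - h) = dif^[i] g - dif^[i] h := by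
  induction i with
  | zero => intro g h; rfl
  | succ i ih =>
    intro g h
    rw [Function.iterate_succ_apply, Function.iterate_succ_apply, Function.iterate_succ_apply, ← ih]
    congr 1
    funext s
    simp only [dif, Pi.sub_apply]
    ring

lemma dif_iter_smul (i : ℕ) (c : ℤ) : ∀ g : ℕ → ℤ, dif^[i] (c • g) = c • dif^[i] g := by
  induction i with
  | zero => intro g; rfl
  | succ i ih =>
    intro g
    rw [Function.iterate_succ_apply, Function.iterate_succ_apply, ← ih]
    congr 1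
    funext s
    simp only [dif, Pi.smul_apply, smul_eq_mul]
    ring

lemma dif_iter_shift (i b : ℕ) : ∀ g : ℕ → ℤ, dif^[i] (fun t => g (b + t)) = fun t => dif^[i] g (b + t) := by
  induction i with
  | zero => intro g; rfl
  | succ i ih =>
    intro g
    rw [Function.iterate_succ_apply, Function.iterate_succ_apply, ← ih]
    rfl

lemma dif_iter_choose (c : ℕ) : ∀ i k : ℕ,
    dif^[i] (fun s => ((s + c).choose (k + i) : ℤ)) = fun s => ((s + c).choose k : ℤ) := by
  intro i
  induction i with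
  | zero => intro k; rfl
  | succ i ih =>
    intro k
    rw [Function.iterate_succ_apply, ← ih k]
    congr 1
    funext s
    simp only [dif]
    rw [show s + 1 + c = (s + c) + 1 by omega, show k + (i + 1) = (k + i) + 1 by omega,
      Nat.choose_succ_succ']
    push_cast
    ring

lemma not_eventually_neg : ∀ (i : ℕ) (u : ℕ → ℤ), (∃ s₀, ∀ s, s₀ ≤ s → 0 ≤ u s) →
    (∃ s₀, ∀ s, s₀ ≤ s → dif^[i] u s ≤ -1) → False := by
  intro i
  induction i with
  | zero =>
    rintro u ⟨a, ha⟩ ⟨b, hb⟩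
    have h1 := ha (a + b) (by omega)
    have h2 := hb (a + b) (by omega)
    simp only [Function.iterate_zero, id] at h2
    omega
  | succ i ih =>
    rintro u hu ⟨b, hb⟩
    refine ih u hu ?_
    set T := dif^[i] u
    have hstep : ∀ n : ℕ, T (b + n) ≤ T b - n := by
      intro n
      induction n with
      | zero => simp
      | succ n ihn =>
        have := hb (b + n) (by omega)
        rw [Function.iterate_succ_apply', dif, Nat.add_assoc] at this
        push_cast
        linarith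
    refine ⟨b + (T b).natAbs + 1, fun s hs => ?_⟩
    obtain ⟨n, rfl⟩ : ∃ n, s = b + n := ⟨s - b, by omega⟩
    have := hstep n
    omega

/-- An eventually constant iterated difference between two shifted binomial bounds is their
coefficient. -/
lemma eq_of_sandwich {k : ℕ} {g : ℕ → ℤ} {K : ℤ} {r β γ : ℕ}
    (hd : ∃ s₀, ∀ s, s₀ ≤ s → dif^[k] g s = K)
    (hl : ∀ s, β ≤ s → (r : ℤ) * ((s - β + k).choose k : ℤ) ≤ g s)
    (hu : ∀ s, β ≤ s → g s ≤ (r : ℤ) * ((s + γ + k).choose k : ℤ)) : K = r := by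
  obtain ⟨s₀, hs₀⟩ := hd
  have hone : ∀ c, dif^[k] (fun s => ((s + c).choose k : ℤ)) = fun _ => (1 : ℤ) := fun c => by
    have := dif_iter_choose c k 0
    simpa using this
  rcases lt_trichotomy K r with h | h | h
  · exfalso
    refine not_eventually_neg k ((fun t => g (β + t)) - (r : ℤ) • fun t => ((t + k).choose k : ℤ))
      ⟨0, fun t _ => ?_⟩ ⟨s₀, fun t ht => ?_⟩
    · have := hl (β + t) (by omega)
      simp only [Pi.sub_apply, Pi.smul_apply, smul_eq_mul, Nat.add_sub_cancel_left] at this ⊢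
      linarith
    · rw [dif_iter_sub, dif_iter_smul, dif_iter_shift, hone]
      simp only [Pi.sub_apply, Pi.smul_apply, smul_eq_mul]
      rw [hs₀ _ (by omega)]
      linarith
  · exact h
  · exfalso
    refine not_eventually_neg k (((r : ℤ) • fun t => ((t + (γ + k)).choose k : ℤ)) - g)
      ⟨β, fun t ht => ?_⟩ ⟨s₀, fun t ht => ?_⟩
    · have := hu t ht
      simp only [Pi.sub_apply, Pi.smul_apply, smul_eq_mul]
      rw [← Nat.add_assoc]
      linarith
    · rw [dif_iter_sub, dif_iter_smul, hone]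
      simp only [Pi.sub_apply, Pi.smul_apply, smul_eq_mul]
      rw [hs₀ _ ht]
      linarith

lemma prod_one_sub_root {p : ℕ} (hp : 0 < p) {ζ : ℂ} (hζ : IsPrimitiveRoot ζ p) :
    ∏ η ∈ nthRootsFinset p (1 : ℂ), ((1 : ℂ[X]) - C η * X) = 1 - X ^ p := by
  classical
  have h := (hζ.map_of_injective (f := (C : ℂ →+* ℂ[X])) C_injective).pow_sub_pow_eq_prod_sub_mul
    (1 : ℂ[X]) X hp
  have hset : nthRootsFinset p (1 : ℂ[X]) = (nthRootsFinset p (1 : ℂ)).image C := by
    ext c
    simp only [Finset.mem_image, mem_nthRootsFinset hp]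
    constructor
    · intro hc
      have hdeg : c.natDegree = 0 := by
        have := congrArg natDegree hc
        simp only [natDegree_pow, natDegree_one] at this
        rcases mul_eq_zero.1 this with h | h <;> omega
      obtain ⟨a, rfl⟩ := natDegree_eq_zero.1 hdeg
      refine ⟨a, C_injective ?_, rfl⟩
      rw [map_pow, map_one]
      exact hc
    · rintro ⟨a, ha, rfl⟩
      rw [← map_pow, ha, map_one]
  rw [one_pow, hset, Finset.prod_image fun a _ b _ h => C_injective h] at h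
  exact h.symm

/-- The coefficients of the Hilbert series of a complete intersection of `m` forms of degree `p`. -/
noncomputable def boxCoeff (p m : ℕ) (e : ℕ) : ℤ := ((∑ i ∈ Finset.range p, (X : ℤ[X]) ^ i) ^ m).coeff e

lemma natDegree_box (p m : ℕ) :
    ((∑ i ∈ Finset.range p, (X : ℤ[X]) ^ i) ^ m).natDegree < m * (p - 1) + 1 := by
  refine Nat.lt_succ_of_le (natDegree_pow_le.trans (Nat.mul_le_mul_left _ ?_))
  refine natDegree_sum_le_of_forall_le _ _ fun i hi => ?_
  rw [natDegree_X_pow]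
  have := Finset.mem_range.1 hi
  omega

/-- The sum over one residue class in the window at `s`. -/
noncomputable def resSum (p m : ℕ) (h : ℕ → ℤ) (s a : ℕ) : ℤ :=
  ∑ e ∈ (Finset.range (m * (p - 1) + 1)).filter fun e => e % p = a % p, boxCoeff p m e * h (s + e)

lemma opS_root_eq_zero {p m : ℕ} (hp : 0 < p) {h : ℕ → ℤ} {ω : ℂ} (hω : ω ^ p = 1) (hω1 : ω ≠ 1)
    {s : ℕ} (hbal : ∀ a, resSum p m h s a = resSum p m h s (a + 1)) :
    opS (((∑ i ∈ Finset.range p, (X : ℂ[X]) ^ i) ^ m).comp (C ω * X))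
      (fun t => (h t : ℂ)) s = 0 := by
  classical
  set N := m * (p - 1) + 1
  have hmap : ((∑ i ∈ Finset.range p, (X : ℤ[X]) ^ i) ^ m).map (Int.castRingHom ℂ) =
      (∑ i ∈ Finset.range p, (X : ℂ[X]) ^ i) ^ m := by
    simp [Polynomial.map_pow, Polynomial.map_sum]
  have hc : ∀ e, (((∑ i ∈ Finset.range p, (X : ℂ[X]) ^ i) ^ m).comp (C ω * X)).coeff e =
      (boxCoeff p m e : ℂ) * ω ^ e := fun e => by
    rw [comp_C_mul_X_coeff, ← hmap, coeff_map]
    rfl
  have hdeg : (((∑ i ∈ Finset.range p, (X : ℂ[X]) ^ i) ^ m).comp (C ω * X)).natDegree < N := by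
    refine lt_of_le_of_lt (natDegree_le_iff_coeff_eq_zero.2 fun e he => ?_)
      (natDegree_box p m)
    rw [hc, boxCoeff, coeff_eq_zero_of_natDegree_lt he, Int.cast_zero, zero_mul]
  rw [opS_apply _ _ _ N hdeg, ← Finset.sum_fiberwise_of_maps_to (g := fun e => e % p)
    (t := Finset.range p) (fun e _ => Finset.mem_range.2 (Nat.mod_lt _ hp))]
  have hconst : ∀ a, resSum p m h s a = resSum p m h s 0 := by
    intro a
    induction a with
    | zero => rfl
    | succ a ih => rw [← hbal a, ih]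
  calc ∑ a ∈ Finset.range p, ∑ e ∈ (Finset.range N).filter (fun e => e % p = a),
        (((∑ i ∈ Finset.range p, (X : ℂ[X]) ^ i) ^ m).comp (C ω * X)).coeff e * (h (s + e) : ℂ)
      = ∑ a ∈ Finset.range p, ω ^ a * (resSum p m h s a : ℂ) := by
        refine Finset.sum_congr rfl fun a ha => ?_
        rw [resSum, Nat.mod_eq_of_lt (Finset.mem_range.1 ha)]
        push_cast
        rw [Finset.mul_sum]
        refine Finset.sum_congr rfl fun e he => ?_
        rw [hc, ← (Finset.mem_filter.1 he).2, pow_eq_pow_mod e hω]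
        ring
    _ = 0 := by
        simp only [hconst]
        rw [← Finset.sum_mul, geom_sum_eq hω1, hω, sub_self, zero_div, zero_mul]

/-- The finite differences of order `m` vanish eventually. -/
theorem eventually_opS_sub_one {p m : ℕ} (hp : p.Prime) {h : ℕ → ℤ}
    (hbal : ∃ s₀, ∀ s, s₀ ≤ s → ∀ a, resSum p m h s a = resSum p m h s (a + 1)) :
    EvEq (opS ((X - 1) ^ m) h) 0 := by
  classical
  obtain ⟨s₀, hbal⟩ := hbal
  have hp0 := hp.pos
  have hζ := Complex.isPrimitiveRoot_exp p hp.pos.ne'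
  set R1 := nthRootsFinset p (1 : ℂ)
  set t := R1.erase 1
  set S : ℂ → ℂ[X] := fun η => ((1 : ℂ[X]) - C η * X) ^ m
  have hR1 : (1 : ℂ) ∈ R1 := (mem_nthRootsFinset hp0 (1 : ℂ)).2 (one_pow p)
  have hne : t.Nonempty := by
    refine ⟨_, Finset.mem_erase.2 ⟨hζ.ne_one hp.one_lt, (mem_nthRootsFinset hp0 (1 : ℂ)).2 hζ.pow_eq_one⟩⟩
  have hQ : ∀ ω ∈ t, ((∑ i ∈ Finset.range p, (X : ℂ[X]) ^ i) ^ m).comp (C ω * X) =
      (1 - X) ^ m * ∏ η ∈ t \ {ω}, S η := by
    intro ω hω
    have hω' := (mem_nthRootsFinset hp0 (1 : ℂ)).1 (Finset.mem_erase.1 hω).2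
    have hne0 : S ω ≠ 0 := pow_ne_zero _ fun h0 => by
      have := congrArg (eval 0) h0
      simp at this
    refine mul_right_cancel₀ hne0 ?_
    rw [pow_comp, ← mul_pow, sum_comp]
    simp only [pow_comp, X_comp]
    rw [mul_comm, mul_neg_geom_sum, mul_pow, ← map_pow, hω', map_one, one_mul, mul_assoc,
      Finset.sdiff_singleton_eq_erase, Finset.prod_erase_mul _ _ hω, Finset.prod_pow, ← mul_pow,
      ← prod_one_sub_root hp0 hζ, ← Finset.mul_prod_erase _ _ hR1]
    simp [t]
  have hco : Pairwise (Function.onFun IsCoprime fun i : t => S i) := by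
    intro a b hab
    have hab' : (a : ℂ) ≠ b := fun h => hab (Subtype.ext h)
    refine IsCoprime.pow ⟨C ((b : ℂ) / (b - a)), C (-(a : ℂ) / (b - a)), ?_⟩
    have hba : (b : ℂ) - a ≠ 0 := sub_ne_zero.2 (Ne.symm hab')
    calc C ((b : ℂ) / (b - a)) * (1 - C (a : ℂ) * X) + C (-(a : ℂ) / (b - a)) * (1 - C (b : ℂ) * X)
        = C ((b : ℂ) / (b - a) + -(a : ℂ) / (b - a)) -
          C ((b : ℂ) / (b - a) * a + -(a : ℂ) / (b - a) * b) * X := by
          simp only [map_add, map_mul]; ring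
      _ = 1 := by
          rw [show (b : ℂ) / (b - a) + -(a : ℂ) / (b - a) = 1 by field_simp; ring,
            show (b : ℂ) / (b - a) * a + -(a : ℂ) / (b - a) * b = 0 by field_simp; ring]
          simp
  obtain ⟨μ, hμ⟩ := (exists_sum_eq_one_iff_pairwise_coprime (s := S) hne).2 hco
  have hsum : ((1 : ℂ[X]) - X) ^ m =
      ∑ ω ∈ t, μ ω * ((∑ i ∈ Finset.range p, (X : ℂ[X]) ^ i) ^ m).comp (C ω * X) := by
    calc ((1 : ℂ[X]) - X) ^ m = (1 - X) ^ m * ∑ ω ∈ t, μ ω * ∏ η ∈ t \ {ω}, S η := by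
          rw [hμ, mul_one]
      _ = _ := by
          rw [Finset.mul_sum]
          exact Finset.sum_congr rfl fun ω hω => by rw [hQ ω hω]; ring
  refine ⟨s₀, fun s hs => ?_⟩
  have hz : opS ((1 - X) ^ m : ℂ[X]) (fun t => (h t : ℂ)) s = 0 := by
    rw [hsum, opS, map_sum, LinearMap.sum_apply, Finset.sum_apply]
    refine Finset.sum_eq_zero fun ω hω => ?_
    have hω' := Finset.mem_erase.1 hω
    set Q := ((∑ i ∈ Finset.range p, (X : ℂ[X]) ^ i) ^ m).comp (C ω * X)
    rw [← opS, opS_mul]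
    rw [opS_apply (μ ω) _ s _ (Nat.lt_succ_self _)]
    refine Finset.sum_eq_zero fun e _ => ?_
    rw [opS_root_eq_zero hp0 ((mem_nthRootsFinset hp0 (1 : ℂ)).1 hω'.2) hω'.1 (hbal (s + e) (by omega)),
      mul_zero]
  have hmap : ((X - 1) ^ m : ℤ[X]).map (Int.castRingHom ℂ) = C ((-1) ^ m) * (1 - X) ^ m := by
    simp only [Polynomial.map_pow, Polynomial.map_sub, map_X, Polynomial.map_one]
    rw [map_pow, ← mul_pow]
    simp
  have := opS_map (Int.castRingHom ℂ) ((X - 1) ^ m) h s
  rw [hmap, opS_mul] at this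
  rw [opS_apply _ _ _ 1 (by simp)] at this
  simp only [Finset.range_one, Finset.sum_singleton, Nat.add_zero, eq_intCast] at this
  rw [hz, mul_zero] at this
  exact Int.cast_injective (α := ℂ) (this.symm.trans Int.cast_zero.symm)

lemma dif_iter_residue (p j : ℕ) (h : ℕ → ℤ) : ∀ i s,
    dif^[i] (fun s => h (j + p * s)) s = opS (((X : ℤ[X]) ^ p - 1) ^ i) h (j + p * s) := by
  intro i
  induction i with
  | zero => intro s; simp [opS]
  | succ i ih =>
    intro s
    rw [Function.iterate_succ_apply', dif, ih, ih, pow_succ', opS_mul]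
    simp only [opS, map_sub, map_pow, aeval_X, map_one, LinearMap.sub_apply, Pi.sub_apply,
      shiftE_pow, Module.End.one_apply]
    rw [show j + p * (s + 1) = j + p * s + p by ring]

/-- Balanced residue sums force the leading coefficient of each residue class to be a common
multiple of `p ^ (m - 1)`. -/
theorem rank_dvd {p m : ℕ} (hp : p.Prime) (hm : 0 < m) (h : ℕ → ℤ)
    (hbal : ∃ s₀, ∀ s, s₀ ≤ s → ∀ a, resSum p m h s a = resSum p m h s (a + 1))
    (r : Fin p → ℕ)
    (hsand : ∀ j : Fin p, ∃ β γ, ∀ s, β ≤ s →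
      (r j : ℤ) * ((s - β + (m - 1)).choose (m - 1) : ℤ) ≤ h (j + p * s) ∧
      h (j + p * s) ≤ (r j : ℤ) * ((s + γ + (m - 1)).choose (m - 1) : ℤ)) :
    ∃ k : ℤ, ∀ j, (r j : ℤ) = (p : ℤ) ^ (m - 1) * k := by
  obtain ⟨s₀, hs₀⟩ := eventually_opS_sub_one hp hbal
  obtain ⟨k, rfl⟩ : ∃ k, m = k + 1 := ⟨m - 1, by omega⟩
  simp only [Nat.add_sub_cancel] at hsand ⊢
  set u := opS ((X - 1 : ℤ[X]) ^ k) h
  have hconst : ∀ n, u (s₀ + n) = u s₀ := by
    intro n
    induction n with
    | zero => rfl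
    | succ n ih =>
      have := hs₀ (s₀ + n) (by omega)
      rw [pow_succ', opS_mul] at this
      simp only [opS, map_sub, aeval_X, map_one, LinearMap.sub_apply, Pi.sub_apply, Pi.zero_apply,
        Module.End.one_apply] at this
      have h1 : shiftE ℤ u (s₀ + n) = u (s₀ + n + 1) := rfl
      simp only [u, opS] at h1 ih ⊢
      rw [h1, sub_eq_zero] at this
      rw [← Nat.add_assoc, this, ih]
  refine ⟨u s₀, fun j => ?_⟩
  obtain ⟨β, γ, hs⟩ := hsand j
  symm
  refine eq_of_sandwich (g := fun s => h (j + p * s)) ⟨s₀, fun s hle => ?_⟩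
    (fun s hβ => (hs s hβ).1) (fun s hβ => (hs s hβ).2)
  rw [dif_iter_residue]
  have hfac : ((X : ℤ[X]) ^ p - 1) ^ k =
      (∑ i ∈ Finset.range p, X ^ i) ^ k * (X - 1) ^ k := by
    rw [← mul_pow, geom_sum_mul]
  rw [hfac, opS_mul]
  have hle' : s₀ ≤ (j : ℕ) + p * s := le_trans hle (le_trans (Nat.le_mul_of_pos_left _ hp.pos) (Nat.le_add_left _ _))
  set G := (∑ i ∈ Finset.range p, (X : ℤ[X]) ^ i) ^ k
  rw [opS_apply G _ _ _ (Nat.lt_succ_self _)]
  have hG : ∑ e ∈ Finset.range (G.natDegree + 1), G.coeff e = (p : ℤ) ^ k := by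
    have := eval_eq_sum_range (p := G) (1 : ℤ)
    simp only [one_pow, mul_one] at this
    rw [← this]
    simp [G, eval_pow, eval_finsetSum]
  rw [← hG, Finset.sum_mul]
  refine Finset.sum_congr rfl fun e _ => ?_
  obtain ⟨n, hn⟩ : ∃ n, (j : ℕ) + p * s + e = s₀ + n := ⟨(j : ℕ) + p * s + e - s₀, by omega⟩
  rw [show opS ((X - 1 : ℤ[X]) ^ k) h = u from rfl, hn, hconst n]

end Vale.Agent.P200.Cyc
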