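import Vale.Agent.P200.Cyc.Spec
import Vale.Agent.P200.Quad.Euler
import Vale.Agent.P200.Quad.Rows

/-!
From an algebra without homogeneous zero divisors to a division ring with linear factorisations.
-/

namespace Vale.Agent.P200.Cyc

open Polynomial Module
open scoped TensorProduct

open Vale.Agent.P200.Quad (evalT evalT_tmul eq_zero_of_evalT exists_kernel_adjoin exists_inverse)

universe v

variable {L B : Type v} [Field L] [Ring B] [Algebra L B]

/-- The algebra after adjoining a central variable and inverting. -/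
abbrev Amb (L B : Type v) [Field L] [Ring B] [Algebra L B] : Type v := RatFunc L ⊗[L] B

/-- Polynomials over the algebra inside the ambient algebra. -/
noncomputable def iota : B[X] →+* Amb L B :=
  eval₂RingHom' (Algebra.TensorProduct.includeRight : B →ₐ[L] Amb L B).toRingHom
    ((RatFunc.X : RatFunc L) ⊗ₜ[L] (1 : B)) fun b => by
      show _ * _ = _ * _
      simp [Algebra.TensorProduct.tmul_mul_tmul]

lemma iota_monomial (n : ℕ) (b : B) :
    iota (L := L) (monomial n b) = ((RatFunc.X : RatFunc L) ^ n) ⊗ₜ[L] b := by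
  show eval₂ _ _ (monomial n b) = _
  rw [eval₂_monomial]
  simp [Algebra.TensorProduct.tmul_pow, Algebra.TensorProduct.tmul_mul_tmul]

lemma iota_injective : Function.Injective (iota (L := L) (B := B)) := by
  obtain ⟨g, hg⟩ := LinearMap.exists_leftInverse_of_injective
    (IsScalarTower.toAlgHom L L[X] (RatFunc L)).toLinearMap
    (LinearMap.ker_eq_bot.2 (RatFunc.algebraMap_injective L))
  rw [injective_iff_map_eq_zero]
  intro Q hQ
  ext n
  have key : ∀ Q : B[X], evalT ((lcoeff L n).comp g) (iota Q) = Q.coeff n := by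
    intro Q
    induction Q using Polynomial.induction_on' with
    | add P Q hP hQ => simp [hP, hQ]
    | monomial m b =>
      have hm : g ((RatFunc.X : RatFunc L) ^ m) = X ^ m := by
        rw [← RatFunc.algebraMap_X, ← map_pow]
        exact LinearMap.congr_fun hg (X ^ m : L[X])
      rw [iota_monomial, evalT_tmul, LinearMap.comp_apply, hm, lcoeff_apply, coeff_X_pow,
        coeff_monomial]
      by_cases h : m = n
      · simp [h]
      · simp [h, Ne.symm h]
  rw [← key, hQ, map_zero, coeff_zero]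

variable {σ : Type*} (p : ℕ) (gen : σ → B)

/-- Polynomials whose coefficients lie in the pieces. -/
def Good (Q : B[X]) : Prop := ∀ n : ℕ, Q.coeff n ∈ pieceOf L p gen (n : ZMod p)

lemma piece_mul {i j : ZMod p} {x y : B} (hx : x ∈ pieceOf L p gen i)
    (hy : y ∈ pieceOf L p gen j) : x * y ∈ pieceOf L p gen (i + j) := by
  induction hx using Submodule.span_induction with
  | mem a ha =>
    obtain ⟨l, hl, rfl⟩ := ha
    induction hy using Submodule.span_induction with
    | mem b hb =>
      obtain ⟨l', hl', rfl⟩ := hb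
      refine Submodule.subset_span ⟨l ++ l', ?_, by rw [List.map_append, List.prod_append]⟩
      rw [List.length_append, Nat.cast_add, hl, hl']
    | zero => simp
    | add b b' _ _ hb hb' => rw [mul_add]; exact add_mem hb hb'
    | smul c b _ hb => rw [mul_smul_comm]; exact Submodule.smul_mem _ c hb
  | zero => simp
  | add a a' _ _ ha ha' => rw [add_mul]; exact add_mem ha ha'
  | smul c a _ ha => rw [smul_mul_assoc]; exact Submodule.smul_mem _ c ha

lemma one_mem_piece : (1 : B) ∈ pieceOf L p gen 0 :=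
  Submodule.subset_span ⟨[], by simp, by simp⟩

lemma Good.mul {P Q : B[X]} (hP : Good (L := L) p gen P) (hQ : Good (L := L) p gen Q) :
    Good (L := L) p gen (P * Q) := fun n => by
  rw [coeff_mul]
  refine sum_mem fun k hk => ?_
  rw [← Finset.HasAntidiagonal.mem_antidiagonal.1 hk, Nat.cast_add]
  exact piece_mul p gen (hP _) (hQ _)

lemma Good.add {P Q : B[X]} (hP : Good (L := L) p gen P) (hQ : Good (L := L) p gen Q) :
    Good (L := L) p gen (P + Q) := fun n => by
  rw [coeff_add]
  exact add_mem (hP n) (hQ n)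

lemma good_monomial {m : ℕ} {b : B} (hb : b ∈ pieceOf L p gen (m : ZMod p)) :
    Good (L := L) p gen (monomial m b) := fun n => by
  rw [coeff_monomial]
  split_ifs with h
  · exact h ▸ hb
  · exact zero_mem _

/-- A parameter polynomial as an element of `B[X]`. -/
noncomputable def par (r : L[X]) : B[X] :=
  mapAlgHom (Algebra.ofId L B) (expand L p r)

lemma good_par (hp : 0 < p) (r : L[X]) : Good (L := L) p gen (par (B := B) p r) := fun n => by
  rw [par, coe_mapAlgHom, coeff_map, coeff_expand hp]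
  split_ifs with h
  · obtain ⟨k, rfl⟩ := h
    rw [Nat.cast_mul, ZMod.natCast_self, zero_mul]
    show algebraMap L B _ ∈ _
    rw [Algebra.algebraMap_eq_smul_one]
    exact Submodule.smul_mem _ _ (one_mem_piece p gen)
  · rw [map_zero]; exact zero_mem _

lemma iota_par (r : L[X]) :
    iota (par (B := B) p r) = aeval ((RatFunc.X : RatFunc L) ^ p) r ⊗ₜ[L] (1 : B) := by
  induction r using Polynomial.induction_on' with
  | add a b ha hb =>
    rw [par, map_add, map_add, map_add, ← par, ← par, ha, hb, map_add, TensorProduct.add_tmul]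
  | monomial m c =>
    rw [par, expand_monomial, coe_mapAlgHom, map_monomial, iota_monomial, aeval_monomial,
      ← pow_mul, ← Algebra.smul_def, TensorProduct.smul_tmul, mul_comm p m]
    congr 1
    exact Algebra.algebraMap_eq_smul_one c

variable (L) in
/-- The subfield generated by the `p`-th power of the variable. -/
noncomputable abbrev Sub : IntermediateField L (RatFunc L) :=
  IntermediateField.adjoin L {(RatFunc.X : RatFunc L) ^ p}

/-- Elements cleared to polynomials. -/
def Cleared (y : Amb L B) : Prop :=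
  ∃ r : L[X], aeval ((RatFunc.X : RatFunc L) ^ p) r ≠ 0 ∧ ∃ Q : B[X], Good (L := L) p gen Q ∧
    (aeval ((RatFunc.X : RatFunc L) ^ p) r ⊗ₜ[L] (1 : B)) * y = iota Q

lemma cleared_smul (hp : 0 < p) (c : Sub L p) {y : Amb L B} (h : Cleared (L := L) p gen y) :
    Cleared (L := L) p gen (c • y) := by
  obtain ⟨r, hr, Q, hQ, he⟩ := h
  obtain ⟨a, b, hab⟩ := (IntermediateField.mem_adjoin_simple_iff L (c : RatFunc L)).1 c.2
  have hsm : c • y = ((c : RatFunc L) ⊗ₜ[L] (1 : B)) * y := by
    rw [show c • y = (c : RatFunc L) • y from rfl, Algebra.smul_def]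
    rfl
  by_cases hb : aeval ((RatFunc.X : RatFunc L) ^ p) b = 0
  · rw [hb, div_zero] at hab
    refine ⟨1, by rw [map_one]; exact one_ne_zero, 0, fun n => by simp, ?_⟩
    rw [hsm, hab, TensorProduct.zero_tmul, zero_mul, mul_zero, map_zero]
  refine ⟨r * b, by rw [map_mul]; exact mul_ne_zero hr hb, par p a * Q,
    (good_par p gen hp a).mul p gen hQ, ?_⟩
  rw [map_mul, map_mul, iota_par, ← he, hsm, hab, ← mul_assoc, ← mul_assoc,
    Algebra.TensorProduct.tmul_mul_tmul, Algebra.TensorProduct.tmul_mul_tmul, mul_one]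
  congr 2
  field_simp

lemma cleared_add (hp : 0 < p) {x y : Amb L B} (hx : Cleared (L := L) p gen x)
    (hy : Cleared (L := L) p gen y) : Cleared (L := L) p gen (x + y) := by
  obtain ⟨r, hr, Q, hQ, he⟩ := hx
  obtain ⟨r', hr', Q', hQ', he'⟩ := hy
  refine ⟨r * r', by rw [map_mul]; exact mul_ne_zero hr hr', par p r' * Q + par p r * Q',
    ((good_par p gen hp r').mul p gen hQ).add p gen ((good_par p gen hp r).mul p gen hQ'), ?_⟩
  rw [map_add, map_mul, map_mul, map_mul, iota_par, iota_par, ← he, ← he', mul_add, ← mul_assoc,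
    ← mul_assoc, Algebra.TensorProduct.tmul_mul_tmul, Algebra.TensorProduct.tmul_mul_tmul,
    mul_one, mul_comm (aeval ((RatFunc.X : RatFunc L) ^ p) r')]

/-- The vectors spanning the ambient of the division algebra. -/
noncomputable def hull : Submodule (Sub L p) (Amb L B) :=
  Submodule.span _ {y | ∃ j : ℕ, j < p ∧ ∃ x ∈ pieceOf L p gen (j : ZMod p),
    y = ((RatFunc.X : RatFunc L) ^ j) ⊗ₜ[L] x}

lemma cleared_of_mem_hull (hp : 0 < p) {y : Amb L B} (hy : y ∈ hull (L := L) p gen) :
    Cleared (L := L) p gen y := by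
  induction hy using Submodule.span_induction with
  | mem y hy =>
    obtain ⟨j, -, x, hx, rfl⟩ := hy
    refine ⟨1, by rw [map_one]; exact one_ne_zero, _, good_monomial p gen hx, ?_⟩
    rw [iota_monomial, map_one, ← Algebra.TensorProduct.one_def, one_mul]
  | zero => exact ⟨1, by rw [map_one]; exact one_ne_zero, 0, fun n => by simp, by simp⟩
  | add x y _ _ hx hy => exact cleared_add p gen hp hx hy
  | smul c x _ hx => exact cleared_smul p gen hp c hx

lemma mul_eq_zero_of_cleared
    (hnz : ∀ i j, ∀ x ∈ pieceOf L p gen i, ∀ y ∈ pieceOf L p gen j, x * y = 0 → x = 0 ∨ y = 0)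
    {x y : Amb L B} (hx : Cleared (L := L) p gen x) (hy : Cleared (L := L) p gen y)
    (hxy : x * y = 0) : x = 0 ∨ y = 0 := by
  obtain ⟨r, hr, Q, hQ, he⟩ := hx
  obtain ⟨r', hr', Q', hQ', he'⟩ := hy
  set u := (aeval ((RatFunc.X : RatFunc L) ^ p) r ⊗ₜ[L] (1 : B))
  set u' := (aeval ((RatFunc.X : RatFunc L) ^ p) r' ⊗ₜ[L] (1 : B))
  have hcomm : x * u' = u' * x := by
    show x * algebraMap (RatFunc L) (Amb L B) _ = algebraMap (RatFunc L) (Amb L B) _ * x
    rw [Algebra.commutes]
  have hzero : Q * Q' = 0 := by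
    apply iota_injective (L := L)
    rw [map_mul, ← he, ← he', map_zero, mul_assoc, ← mul_assoc x, hcomm, mul_assoc, hxy, mul_zero,
      mul_zero]
  have hcancel : ∀ (t : RatFunc L) (z : Amb L B), t ≠ 0 → (t ⊗ₜ[L] (1 : B)) * z = 0 → z = 0 := by
    intro t z ht h
    rw [← one_mul z, Algebra.TensorProduct.one_def, ← inv_mul_cancel₀ ht,
      ← mul_one (1 : B), ← Algebra.TensorProduct.tmul_mul_tmul, mul_assoc, h, mul_zero]
  by_contra hne
  push Not at hne
  have hQ0 : Q ≠ 0 := fun h => hne.1 (hcancel _ x hr (by rw [← map_zero (iota (L := L) (B := B)), ← h]; exact he))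
  have hQ'0 : Q' ≠ 0 := fun h => hne.2 (hcancel _ y hr' (by rw [← map_zero (iota (L := L) (B := B)), ← h]; exact he'))
  have h := congrArg (fun P : B[X] => P.coeff (Q.natDegree + Q'.natDegree)) hzero
  simp only [coeff_mul_degree_add_degree, coeff_zero] at h
  rcases hnz _ _ _ (hQ Q.natDegree) _ (hQ' Q'.natDegree) h with h | h
  · exact hQ0 (leadingCoeff_eq_zero.1 h)
  · exact hQ'0 (leadingCoeff_eq_zero.1 h)

lemma evalT_mul_left (c : RatFunc L) (b : B) (φ : RatFunc L →ₗ[L] L) (z : Amb L B) :
    evalT φ ((c ⊗ₜ[L] b) * z) = b * evalT (φ ∘ₗ LinearMap.mulLeft L c) z := by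
  induction z using TensorProduct.induction_on with
  | zero => simp
  | tmul c' z => simp [Algebra.TensorProduct.tmul_mul_tmul, evalT_tmul]
  | add a d ha hd => simp [mul_add, ha, hd]

lemma gen_mul_hull (hp : 0 < p) {b : B} (hb : b ∈ pieceOf L p gen 1) {w : Amb L B}
    (hw : w ∈ hull (L := L) p gen) :
    ((RatFunc.X : RatFunc L) ⊗ₜ[L] b) * w ∈ hull (L := L) p gen := by
  set T : RatFunc L := RatFunc.X with hT
  have hTp : T ^ p ∈ Sub L p := IntermediateField.subset_adjoin L _ rfl
  induction hw using Submodule.span_induction with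
  | mem w hw =>
    obtain ⟨j, hj, z, hz, rfl⟩ := hw
    rw [Algebra.TensorProduct.tmul_mul_tmul, ← pow_succ']
    have hmem := piece_mul p gen hb hz
    rcases Nat.lt_or_ge (j + 1) p with h | h
    · refine Submodule.subset_span ⟨j + 1, h, b * z, ?_, rfl⟩
      rwa [Nat.cast_add, Nat.cast_one, add_comm]
    · have hjp : j + 1 = p := by omega
      have h0 : b * z ∈ pieceOf L p gen ((0 : ℕ) : ZMod p) := by
        rw [← Nat.cast_one, ← Nat.cast_add, Nat.add_comm, hjp, ZMod.natCast_self] at hmem
        rwa [Nat.cast_zero]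
      rw [hjp, show (T ^ p) ⊗ₜ[L] (b * z) = (⟨T ^ p, hTp⟩ : Sub L p) • ((T ^ 0) ⊗ₜ[L] (b * z)) by
        show _ = (T ^ p) • ((T ^ 0) ⊗ₜ[L] (b * z))
        rw [TensorProduct.smul_tmul', smul_eq_mul, pow_zero, mul_one]]
      exact Submodule.smul_mem _ _ (Submodule.subset_span ⟨0, hp, _, h0, rfl⟩)
  | zero => simp
  | add a c _ _ ha hc => rw [mul_add]; exact add_mem ha hc
  | smul c a _ ha => rw [mul_smul_comm]; exact Submodule.smul_mem _ c ha

lemma adjoin_le_hull (hp : 0 < p) {ι : Type*} (b : ι → B) (hb : ∀ q, b q ∈ pieceOf L p gen 1)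
    {x : Amb L B} (hx : x ∈ Algebra.adjoin (Sub L p)
      (Set.range fun q => (RatFunc.X : RatFunc L) ⊗ₜ[L] b q)) : x ∈ hull (L := L) p gen := by
  have key : ∀ w ∈ hull (L := L) p gen, x * w ∈ hull (L := L) p gen := by
    induction hx using Algebra.adjoin_induction with
    | mem y hy =>
      obtain ⟨q, rfl⟩ := hy
      exact fun w hw => gen_mul_hull p gen hp (hb q) hw
    | algebraMap c => intro w hw; rw [← Algebra.smul_def]; exact Submodule.smul_mem _ c hw
    | add a b _ _ ha hb => intro w hw; rw [add_mul]; exact add_mem (ha w hw) (hb w hw)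
    | mul a b _ _ ha hb => intro w hw; rw [mul_assoc]; exact ha _ (hb w hw)
  have hone : (1 : Amb L B) ∈ hull (L := L) p gen := Submodule.subset_span
    ⟨0, hp, 1, by rw [Nat.cast_zero]; exact one_mem_piece p gen,
      by rw [pow_zero]; exact Algebra.TensorProduct.one_def⟩
  simpa using key 1 hone

lemma finite_hull (hfin : ∀ j, FiniteDimensional L (pieceOf L p gen j)) :
    FiniteDimensional (Sub L p) (hull (L := L) p gen) := by
  classical
  choose t ht using fun j : Fin p => Module.Finite.iff_fg.1 (hfin ((j : ℕ) : ZMod p))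
  let S : Set (Amb L B) := ⋃ j : Fin p,
    (fun x => ((RatFunc.X : RatFunc L) ^ (j : ℕ)) ⊗ₜ[L] x) '' (t j : Set B)
  have hS : S.Finite := Set.finite_iUnion fun j => (t j).finite_toSet.image _
  have : FiniteDimensional (Sub L p) (Submodule.span (Sub L p) S) :=
    FiniteDimensional.span_of_finite _ hS
  refine Submodule.finiteDimensional_of_le (S₂ := Submodule.span (Sub L p) S) (Submodule.span_le.2 ?_)
  rintro _ ⟨j, hj, x, hx, rfl⟩
  rw [← ht ⟨j, hj⟩] at hx
  induction hx using Submodule.span_induction with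
  | mem x hx => exact Submodule.subset_span (Set.mem_iUnion.2 ⟨⟨j, hj⟩, x, hx, rfl⟩)
  | zero => simp
  | add a b _ _ ha hb =>
    rw [SetLike.mem_coe] at ha hb ⊢
    rw [TensorProduct.tmul_add]; exact add_mem ha hb
  | smul c a _ ha =>
    rw [SetLike.mem_coe] at ha ⊢
    rw [TensorProduct.tmul_smul, ← IsScalarTower.algebraMap_smul (Sub L p) c]
    exact Submodule.smul_mem _ _ ha

variable {p gen} {K : Type*} [Field K] [Algebra K L] [Algebra K B] [IsScalarTower K L B]

/-- Nilpotency of a linear form passes to rescaled coefficients in a subalgebra. -/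
lemma pow_eq_zero_of_map {A C B' Q : Type*} [Ring A] [Algebra K A] [Ring C] [Algebra K C]
    [Ring B'] [Algebra K B'] [CommRing Q] [Algebra K Q] (ι : A →ₐ[K] C)
    (hι : Function.Injective ι) (inR : B' →ₐ[K] C) (t : C) (ht : ∀ z : C, t * z = z * t) {m : ℕ}
    (g : Fin m → A) (G : Fin m → B') (hg : ∀ i, ι (g i) = t * inR (G i)) (x : Fin m → Q) (e : ℕ)
    (h : (∑ i, G i ⊗ₜ[K] x i) ^ e = 0) : (∑ i, g i ⊗ₜ[K] x i) ^ e = 0 := by
  let mA : A ⊗[K] Q →ₐ[K] C ⊗[K] Q := Algebra.TensorProduct.map ι (AlgHom.id K Q)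
  have hmA : Function.Injective mA :=
    TensorProduct.map_injective_of_flat_flat ι.toLinearMap LinearMap.id hι Function.injective_id
  let mB : B' ⊗[K] Q →ₐ[K] C ⊗[K] Q := Algebra.TensorProduct.map inR (AlgHom.id K Q)
  have hsum : mA (∑ i, g i ⊗ₜ[K] x i) = (t ⊗ₜ[K] (1 : Q)) * mB (∑ i, G i ⊗ₜ[K] x i) := by
    rw [map_sum, map_sum, Finset.mul_sum]
    refine Finset.sum_congr rfl fun i _ => ?_
    simp only [mA, mB, Algebra.TensorProduct.map_tmul, AlgHom.id_apply,
      Algebra.TensorProduct.tmul_mul_tmul, one_mul, hg]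
  have hc : Commute (t ⊗ₜ[K] (1 : Q)) (mB (∑ i, G i ⊗ₜ[K] x i)) := by
    generalize mB (∑ i, G i ⊗ₜ[K] x i) = z
    show _ * _ = _ * _
    induction z using TensorProduct.induction_on with
    | zero => simp
    | tmul a q => rw [Algebra.TensorProduct.tmul_mul_tmul, Algebra.TensorProduct.tmul_mul_tmul,
        ht, one_mul, mul_one]
    | add a c ha hc => rw [mul_add, add_mul, ha, hc]
  apply hmA
  rw [map_pow, map_zero, hsum, hc.mul_pow, ← map_pow, h, map_zero, mul_zero]

open MvPolynomial in
/-- A division ring with linear factorisations and an invertible matrix. -/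
theorem exists_factorisation (hp : p.Prime)
    (hfin : ∀ j, FiniteDimensional L (pieceOf L p gen j))
    (hnz : ∀ i j, ∀ x ∈ pieceOf L p gen i, ∀ y ∈ pieceOf L p gen j, x * y = 0 → x = 0 ∨ y = 0)
    [Nontrivial B] {n : ℕ} (f : Fin n → MvPolynomial (Fin n) K) (G : Fin n → Fin n → B)
    (hG : ∀ k i, G k i ∈ pieceOf L p gen 1)
    (Old : Fin n → Submodule L B) (h1 : ∀ k, (1 : B) ∈ Old k)
    (hst : ∀ l k, l < k → ∀ i, ∀ u ∈ Old k, G l i * u ∈ Old k)
    (hinj : ∀ k (u : Fin n → B), (∀ i, u i ∈ Old k) → ∑ i, G k i * u i = 0 → u = 0)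
    (ω : K) (hcomm : ∀ k l, k < l → ∀ i j, G k i * G l j = ω • (G l j * G k i))
    (hpow : ∀ k, (∑ i, G k i ⊗ₜ[K]
      Ideal.Quotient.mkₐ K (Ideal.span (Set.range f)) (MvPolynomial.X i)) ^ p = 0) :
    ∃ (D : Type v) (_ : DivisionRing D) (_ : Algebra K D) (g : Fin n → Fin n → D),
      (∀ k l, k < l → ∀ i j, g k i * g l j = ω • (g l j * g k i)) ∧
      (∀ k, (∑ i, g k i ⊗ₜ[K]
        Ideal.Quotient.mkₐ K (Ideal.span (Set.range f)) (MvPolynomial.X i)) ^ p = 0) ∧
      ∃ E : Fin n → Fin n → D, ∀ i j, ∑ k, E i k * g k j = if i = j then 1 else 0 := by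
  classical
  let T : RatFunc L := RatFunc.X
  have hT0 : T ≠ 0 := RatFunc.X_ne_zero
  let gC : Fin n → Fin n → Amb L B := fun k i => T ⊗ₜ[L] G k i
  let A : Subalgebra (Sub L p) (Amb L B) := Algebra.adjoin _ (Set.range fun q : Fin n × Fin n => gC q.1 q.2)
  have hA : ∀ x ∈ A, x ∈ hull (L := L) p gen := fun x hx =>
    adjoin_le_hull p gen hp.pos (fun q : Fin n × Fin n => G q.1 q.2) (fun q => hG q.1 q.2) hx
  have hhull := finite_hull p gen hfin
  have hfinA : FiniteDimensional (Sub L p) A :=
    Submodule.finiteDimensional_of_le (S₁ := Subalgebra.toSubmodule A) fun x hx => hA x hx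
  have hnzA : NoZeroDivisors A := ⟨fun {x y} hxy => by
    rcases mul_eq_zero_of_cleared p gen hnz (cleared_of_mem_hull p gen hp.pos (hA _ x.2))
      (cleared_of_mem_hull p gen hp.pos (hA _ y.2)) (congrArg Subtype.val hxy) with h | h
    · exact Or.inl (Subtype.ext h)
    · exact Or.inr (Subtype.ext h)⟩
  have hne : Nontrivial A := ⟨⟨1, 0, fun h => by
    have h' : (1 : Amb L B) = 0 := congrArg Subtype.val h
    have h2 : iota (L := L) (1 : B[X]) = iota 0 := by rw [map_one, map_zero]; exact h'
    exact one_ne_zero (iota_injective h2)⟩⟩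
  have hdomain : IsDomain A := NoZeroDivisors.to_isDomain _
  letI instD : DivisionRing A := divisionRingOfFiniteDimensional (Sub L p) A
  let φ : K →+* Sub L p := (algebraMap L (Sub L p)).comp (algebraMap K L)
  letI instK : Algebra K A := ((algebraMap (Sub L p) A).comp φ).toAlgebra' fun c x =>
    Algebra.commutes (φ c) x
  have halg : ∀ c : K, ((algebraMap K A c : A) : Amb L B) = algebraMap K (Amb L B) c := by
    intro c
    show (algebraMap L (RatFunc L) (algebraMap K L c)) ⊗ₜ[L] (1 : B) = _
    rw [Algebra.TensorProduct.algebraMap_apply, ← IsScalarTower.algebraMap_apply]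
  let ιA : A →ₐ[K] Amb L B := { A.subtype with commutes' := halg }
  let g : Fin n → Fin n → A := fun k i => ⟨gC k i, Algebra.subset_adjoin ⟨(k, i), rfl⟩⟩
  have hind : ∀ b : Fin n → A, (∀ i, ∑ l, b l * g l i = 0) → b = 0 := by
    intro b hb
    by_contra hne'
    obtain ⟨l₀, hl₀⟩ := Function.ne_iff.1 hne'
    obtain ⟨k, hk, hmax⟩ := (Finset.univ.filter fun l => b l ≠ 0).exists_max_image id
      ⟨l₀, by simpa using hl₀⟩
    simp only [Finset.mem_filter, Finset.mem_univ, true_and, id] at hk hmax
    obtain ⟨w, hw0, hwA, hlow⟩ := exists_kernel_adjoin (F := Sub L p) g k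
    have hk0 : b k * ∑ i, g k i * w i = 0 := by
      calc b k * ∑ i, g k i * w i = ∑ l, b l * ∑ i, g l i * w i := by
            symm
            refine Finset.sum_eq_single k ?_ ?_
            · intro l _ hne''
              rcases lt_or_gt_of_ne hne'' with hlt | hgt
              · rw [hlow l hlt, mul_zero]
              · rw [show b l = 0 from by_contra fun h => not_lt.2 (hmax l h) hgt, zero_mul]
            · simp
        _ = ∑ i, (∑ l, b l * g l i) * w i := by
            simp only [Finset.mul_sum, Finset.sum_mul, mul_assoc]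
            exact Finset.sum_comm
        _ = 0 := Finset.sum_eq_zero fun i _ => by rw [hb i, zero_mul]
    have hgw := (mul_eq_zero.1 hk0).resolve_left hk
    have hOld : ∀ (x : A), x ∈ Algebra.adjoin (Sub L p) {y | ∃ l i, l < k ∧ y = g l i} →
        ∀ φ : RatFunc L →ₗ[L] L, evalT φ (x : Amb L B) ∈ Old k := by
      intro x hx
      have key : ∀ z : Amb L B, (∀ φ : RatFunc L →ₗ[L] L, evalT φ z ∈ Old k) →
          ∀ φ : RatFunc L →ₗ[L] L, evalT φ ((x : Amb L B) * z) ∈ Old k := by
        induction hx using Algebra.adjoin_induction with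
        | mem y hy =>
          obtain ⟨l, i, hl, rfl⟩ := hy
          intro z hz φ
          show evalT φ ((T ⊗ₜ[L] G l i) * z) ∈ Old k
          rw [evalT_mul_left]
          exact hst l k hl i _ (hz _)
        | algebraMap c =>
          intro z hz φ
          show evalT φ (((c : RatFunc L) ⊗ₜ[L] (1 : B)) * z) ∈ Old k
          rw [evalT_mul_left, one_mul]
          exact hz _
        | add a c _ _ ha hc =>
          intro z hz φ
          rw [AddMemClass.coe_add, add_mul, map_add]
          exact add_mem (ha z hz φ) (hc z hz φ)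
        | mul a c _ _ ha hc =>
          intro z hz φ
          rw [MulMemClass.coe_mul, mul_assoc]
          exact ha _ (hc z hz) φ
      intro φ
      have h0 : ∀ φ : RatFunc L →ₗ[L] L, evalT φ (1 : Amb L B) ∈ Old k := fun φ => by
        rw [Algebra.TensorProduct.one_def, evalT_tmul]
        exact Submodule.smul_mem _ _ (h1 k)
      have := key 1 h0 φ
      rwa [mul_one] at this
    refine hw0 (funext fun i => ?_)
    refine Subtype.ext (eq_zero_of_evalT (Basis.ofVectorSpace L (RatFunc L)) fun q => ?_)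
    set φ := (Basis.ofVectorSpace L (RatFunc L)).coord q
    have hz : ∑ i, G k i * evalT φ (w i : Amb L B) = 0 := by
      have h := congrArg (fun y : A => evalT φ ((T⁻¹ ⊗ₜ[L] (1 : B)) * (y : Amb L B))) hgw
      simp only [AddSubmonoidClass.coe_finsetSum, MulMemClass.coe_mul, ZeroMemClass.coe_zero,
        mul_zero, map_zero, Finset.mul_sum, map_sum] at h
      rw [← h]
      refine Finset.sum_congr rfl fun i _ => ?_
      show _ = evalT φ ((T⁻¹ ⊗ₜ[L] (1 : B)) * ((T ⊗ₜ[L] G k i) * (w i : Amb L B)))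
      rw [← mul_assoc, Algebra.TensorProduct.tmul_mul_tmul, inv_mul_cancel₀ hT0, one_mul]
      rw [evalT_mul_left, LinearMap.mulLeft_one, LinearMap.comp_id]
    exact congrFun (hinj k _ (fun i => hOld _ (hwA i) φ) hz) i
  refine ⟨A, instD, instK, g, fun k l hkl i j => Subtype.ext ?_, fun k => ?_,
    exists_inverse g hind⟩
  · show (T ⊗ₜ[L] G k i) * (T ⊗ₜ[L] G l j) = ((ω • (g l j * g k i) : A) : Amb L B)
    rw [show ((ω • (g l j * g k i) : A) : Amb L B) = ω • ((g l j * g k i : A) : Amb L B) from
      map_smul ιA ω _, Algebra.TensorProduct.tmul_mul_tmul, hcomm k l hkl i j,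
      MulMemClass.coe_mul, Algebra.TensorProduct.tmul_mul_tmul, TensorProduct.tmul_smul]
  · refine pow_eq_zero_of_map ιA Subtype.coe_injective
      ((Algebra.TensorProduct.includeRight : B →ₐ[L] Amb L B).restrictScalars K)
      (algebraMap (RatFunc L) (Amb L B) T) (fun z => Algebra.commutes T z) (g k) (G k) (fun i => ?_)
      (fun i => Ideal.Quotient.mkₐ K (Ideal.span (Set.range f)) (MvPolynomial.X i)) p (hpow k)
    show T ⊗ₜ[L] G k i = (T ⊗ₜ[L] (1 : B)) * ((1 : RatFunc L) ⊗ₜ[L] G k i)
    rw [Algebra.TensorProduct.tmul_mul_tmul, mul_one, one_mul]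

end Vale.Agent.P200.Cyc
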