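import Vale.Agent.P200.Cyc.Spec
import Vale.Agent.P200.Cyc.Count
import Vale.Agent.P200.Quad.Euler
import Vale.Agent.P200.Basic
import Vale.Agent.P200.Linalg

/-!
Eventual exactness of the linear factorisation on a graded right module, and balanced residue sums.
-/

namespace Vale.Agent.P200.Cyc

open MvPolynomial Module
open scoped TensorProduct

open Vale.Agent.P200.Quad (evalT evalT_tmul eq_zero_of_evalT eq_zero_of_sum_tmul)

universe u v

variable {K : Type u} [Field K] {L₀ L B : Type v} [Field L₀] [Algebra K L₀] [Field L]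
  [Algebra L₀ L] [Ring B] [Algebra K B] [Algebra L₀ B] [Algebra L B] [IsScalarTower K L₀ B]
  [IsScalarTower L₀ L B] {σ : Type} [Fintype σ] {p : ℕ} {F : σ → MvPolynomial σ K}

/-- A parameter form of degree `s` has weight `p * s`. -/
lemma parHom_homog (w : σ → L₀) {s : ℕ} {a : MvPolynomial σ K} (ha : a.IsHomogeneous s) :
    parHom (B := B) p w a = Polynomial.monomial (p * s) (algebraMap L₀ B (aeval w a)) := by
  have hmon : ∀ β : σ →₀ ℕ, ∀ c : K, aeval (fun l => Polynomial.monomial p (w l)) (monomial β c) =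
      Polynomial.monomial (p * β.degree) (aeval w (monomial β c)) := by
    intro β c
    induction β using Finsupp.induction with
    | zero =>
      rw [monomial_zero', aeval_C, aeval_C, map_zero, mul_zero, Polynomial.monomial_zero_left,
        IsScalarTower.algebraMap_apply K L₀ (Polynomial L₀), Polynomial.algebraMap_eq]
    | single_add i k β hi hk ih =>
      rw [monomial_single_add, map_mul, map_mul, map_pow, map_pow, aeval_X, aeval_X, ih,
        Polynomial.monomial_pow, Polynomial.monomial_mul_monomial, map_add, Finsupp.degree_single,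
        mul_add]
  have h : aeval (fun l => Polynomial.monomial p (w l)) a = Polynomial.monomial (p * s) (aeval w a) := by
    rw [a.as_sum]
    simp only [map_sum]
    refine Finset.sum_congr rfl fun β hβ => ?_
    rw [hmon, show β.degree = s by
      have := ha (MvPolynomial.mem_support_iff.1 hβ)
      rw [Finsupp.degree_eq_weight_one]; exact this]
  rw [parHom, AlgHom.comp_apply, h]
  simp [Polynomial.mapAlgHom]

lemma parHom_X (w : σ → L₀) (l : σ) :
    parHom (K := K) (B := B) p w (X l) = Polynomial.monomial p (algebraMap L₀ B (w l)) := by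
  rw [parHom_homog w (isHomogeneous_X K l), mul_one, aeval_X]

lemma commute_parHom (w : σ → L₀) (a : MvPolynomial σ K) (x : Polynomial B) :
    Commute (parHom p w a) x := by
  induction a using MvPolynomial.induction_on' with
  | monomial β c =>
    rw [parHom_homog w (isHomogeneous_monomial c rfl)]
    induction x using Polynomial.induction_on' with
    | add x y hx hy => exact hx.add_right hy
    | monomial n b =>
      show _ * _ = _ * _
      rw [Polynomial.monomial_mul_monomial, Polynomial.monomial_mul_monomial, Algebra.commutes,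
        Nat.add_comm]
  | add a b ha hb => rw [map_add]; exact ha.add_left hb

variable (S : Sys K L₀ L B p F)

/-- The elements of weight `d` of the graded algebra. -/
noncomputable def Sys.R (d : ℕ) : Submodule K B :=
  ((wordAlg K p S.D S.w S.gen S.θ).toSubmodule).comap
    ((Polynomial.monomial d).restrictScalars K)

/-- A graded right submodule of the algebra. -/
structure Fam where
  /-- The pieces. -/
  M : ℕ → Submodule K B
  le : ∀ d, M d ≤ S.R d
  gen : ∀ d i, ∀ x ∈ M d, x * S.gen i ∈ M (d + 1)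
  par : ∀ d l, ∀ x ∈ M d, algebraMap L₀ B (S.w l) * x ∈ M (d + p)

/-- The quotient by the forms. -/
abbrev QF (F : σ → MvPolynomial σ K) : Type _ := MvPolynomial σ K ⧸ Ideal.span (Set.range F)

/-- The ring structure of the tensors over the quotient. -/
noncomputable instance ringQF (B : Type v) [Ring B] [Algebra K B] (F : σ → MvPolynomial σ K) :
    Ring (Polynomial B ⊗[K] QF F) :=
  Algebra.TensorProduct.instRing

/-- The algebra structure of the tensors over the quotient. -/
noncomputable instance algebraQF (B : Type v) [Ring B] [Algebra K B] (F : σ → MvPolynomial σ K) :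
    Algebra K (Polynomial B ⊗[K] QF F) :=
  inferInstance

/-- The degree pieces of the quotient. -/
noncomputable def qDeg (F : σ → MvPolynomial σ K) (i : ℕ) : Submodule K (QF F) :=
  (homogeneousSubmodule σ K i).map (Ideal.Quotient.mkₐ K (Ideal.span (Set.range F))).toLinearMap

/-- The quotient map after tensoring. -/
noncomputable def mkQ (B : Type v) [Ring B] [Algebra K B] (F : σ → MvPolynomial σ K) :
    Polynomial B ⊗[K] MvPolynomial σ K →ₐ[K] Polynomial B ⊗[K] QF F :=
  Algebra.TensorProduct.map (AlgHom.id K _) (Ideal.Quotient.mkₐ K (Ideal.span (Set.range F)))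

lemma mkQ_tmul (x : Polynomial B) (u : MvPolynomial σ K) :
    mkQ B F (x ⊗ₜ u) = x ⊗ₜ Ideal.Quotient.mkₐ K (Ideal.span (Set.range F)) u :=
  Algebra.TensorProduct.map_tmul _ _ _ _

/-- The generic linear form. -/
noncomputable def Sys.phi : Polynomial B ⊗[K] MvPolynomial σ K :=
  ∑ i, Polynomial.monomial 1 (S.gen i) ⊗ₜ X i

/-- The linear factorisation on the quotient. -/
noncomputable def Sys.phiQ : Polynomial B ⊗[K] QF F := mkQ B F S.phi

/-- Evaluation of the right factor. -/
noncomputable def evalR (B : Type v) [Ring B] [Algebra K B] (y : σ → K) :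
    Polynomial B ⊗[K] MvPolynomial σ K →ₐ[K] Polynomial B :=
  Algebra.TensorProduct.lift (AlgHom.id K (Polynomial B))
    ((Algebra.ofId K (Polynomial B)).comp (aeval y : MvPolynomial σ K →ₐ[K] K))
    fun x a => (Algebra.commutes (R := K) (aeval y a) x).symm

lemma evalR_tmul (y : σ → K) (x : Polynomial B) (a : MvPolynomial σ K) :
    evalR B y (x ⊗ₜ[K] a) = eval y a • x := by
  show x * algebraMap K (Polynomial B) (aeval y a) = _
  rw [← Algebra.commutes, ← Algebra.smul_def]
  rfl

lemma eq_of_evalR [Infinite K] {u v : Polynomial B ⊗[K] MvPolynomial σ K}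
    (h : ∀ y : σ → K, evalR B y u = evalR B y v) : u = v := by
  rw [← sub_eq_zero]
  refine eq_zero_of_evalT (Basis.ofVectorSpace K (Polynomial B)) fun q => ?_
  refine MvPolynomial.funext fun y => ?_
  set φ := (Basis.ofVectorSpace K (Polynomial B)).coord q
  have key : ∀ z : Polynomial B ⊗[K] MvPolynomial σ K,
      eval y (evalT φ z) = φ (evalR B y z) := by
    intro z
    induction z using TensorProduct.induction_on with
    | zero => simp
    | tmul x a =>
      rw [evalT_tmul, smul_eval, evalR_tmul, map_smul, smul_eq_mul, mul_comm]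
    | add a b ha hb => simp [ha, hb]
  rw [key, map_sub, h, sub_self, map_zero, map_zero]

/-- The factorisation: `Φ ^ p = ∑ zₗ Fₗ`. -/
lemma Sys.phi_pow [Infinite K] : S.phi ^ p = ∑ l, parHom (B := B) p S.w (X l : MvPolynomial σ K) ⊗ₜ[K] F l := by
  refine eq_of_evalR fun y => ?_
  have h1 : evalR B y S.phi = Polynomial.monomial 1 (∑ i, y i • S.gen i) := by
    simp only [Sys.phi, map_sum]
    refine Finset.sum_congr rfl fun i _ => ?_
    rw [evalR_tmul, eval_X, Polynomial.smul_monomial]
  rw [map_pow, h1, Polynomial.monomial_pow, one_mul, S.power]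
  simp only [map_sum, map_mul]
  refine Finset.sum_congr rfl fun l _ => ?_
  rw [evalR_tmul, parHom_X, Polynomial.smul_monomial, Algebra.smul_def,
    ← IsScalarTower.algebraMap_apply]

variable {S} (Fm : Fam S)

/-- Tensors over the polynomial ring. -/
noncomputable def MT (d i : ℕ) : Submodule K (Polynomial B ⊗[K] MvPolynomial σ K) :=
  Submodule.span K (Set.image2 (fun x u => Polynomial.monomial d x ⊗ₜ[K] u) (Fm.M d : Set B)
    (homogeneousSubmodule σ K i : Set (MvPolynomial σ K)))

/-- Tensors over the quotient. -/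
noncomputable def MQ (d i : ℕ) : Submodule K (Polynomial B ⊗[K] QF F) :=
  Submodule.span K (Set.image2 (fun x u => Polynomial.monomial d x ⊗ₜ[K] u) (Fm.M d : Set B)
    (qDeg F i : Set (QF F)))

lemma map_MT (d i : ℕ) : (MT Fm d i).map (mkQ B F).toLinearMap = MQ Fm d i := by
  rw [MT, MQ, Submodule.map_span]
  congr 1
  ext y
  simp only [Set.mem_image, Set.mem_image2, qDeg, SetLike.mem_coe, Submodule.mem_map,
    AlgHom.toLinearMap_apply]
  constructor
  · rintro ⟨_, ⟨x, hx, u, hu, rfl⟩, rfl⟩
    exact ⟨x, hx, _, ⟨u, hu, rfl⟩, (mkQ_tmul _ _).symm⟩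
  · rintro ⟨x, hx, _, ⟨u, hu, rfl⟩, rfl⟩
    exact ⟨_, ⟨x, hx, u, hu, rfl⟩, mkQ_tmul _ _⟩

lemma phi_MT {d i : ℕ} {y : Polynomial B ⊗[K] MvPolynomial σ K} (hy : y ∈ MT Fm d i) :
    y * S.phi ∈ MT Fm (d + 1) (i + 1) := by
  induction hy using Submodule.span_induction with
  | mem z hz =>
    obtain ⟨x, hx, a, ha, rfl⟩ := hz
    rw [Sys.phi, Finset.mul_sum]
    refine sum_mem fun v _ => Submodule.subset_span ⟨_, Fm.gen d v x hx, a * X v, ?_, ?_⟩
    · exact IsHomogeneous.mul ha (isHomogeneous_X K v)
    · simp only [Algebra.TensorProduct.tmul_mul_tmul, Polynomial.monomial_mul_monomial]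
  | zero => simp
  | add a b _ _ ha hb => rw [add_mul]; exact add_mem ha hb
  | smul k a _ ha => rw [smul_mul_assoc]; exact Submodule.smul_mem _ _ ha

lemma phi_pow_MT {d i : ℕ} {y : Polynomial B ⊗[K] MvPolynomial σ K} (hy : y ∈ MT Fm d i) :
    ∀ j, y * S.phi ^ j ∈ MT Fm (d + j) (i + j) := by
  intro j
  induction j with
  | zero => simpa using hy
  | succ j ih => rw [pow_succ, ← mul_assoc]; exact phi_MT Fm ih

lemma phiQ_pow_MQ {d i : ℕ} {y : Polynomial B ⊗[K] QF F} (hy : y ∈ MQ Fm d i) (j : ℕ) :
    y * S.phiQ ^ j ∈ MQ Fm (d + j) (i + j) := by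
  rw [← map_MT] at hy ⊢
  obtain ⟨z, hz, rfl⟩ := hy
  exact ⟨_, phi_pow_MT Fm hz j, by simp [Sys.phiQ]⟩

lemma finite_R (S : Sys K L₀ L B p F) (hp : 0 < p) (d : ℕ) : FiniteDimensional K (S.R d) := by
  classical
  obtain ⟨t, ht⟩ := S.fin
  let G : Set B := (fun q : Polynomial B × (σ →₀ ℕ) =>
    (parHom p S.w (monomial q.2 (1 : K)) * q.1).coeff d) '' ((t : Set (Polynomial B)) ×ˢ
      {β : σ →₀ ℕ | β.degree ≤ d})
  have hfin : ({β : σ →₀ ℕ | β.degree ≤ d}).Finite := by
    refine ((Finset.range (d + 1)).biUnion fun k =>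
      (Finset.univ : Finset σ).finsuppAntidiag k).finite_toSet.subset fun β hβ => ?_
    simp only [Finset.coe_biUnion, Set.mem_iUnion, Finset.mem_coe, Finset.mem_range,
      Finset.mem_finsuppAntidiag, Finset.subset_univ, and_true]
    exact ⟨β.degree, Nat.lt_succ_of_le hβ, (Finsupp.degree_eq_sum β).symm⟩
  have : FiniteDimensional K (Submodule.span K G) :=
    FiniteDimensional.span_of_finite K ((t.finite_toSet.prod hfin).image _)
  refine Submodule.finiteDimensional_of_le (S₂ := Submodule.span K G) fun x hx => ?_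
  obtain ⟨a, ha⟩ := ht _ hx
  have := congrArg (fun q : Polynomial B => q.coeff d) ha
  simp only [Polynomial.finsetSum_coeff, LinearMap.coe_restrictScalars, Polynomial.coeff_monomial,
    if_true] at this
  rw [this]
  refine sum_mem fun e he => ?_
  rw [(a e).as_sum, map_sum, Finset.sum_mul, Polynomial.finsetSum_coeff]
  refine sum_mem fun β _ => ?_
  have hsm : monomial β ((a e).coeff β) = (a e).coeff β • monomial β (1 : K) := by
    simp [smul_monomial]
  rw [hsm, map_smul, smul_mul_assoc, Polynomial.coeff_smul]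
  refine Submodule.smul_mem _ _ ?_
  by_cases hβ : β.degree ≤ d
  · exact Submodule.subset_span ⟨(e, β), ⟨he, hβ⟩, rfl⟩
  · rw [parHom_homog S.w (isHomogeneous_monomial (1 : K) rfl), ← Polynomial.C_mul_X_pow_eq_monomial,
      mul_assoc, Polynomial.coeff_C_mul, Polynomial.coeff_X_pow_mul', if_neg, mul_zero]
    · exact zero_mem _
    · have := Nat.le_mul_of_pos_left β.degree hp
      omega

lemma finite_M (hp : 0 < p) (d : ℕ) : FiniteDimensional K (Fm.M d) := by
  have := finite_R S hp d
  exact Submodule.finiteDimensional_of_le (Fm.le d)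

lemma exists_of_mkQ_eq_zero (hp : 0 < p) (hF : ∀ l, (F l).IsHomogeneous p) {d i : ℕ}
    {y : Polynomial B ⊗[K] MvPolynomial σ K} (hy : y ∈ MT Fm d i) (h0 : mkQ B F y = 0) :
    ∃ v : σ → Polynomial B ⊗[K] MvPolynomial σ K,
      (∀ l, v l ∈ if p ≤ i then MT Fm d (i - p) else ⊥) ∧ y = ∑ l, v l * (1 ⊗ₜ F l) := by
  classical
  have := finite_M Fm hp d
  let b := Module.finBasis K (Fm.M d)
  have hrep : ∃ u : Fin (finrank K (Fm.M d)) → MvPolynomial σ K, (∀ k, (u k).IsHomogeneous i) ∧
      y = ∑ k, Polynomial.monomial d (b k : B) ⊗ₜ[K] u k := by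
    clear h0
    induction hy using Submodule.span_induction with
    | mem z hz =>
      obtain ⟨x, hx, a, ha, rfl⟩ := hz
      refine ⟨fun k => b.repr ⟨x, hx⟩ k • a, fun k =>
        Submodule.smul_mem (homogeneousSubmodule σ K i) _ ha, ?_⟩
      simp only [TensorProduct.tmul_smul, TensorProduct.smul_tmul', Polynomial.smul_monomial,
        ← TensorProduct.sum_tmul, ← map_sum]
      congr 2
      have := congrArg Subtype.val (b.sum_repr ⟨x, hx⟩)
      simpa only [Submodule.coe_sum, Submodule.coe_smul] using this.symm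
    | zero => exact ⟨0, fun k => isHomogeneous_zero _ _ _, by simp⟩
    | add a c _ _ ha hc =>
      obtain ⟨u, hu, rfl⟩ := ha
      obtain ⟨w, hw, rfl⟩ := hc
      exact ⟨u + w, fun k => (hu k).add (hw k), by
        simp [TensorProduct.tmul_add, Finset.sum_add_distrib]⟩
    | smul t a _ ha =>
      obtain ⟨u, hu, rfl⟩ := ha
      exact ⟨t • u, fun k => Submodule.smul_mem (homogeneousSubmodule σ K i) _ (hu k), by
        simp [Finset.smul_sum, TensorProduct.tmul_smul]⟩
  obtain ⟨u, hu, rfl⟩ := hrep
  have hli : LinearIndependent K (fun k => Polynomial.monomial d (b k : B)) := by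
    refine (b.linearIndependent.map' (Fm.M d).subtype (Submodule.ker_subtype _)).map'
      ((Polynomial.monomial d).restrictScalars K) ?_
    exact LinearMap.ker_eq_bot.2 (Polynomial.monomial_injective d)
  simp only [map_sum, mkQ_tmul] at h0
  have hz := eq_zero_of_sum_tmul hli h0
  have : ∀ k, ∃ w : σ → MvPolynomial σ K,
      (∀ l, (w l).IsHomogeneous (i - p) ∧ (¬ p ≤ i → w l = 0)) ∧ u k = ∑ l, F l * w l := by
    intro k
    obtain ⟨w, hw⟩ := (Ideal.mem_span_range_iff_exists_fun).1 (Ideal.Quotient.eq_zero_iff_mem.1 (hz k))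
    refine ⟨fun l => if p ≤ i then homogeneousComponent (i - p) (w l) else 0, fun l => ?_, ?_⟩
    · refine ⟨?_, fun h => if_neg h⟩
      show MvPolynomial.IsHomogeneous (if p ≤ i then homogeneousComponent (i - p) (w l) else 0) (i - p)
      split_ifs
      · exact homogeneousComponent_isHomogeneous _ _
      · exact isHomogeneous_zero _ _ _
    · rw [← homogeneousComponent_eq_self (hu k), ← hw, map_sum]
      refine Finset.sum_congr rfl fun l _ => ?_
      rw [mul_comm, homogeneousComponent_mul_left (hF l)]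
      split_ifs <;> simp
  choose w hw hwu using this
  refine ⟨fun l => ∑ k, Polynomial.monomial d (b k : B) ⊗ₜ w k l, fun l => ?_, ?_⟩
  · refine sum_mem fun k _ => ?_
    split_ifs with h
    · exact Submodule.subset_span ⟨_, (b k).2, _, (hw k l).1, rfl⟩
    · rw [(hw k l).2 h, TensorProduct.tmul_zero]; exact zero_mem _
  · simp only [Finset.sum_mul, Algebra.TensorProduct.tmul_mul_tmul, mul_one]
    rw [Finset.sum_comm]
    refine Finset.sum_congr rfl fun k _ => ?_
    rw [← TensorProduct.tmul_sum, hwu k]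
    simp only [mul_comm (F _)]

variable (hF : ∀ l, (F l).IsHomogeneous p)
  (hsyz : ∀ w : σ → MvPolynomial σ K, ∑ l, F l * w l = 0 →
    ∀ l, w l ∈ Ideal.span (Set.range F))

include hsyz in
lemma mkQ_eq_zero_of_syzygy (v : σ → Polynomial B ⊗[K] MvPolynomial σ K)
    (h : ∑ l, v l * (1 ⊗ₜ F l) = 0) (l : σ) : mkQ B F (v l) = 0 := by
  refine eq_zero_of_evalT (Basis.ofVectorSpace K (Polynomial B)) fun q => ?_
  set φ := (Basis.ofVectorSpace K (Polynomial B)).coord q
  have he : ∀ (l : σ) (z : Polynomial B ⊗[K] MvPolynomial σ K),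
      evalT φ (z * (1 ⊗ₜ F l)) = F l * evalT φ z := by
    intro l z
    induction z using TensorProduct.induction_on with
    | zero => simp
    | tmul x u => rw [Algebra.TensorProduct.tmul_mul_tmul, mul_one, evalT_tmul, evalT_tmul,
        mul_smul_comm, mul_comm u]
    | add a b ha hb => simp [add_mul, ha, hb, mul_add]
  have hm : ∀ z : Polynomial B ⊗[K] MvPolynomial σ K,
      evalT φ (mkQ B F z) = Ideal.Quotient.mkₐ K (Ideal.span (Set.range F)) (evalT φ z) := by
    intro z
    induction z using TensorProduct.induction_on with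
    | zero => simp
    | tmul x u => rw [mkQ_tmul, evalT_tmul, evalT_tmul, map_smul]
    | add a b ha hb => simp [ha, hb]
  have h' := congrArg (evalT φ) h
  simp only [map_sum, he, map_zero] at h'
  rw [hm]
  exact Ideal.Quotient.eq_zero_iff_mem.2 (hsyz _ h' l)

/-- Boundaries in bidegree `(d, i)` of the power `k`. -/
noncomputable def bd (k d i : ℕ) : Submodule K (Polynomial B ⊗[K] QF F) :=
  if k ≤ d ∧ k ≤ i then (MQ Fm (d - k) (i - k)).map (LinearMap.mulRight K (S.phiQ ^ k)) else ⊥

variable [Infinite K]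

include hF hsyz in
/-- Every parameter kills the homology. -/
lemma par_cycle (hp : 0 < p) {j : ℕ} (hj : j ≤ p) {d i : ℕ} (l : σ)
    {y : Polynomial B ⊗[K] QF F} (hy : y ∈ MQ Fm d i) (h0 : y * S.phiQ ^ j = 0) :
    (parHom (B := B) p S.w (X l : MvPolynomial σ K) ⊗ₜ[K] 1) * y ∈ bd Fm (p - j) (d + p) i := by
  rw [← map_MT] at hy
  obtain ⟨z, hz, rfl⟩ := hy
  simp only [AlgHom.toLinearMap_apply] at h0 ⊢
  have h0' : mkQ B F (z * S.phi ^ j) = 0 := by rw [map_mul, map_pow]; exact h0
  obtain ⟨v, hv, he⟩ := exists_of_mkQ_eq_zero Fm hp hF (phi_pow_MT Fm hz j) h0'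
  have hcomm : ∀ (a : MvPolynomial σ K) (u : MvPolynomial σ K)
      (x : Polynomial B ⊗[K] MvPolynomial σ K),
      (parHom p S.w a ⊗ₜ[K] u) * x = x * (parHom p S.w a ⊗ₜ[K] u) := by
    intro a u x
    induction x using TensorProduct.induction_on with
    | zero => simp
    | tmul q r => rw [Algebra.TensorProduct.tmul_mul_tmul, Algebra.TensorProduct.tmul_mul_tmul,
        (commute_parHom S.w a q).eq, mul_comm u]
    | add a b ha hb => rw [mul_add, add_mul, ha, hb]
  have h2 : ∑ k, (v k * S.phi ^ (p - j) - (parHom (B := B) p S.w (X k : MvPolynomial σ K) ⊗ₜ[K] 1) * z) * (1 ⊗ₜ F k) = 0 := by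
    have hF1 : ∀ k (x : Polynomial B ⊗[K] MvPolynomial σ K), x * (1 ⊗ₜ[K] F k) = (1 ⊗ₜ[K] F k) * x := by
      intro k x
      induction x using TensorProduct.induction_on with
      | zero => simp
      | tmul q r => rw [Algebra.TensorProduct.tmul_mul_tmul, Algebra.TensorProduct.tmul_mul_tmul,
          mul_one, one_mul, mul_comm r]
      | add a b ha hb => rw [mul_add, add_mul, ha, hb]
    simp only [sub_mul, Finset.sum_sub_distrib]
    have e1 : ∑ k, v k * S.phi ^ (p - j) * (1 ⊗ₜ F k) = z * S.phi ^ p := by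
      calc ∑ k, v k * S.phi ^ (p - j) * (1 ⊗ₜ F k)
          = ∑ k, v k * (1 ⊗ₜ F k) * S.phi ^ (p - j) :=
            Finset.sum_congr rfl fun k _ => by rw [mul_assoc, hF1 k, ← mul_assoc]
        _ = _ := by rw [← Finset.sum_mul, ← he, mul_assoc, ← pow_add, Nat.add_sub_cancel' hj]
    rw [e1, S.phi_pow, Finset.mul_sum, sub_eq_zero]
    refine Finset.sum_congr rfl fun k _ => ?_
    rw [hcomm _ _ z, mul_assoc, Algebra.TensorProduct.tmul_mul_tmul, mul_one, one_mul]
  have h3 := mkQ_eq_zero_of_syzygy hsyz _ h2 l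
  rw [map_sub, map_mul, map_mul, map_pow, sub_eq_zero, mkQ_tmul, map_one] at h3
  rw [← h3]
  by_cases h : p ≤ i + j
  · rw [bd, if_pos ⟨by omega, by omega⟩]
    have hl := hv l
    rw [if_pos h] at hl
    refine ⟨mkQ B F (v l), ?_, rfl⟩
    rw [show d + p - (p - j) = d + j by omega, show i - (p - j) = i + j - p by omega, ← map_MT]
    exact ⟨_, hl, rfl⟩
  · have hl := hv l
    rw [if_neg h, Submodule.mem_bot] at hl
    simp [hl]

omit [Infinite K] in
lemma par_M {s : ℕ} {a : MvPolynomial σ K} (ha : a.IsHomogeneous s) {d : ℕ} {x : B}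
    (hx : x ∈ Fm.M d) : algebraMap L₀ B (aeval S.w a) * x ∈ Fm.M (d + p * s) := by
  rw [a.as_sum, map_sum, map_sum, Finset.sum_mul]
  refine sum_mem fun β hβ => ?_
  have hdeg : β.degree = s := by
    have := ha (MvPolynomial.mem_support_iff.1 hβ)
    rw [Finsupp.degree_eq_weight_one]; exact this
  clear hβ ha
  generalize a.coeff β = c
  subst hdeg
  induction β using Finsupp.induction generalizing c with
  | zero =>
    rw [monomial_zero', aeval_C, ← IsScalarTower.algebraMap_apply, ← Algebra.smul_def, map_zero,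
      mul_zero, add_zero]
    exact Submodule.smul_mem _ _ hx
  | single_add i k β hi hk ih =>
    rw [monomial_single_add, map_mul, map_mul, map_pow, map_pow, aeval_X, mul_assoc, map_add,
      Finsupp.degree_single, mul_add, Nat.add_comm (p * k), ← Nat.add_assoc]
    clear hi hk
    induction k with
    | zero => simpa using ih c
    | succ k ihk =>
      rw [pow_succ', mul_assoc, Nat.mul_succ, ← Nat.add_assoc]
      exact Fm.par _ i _ ihk

omit [Infinite K] in
lemma par_MQ {s : ℕ} {a : MvPolynomial σ K} (ha : a.IsHomogeneous s) {d i : ℕ}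
    {y : Polynomial B ⊗[K] QF F} (hy : y ∈ MQ Fm d i) :
    (parHom p S.w a ⊗ₜ[K] 1) * y ∈ MQ Fm (d + p * s) i := by
  induction hy using Submodule.span_induction with
  | mem z hz =>
    obtain ⟨x, hx, q, hq, rfl⟩ := hz
    refine Submodule.subset_span ⟨_, par_M Fm ha hx, q, hq, ?_⟩
    simp only [Algebra.TensorProduct.tmul_mul_tmul, one_mul, parHom_homog S.w ha,
      Polynomial.monomial_mul_monomial, Nat.add_comm d]
  | zero => simp
  | add a b _ _ ha hb => rw [mul_add]; exact add_mem ha hb
  | smul k a _ ha => rw [mul_smul_comm]; exact Submodule.smul_mem _ _ ha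

/-- The projection to weight `d`. -/
noncomputable def projQ (B : Type v) [Ring B] [Algebra K B] (F : σ → MvPolynomial σ K) (d : ℕ) :
    Polynomial B ⊗[K] QF F →ₗ[K] Polynomial B ⊗[K] QF F :=
  (((Polynomial.monomial d).restrictScalars K).comp
    ((Polynomial.lcoeff B d).restrictScalars K)).rTensor (QF F)

omit [Infinite K] in
lemma projQ_MQ {d d' i : ℕ} {y : Polynomial B ⊗[K] QF F} (hy : y ∈ MQ Fm d' i) :
    projQ B F d y = if d' = d then y else 0 := by
  induction hy using Submodule.span_induction with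
  | mem z hz =>
    obtain ⟨x, -, q, -, rfl⟩ := hz
    simp only [projQ, LinearMap.rTensor_tmul, LinearMap.comp_apply, LinearMap.coe_restrictScalars,
      Polynomial.lcoeff_apply, Polynomial.coeff_monomial]
    split_ifs with h <;> simp [h]
  | zero => simp
  | add u v _ _ hu hv => rw [map_add, hu, hv]; split_ifs <;> simp
  | smul k u _ hu => rw [map_smul, hu]; split_ifs <;> simp

include hF hsyz in
/-- Large weights have no homology. -/
lemma eventually_exact (hp : 0 < p) {j : ℕ} (hj : j ≤ p) (i : ℕ) :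
    ∃ d₀, ∀ d, d₀ < d → ∀ y ∈ MQ Fm d i, y * S.phiQ ^ j = 0 → y ∈ bd Fm (p - j) d i := by
  classical
  letI : Module (MvPolynomial σ K) (Polynomial B ⊗[K] QF F) :=
    Module.compHom _ ((Algebra.TensorProduct.includeLeft (R := K) (S := K) (A := Polynomial B) (B := QF F)).comp
      (parHom (K := K) (B := B) p S.w)).toRingHom
  have hsmul : ∀ (a : MvPolynomial σ K) (y : Polynomial B ⊗[K] QF F),
      a • y = (parHom p S.w a ⊗ₜ[K] 1) * y := fun a y => rfl
  have hK : ∀ (c : K) (y : Polynomial B ⊗[K] QF F), c • y = (C c : MvPolynomial σ K) • y := by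
    intro c y
    rw [hsmul, ← algebraMap_eq, AlgHom.commutes, Algebra.smul_def,
      Algebra.TensorProduct.algebraMap_apply]
  have hfinq : FiniteDimensional K (qDeg F i) := Module.Finite.map _ _
  obtain ⟨tq, htq⟩ := Module.Finite.iff_fg.1 hfinq
  obtain ⟨te, hte⟩ := S.fin
  set A : Submodule (MvPolynomial σ K) (Polynomial B ⊗[K] QF F) :=
    Submodule.span _ (Set.image2 (· ⊗ₜ[K] ·) (te : Set (Polynomial B)) (tq : Set (QF F)))
  have hA : ∀ d, ∀ y ∈ MQ Fm d i, y ∈ A := by
    intro d y hy
    induction hy using Submodule.span_induction with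
    | mem z hz =>
      obtain ⟨x, hx, q, hq, rfl⟩ := hz
      rw [← htq] at hq
      show Polynomial.monomial d x ⊗ₜ[K] q ∈ A
      induction hq using Submodule.span_induction with
      | mem q hq =>
        obtain ⟨a, ha⟩ := hte _ (Fm.le d hx)
        simp only [LinearMap.coe_restrictScalars] at ha
        rw [ha, TensorProduct.sum_tmul]
        refine sum_mem fun e he => ?_
        rw [show (parHom p S.w (a e) * e) ⊗ₜ[K] q = a e • (e ⊗ₜ[K] q) by
          rw [hsmul, Algebra.TensorProduct.tmul_mul_tmul, one_mul]]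
        exact Submodule.smul_mem _ _ (Submodule.subset_span ⟨e, he, q, hq, rfl⟩)
      | zero => simp
      | add a b _ _ ha hb => rw [TensorProduct.tmul_add]; exact add_mem ha hb
      | smul k a _ ha => rw [TensorProduct.tmul_smul, hK]; exact Submodule.smul_mem _ _ ha
    | zero => simp
    | add a b _ _ ha hb => exact add_mem ha hb
    | smul k a _ ha => rw [hK]; exact Submodule.smul_mem _ _ ha
  have hfg : A.FG := Submodule.fg_span (te.finite_toSet.image2 _ tq.finite_toSet)
  let N : Set (Polynomial B ⊗[K] QF F) := {y | ∃ d, y ∈ MQ Fm d i ∧ y * S.phiQ ^ j = 0}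
  have hle : Submodule.span (MvPolynomial σ K) N ≤ A :=
    Submodule.span_le.2 fun y ⟨d, hy, _⟩ => hA d y hy
  have hN : (Submodule.span (MvPolynomial σ K) N).FG := by
    have : IsNoetherian (MvPolynomial σ K) A := isNoetherian_of_fg_of_noetherian _ hfg
    have : IsNoetherian (MvPolynomial σ K) (Submodule.span (MvPolynomial σ K) N) :=
      isNoetherian_of_le hle
    exact (Submodule.fg_top _).1 (IsNoetherian.noetherian ⊤)
  obtain ⟨t, htN, ht⟩ := (Submodule.fg_span_iff_fg_span_finset_subset N).1 hN
  choose δ hδ using fun y : t => htN y.2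
  refine ⟨Finset.univ.sup δ, fun d hd y hy h0 => ?_⟩
  have hyt : y ∈ Submodule.span (MvPolynomial σ K)
      (Set.range fun y : t => (y : Polynomial B ⊗[K] QF F)) := by
    have h1 : y ∈ Submodule.span (MvPolynomial σ K) N := Submodule.subset_span ⟨d, hy, h0⟩
    rw [ht] at h1
    exact Submodule.span_mono (fun z hz => Set.mem_range.2 ⟨⟨z, hz⟩, rfl⟩) h1
  obtain ⟨q, hq⟩ := (Submodule.mem_span_range_iff_exists_fun _).1 hyt
  have hyp : projQ B F d y = y := by rw [projQ_MQ Fm hy, if_pos rfl]
  rw [← hyp, ← hq, map_sum]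
  refine sum_mem fun z _ => ?_
  rw [(q z).as_sum, Finset.sum_smul, map_sum]
  refine sum_mem fun β _ => ?_
  rw [hsmul, projQ_MQ Fm (par_MQ Fm (isHomogeneous_monomial _ rfl) (hδ z).1)]
  split_ifs with h
  · obtain ⟨l, hl⟩ : ∃ l, β l ≠ 0 := by
      by_contra hcon
      push Not at hcon
      have : δ z ≤ Finset.univ.sup δ := Finset.le_sup (Finset.mem_univ z)
      rw [show β = 0 from Finsupp.ext hcon, map_zero] at h
      omega
    generalize (q z).coeff β = c
    set β' := β - Finsupp.single l 1
    have hb : β = Finsupp.single l 1 + β' :=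
      (add_tsub_cancel_of_le (Finsupp.single_le_iff.2 (by omega))).symm
    rw [hb, map_add, Finsupp.degree_single, mul_add, mul_one] at h
    rw [hb, monomial_single_add, pow_one, map_mul, show d = δ z + p * β'.degree + p by omega,
      show (parHom p S.w (X l : MvPolynomial σ K) * parHom p S.w (monomial β' c)) ⊗ₜ[K] (1 : QF F) *
          (z : Polynomial B ⊗[K] QF F) =
        (parHom p S.w (X l : MvPolynomial σ K) ⊗ₜ[K] (1 : QF F)) *
          ((parHom p S.w (monomial β' c) ⊗ₜ[K] (1 : QF F)) * (z : Polynomial B ⊗[K] QF F)) from by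
        rw [← mul_assoc]
        congr 1
        rw [Algebra.TensorProduct.tmul_mul_tmul, one_mul]]
    exact par_cycle Fm hF hsyz hp hj l (par_MQ Fm (isHomogeneous_monomial _ rfl) (hδ z).1)
      (by rw [mul_assoc, (hδ z).2, mul_zero])
  · exact zero_mem _

end Vale.Agent.P200.Cyc
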