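import Mathlib

/-!
Products of selections of coefficients of linear factors are integral over the coefficients of the
product.
-/

namespace Vale.Agent.P200.Cyc

open Polynomial

variable {R A : Type*} [CommRing R] [Field A] [Algebra R A]

/-- If the coefficients of `q * (X - θ)` are integral, then so are those of `q` and of `θ q`. -/
theorem isIntegral_factor {θ : A} {q : A[X]}
    (h : ∀ k, IsIntegral R ((q * (X - C θ)).coeff k)) (j : ℕ) :
    IsIntegral R (q.coeff j) ∧ IsIntegral R (θ * q.coeff j) := by
  set P := q * (X - C θ) with hP
  have hsucc : ∀ k, P.coeff (k + 1) = q.coeff k - θ * q.coeff (k + 1) := by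
    intro k
    simp [hP, mul_sub, coeff_mul_X, mul_comm]
  have hroot : ∀ j, ∑ k ∈ Finset.range (j + 1), P.coeff k * θ ^ k =
      -(q.coeff j * θ ^ (j + 1)) := by
    intro j
    induction j with
    | zero => simp [hP, mul_sub]
    | succ j ih => rw [Finset.sum_range_succ, ih, hsucc]; ring
  suffices key : ∀ n j, q.natDegree < j + n →
      IsIntegral R (q.coeff j) ∧ IsIntegral R (θ * q.coeff j) from
    key (q.natDegree + 1) j (by omega)
  intro n
  induction n with
  | zero =>
    intro j hj
    simp [coeff_eq_zero_of_natDegree_lt (show q.natDegree < j by omega), isIntegral_zero]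
  | succ n ih =>
    intro j hj
    have hj1 := (ih (j + 1) (by omega)).2
    have hb : IsIntegral R (q.coeff j) := by
      have e : q.coeff j = P.coeff (j + 1) + θ * q.coeff (j + 1) := by rw [hsucc]; ring
      rw [e]
      exact (h _).add hj1
    refine ⟨hb, ?_⟩
    by_cases hz : q.coeff j = 0
    · simp [hz, isIntegral_zero]
    let S := integralClosure R A
    let lo : S[X] := ∑ k ∈ Finset.range (j + 1), C (⟨P.coeff k, h k⟩ : S) * X ^ k
    let Q : S[X] := C (⟨q.coeff j, hb⟩ : S) * X ^ (j + 1) + lo
    have hne : (⟨q.coeff j, hb⟩ : S) ≠ 0 := fun e => hz (congrArg Subtype.val e)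
    have hlo : lo.degree < ((j + 1 : ℕ) : WithBot ℕ) := by
      refine lt_of_le_of_lt (degree_sum_le _ _) ((Finset.sup_lt_iff (WithBot.bot_lt_coe _)).2 ?_)
      intro k hk
      exact lt_of_le_of_lt (degree_C_mul_X_pow_le _ _)
        (WithBot.coe_lt_coe.2 (Finset.mem_range.1 hk))
    have hlead : Q.leadingCoeff = (⟨q.coeff j, hb⟩ : S) := by
      change (C _ * X ^ (j + 1) + lo).leadingCoeff = _
      rw [leadingCoeff_add_of_degree_lt' (by rw [degree_C_mul_X_pow _ hne]; exact hlo),
        leadingCoeff_C_mul_X_pow]
    have hev : aeval θ Q = 0 := by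
      simp [Q, lo, hroot]
    have hint := isIntegral_leadingCoeff_smul Q θ hev
    rw [hlead, Algebra.smul_def] at hint
    have := isIntegral_trans (R := R) _ hint
    simpa [Subalgebra.algebraMap_def, mul_comm] using this

/-- Every product of a selection of one coefficient from each linear factor, times the constant, is
integral when the coefficients of the product are. -/
theorem isIntegral_selection {ι : Type*} [DecidableEq ι] (s : Finset ι) (α β : ι → A) :
    ∀ c : A, (∀ k, IsIntegral R ((C c * ∏ i ∈ s, (C (α i) * X + C (β i))).coeff k)) →
      ∀ t ⊆ s, IsIntegral R (c * (∏ i ∈ t, α i) * ∏ i ∈ s \ t, β i) := by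
  induction s using Finset.induction with
  | empty =>
    intro c h t ht
    obtain rfl := Finset.subset_empty.1 ht
    simpa using h 0
  | insert a s has ih =>
    intro c h t ht
    set u := ∏ i ∈ s, (C (α i) * X + C (β i)) with hu
    rw [Finset.prod_insert has] at h
    have hab : (∀ k, IsIntegral R ((C (c * α a) * u).coeff k)) ∧
        (∀ k, IsIntegral R ((C (c * β a) * u).coeff k)) := by
      by_cases ha : α a = 0
      · refine ⟨fun k => by simp [ha, isIntegral_zero], fun k => ?_⟩
        simpa [ha, mul_assoc] using h k
      · set θ := -(β a) / α a with hθ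
        have hb : α a * θ = -(β a) := by rw [hθ]; field_simp
        have e : C c * ((C (α a) * X + C (β a)) * u) = C (c * α a) * u * (X - C θ) := by
          have hb' : C (β a) = -(C (α a) * C θ) := by rw [← C_mul, hb, C_neg, neg_neg]
          rw [hb', C_mul]
          ring
        rw [e] at h
        refine ⟨fun k => (isIntegral_factor h k).1, fun k => ?_⟩
        have := (isIntegral_factor h k).2.neg
        rw [coeff_C_mul] at this ⊢
        convert this using 1
        linear_combination (c * u.coeff k) * hb
    by_cases hat : a ∈ t
    · have ht' : t.erase a ⊆ s := by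
        intro x hx
        obtain ⟨hxa, hxt⟩ := Finset.mem_erase.1 hx
        exact (Finset.mem_insert.1 (ht hxt)).resolve_left hxa
      have := ih (c * α a) hab.1 (t.erase a) ht'
      have e : insert a s \ t = s \ t.erase a := by
        ext x
        by_cases hx : x = a <;> simp [hx, hat, has]
      rw [← Finset.mul_prod_erase t α hat, e]
      convert this using 1
      ring
    · have ht' : t ⊆ s := fun x hx =>
        (Finset.mem_insert.1 (ht hx)).resolve_left (fun e => hat (e ▸ hx))
      have := ih (c * β a) hab.2 t ht'
      have e : insert a s \ t = insert a (s \ t) := by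
        ext x
        by_cases hx : x = a <;> simp [hx, hat]
      rw [e, Finset.prod_insert (by simp [has])]
      convert this using 1
      ring

/-- The form used for the weights: one of the two coefficients of every factor. -/
theorem isIntegral_choice {ι : Type*} [Fintype ι] {c : A} {lam : Fin 2 → ι → A}
    (h : ∀ k, IsIntegral R ((C c * ∏ i, (C (lam 0 i) * X + C (lam 1 i))).coeff k))
    (sel : ι → Fin 2) : IsIntegral R (c * ∏ i, lam (sel i) i) := by
  classical
  have := isIntegral_selection Finset.univ (lam 0) (lam 1) c h
    (Finset.univ.filter fun i => sel i = 0) (Finset.subset_univ _)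
  convert this using 1
  rw [mul_assoc, ← Finset.filter_not, ← Finset.prod_filter_mul_prod_filter_not Finset.univ
    (fun i => sel i = 0) fun i => lam (sel i) i]
  congr 1
  congr 1
  · exact Finset.prod_congr rfl fun i hi => by rw [(Finset.mem_filter.1 hi).2]
  · exact Finset.prod_congr rfl fun i hi => by
      rw [show sel i = 1 by have := (Finset.mem_filter.1 hi).2; omega]

end Vale.Agent.P200.Cyc
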