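import Vale.Agent.P200.Cyc.Spec
import Vale.Agent.P200.Cyc.Translate
import Vale.Agent.P200.Cyc.Integral
import Vale.Agent.P200.Cyc.BlockField

/-!
The graded algebra of the parameters, the generators of the blocks and the primitive element is
finite over the parameters.
-/

noncomputable section

namespace Vale.Agent.P200.Cyc

open Polynomial Matrix

variable {K L₀ E : Type*} [Field K] [Field L₀] [Field E] [Algebra K L₀] [Algebra K E]
  [Algebra L₀ E] [IsScalarTower K L₀ E] {p b : ℕ}

/-- The parameters of a homogeneous polynomial have a single degree. -/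
lemma parHom_homogeneous {σ : Type*} (w : σ → L₀) {a : MvPolynomial σ K} {s : ℕ}
    (ha : a.IsHomogeneous s) :
    parHom (K := K) (B := E) p w a = monomial (p * s) (algebraMap L₀ E (MvPolynomial.aeval w a)) := by
  classical
  conv_lhs => rw [a.as_sum]
  conv_rhs => rw [a.as_sum]
  simp only [map_sum]
  refine Finset.sum_congr rfl fun e he => ?_
  have hs : ∑ l ∈ e.support, e l = s := by
    have := ha (MvPolynomial.mem_support_iff.1 he)
    simpa [Finsupp.weight_apply, Finsupp.sum] using this
  simp only [parHom, AlgHom.comp_apply, MvPolynomial.aeval_monomial, Finsupp.prod,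
    ← C_mul_X_pow_eq_monomial, mul_pow, Finset.prod_mul_distrib, ← pow_mul, Finset.prod_pow_eq_pow_sum,
    ← Finset.mul_sum, hs]
  simp [mul_assoc, Polynomial.map_prod]

lemma dehom_map (P : MvPolynomial (Fin 2) K) :
    dehom (MvPolynomial.map (algebraMap K L₀) P) = (dehom P).map (algebraMap K L₀) := by
  induction P using MvPolynomial.induction_on with
  | C a => simp [dehom]
  | add f g hf hg => simp_all [dehom]
  | mul_X f i hf => fin_cases i <;> simp_all [dehom]

/-- A selection product of one block is integral over the parameters. -/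
lemma isIntegral_gfun [IsAlgClosed E] [NeZero p] (L : IntermediateField L₀ E) (B : Block L p)
    {σ : Type*} [Fintype σ] (w : σ → L₀) (Bin : σ → Fin b → MvPolynomial (Fin 2) K) (r : Fin b)
    (h : ∀ x : Fin 2 → E,
      B.gam ^ p * ∏ i, (∑ j, x j * B.lam j i) = MvPolynomial.aeval x (formG w Bin r))
    (sel : ZMod p → Fin 2) (z : ZMod p) :
    (parHom (K := K) (B := E) p w).toRingHom.IsIntegralElem
      (monomial p (B.gam ^ p * ∏ i, B.lam (sel i) (z + i))) := by
  let := (parHom (K := K) (B := E) p w).toRingHom.toAlgebra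
  change IsIntegral (MvPolynomial σ K) (monomial p (B.gam ^ p * ∏ i, B.lam (sel i) (z + i)))
  let F := FractionRing E[X]
  let j : E →+* F := (algebraMap E[X] F).comp C
  let τ : F := algebraMap E[X] F (X ^ p)
  have hmon : ∀ c : E, algebraMap E[X] F (monomial p c) = τ * j c := by
    intro c
    rw [← C_mul_X_pow_eq_monomial, map_mul, mul_comm]
    rfl
  refine (isIntegral_algHom_iff (IsScalarTower.toAlgHom (MvPolynomial σ K) E[X] F)
    (IsFractionRing.injective E[X] F)).1 ?_
  rw [IsScalarTower.coe_toAlgHom', hmon, map_mul, map_prod, ← mul_assoc]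
  refine isIntegral_choice (lam := fun k i => j (B.lam k (z + i))) (fun k => ?_) sel
  have e : ∏ i, (C (j (B.lam 0 (z + i))) * X + C (j (B.lam 1 (z + i)))) =
      ∏ i, (C (j (B.lam 0 i)) * X + C (j (B.lam 1 i))) :=
    Equiv.prod_comp (Equiv.addLeft z) fun i => C (j (B.lam 0 i)) * X + C (j (B.lam 1 i))
  have key : C (j (B.gam ^ p)) * ∏ i, (C (j (B.lam 0 i)) * X + C (j (B.lam 1 i))) =
      ((dehom (formG w Bin r)).map (algebraMap L₀ E)).map j := by
    rw [← map_dehom_eq B h]
    simp [Polynomial.map_prod]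
  rw [e, C_mul, mul_assoc, key, coeff_C_mul, coeff_map, coeff_map, ← hmon]
  have hc : (dehom (formG w Bin r)).coeff k =
      MvPolynomial.aeval w (∑ l, MvPolynomial.C ((dehom (Bin l r)).coeff k) * MvPolynomial.X l) := by
    have hd : dehom (formG w Bin r) = ∑ l, C (w l) * (dehom (Bin l r)).map (algebraMap K L₀) := by
      simp only [← dehom_map]
      simp [formG, dehom]
    simp [hd, mul_comm]
  have hl : (∑ l, MvPolynomial.C ((dehom (Bin l r)).coeff k) * MvPolynomial.X l :
      MvPolynomial σ K).IsHomogeneous 1 :=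
    MvPolynomial.IsHomogeneous.sum _ _ _ fun l _ =>
      (MvPolynomial.isHomogeneous_X K l).C_mul _
  rw [hc]
  have hint := (isIntegral_algebraMap (R := MvPolynomial σ K) (A := E[X])
    (x := ∑ l, MvPolynomial.C ((dehom (Bin l r)).coeff k) * MvPolynomial.X l)).map
      (IsScalarTower.toAlgHom (MvPolynomial σ K) E[X] F)
  rw [IsScalarTower.coe_toAlgHom', show algebraMap (MvPolynomial σ K) E[X] _ = _ from
    parHom_homogeneous (E := E) (p := p) w hl, mul_one] at hint
  exact hint

lemma mul_mono_l {R A : Type*} [CommSemiring R] [Semiring A] [Algebra R A] {X Y Z : Submodule R A}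
    (h : X ≤ Y) : X * Z ≤ Y * Z := mul_le_mul' h le_rfl

lemma mul_mono_r {R A : Type*} [CommSemiring R] [Semiring A] [Algebra R A] {X Y Z : Submodule R A}
    (h : X ≤ Y) : Z * X ≤ Z * Y := mul_le_mul' le_rfl h

lemma pow_mul_le {R A : Type*} [CommSemiring R] [Semiring A] [Algebra R A] {X Y : Submodule R A}
    (h : Y * X ≤ X * Y) : ∀ k : ℕ, Y ^ k * X ≤ X * Y ^ k
  | 0 => by simp
  | k + 1 => calc
      Y ^ (k + 1) * X = Y ^ k * (Y * X) := by rw [pow_succ, mul_assoc]
      _ ≤ Y ^ k * (X * Y) := mul_mono_r h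
      _ = (Y ^ k * X) * Y := by rw [mul_assoc]
      _ ≤ (X * Y ^ k) * Y := mul_mono_l (pow_mul_le h k)
      _ = X * Y ^ (k + 1) := by rw [pow_succ, mul_assoc]

lemma mul_pow_le {R A : Type*} [CommSemiring R] [Semiring A] [Algebra R A] {X Y : Submodule R A}
    (h : X * Y ≤ Y * X) : ∀ k : ℕ, X * Y ^ k ≤ Y ^ k * X
  | 0 => by simp
  | k + 1 => calc
      X * Y ^ (k + 1) = (X * Y ^ k) * Y := by rw [pow_succ, mul_assoc]
      _ ≤ (Y ^ k * X) * Y := mul_mono_l (mul_pow_le h k)
      _ = Y ^ k * (X * Y) := by rw [mul_assoc]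
      _ ≤ Y ^ k * (Y * X) := mul_mono_r h
      _ = Y ^ (k + 1) * X := by rw [pow_succ, mul_assoc]

/-- A product of slices, each finite and passed by the others, is stable up to the coefficients. -/
lemma mul_slices_le {R A ι : Type*} [CommSemiring R] [Semiring A] [Algebra R A] {p : ℕ} [NeZero p]
    {N : Submodule R A} {V : ι → Submodule R A} (h1 : 1 ≤ N)
    (hVN : ∀ s, V s * N ≤ N * V s) (hNV : ∀ s, V s ^ p ≤ N)
    (hVV : ∀ r s, V r * V s ≤ V s * V r) :
    ∀ (l : List ι), ∀ s ∈ l, V s * (l.map fun a => ⨆ k : Fin p, V a ^ (k : ℕ)).prod ≤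
      N * (l.map fun a => ⨆ k : Fin p, V a ^ (k : ℕ)).prod
  | [], _, h => by simp at h
  | a :: l, s, h => by
    set Q := ⨆ k : Fin p, V a ^ (k : ℕ) with hQ
    set P := (l.map fun a => ⨆ k : Fin p, V a ^ (k : ℕ)).prod with hP
    rw [List.map_cons, List.prod_cons, ← mul_assoc, ← mul_assoc]
    by_cases hsa : s = a
    · subst hsa
      refine mul_mono_l ?_
      rw [Submodule.mul_iSup]
      refine iSup_le fun k => ?_
      rw [← pow_succ']
      by_cases hk : (k : ℕ) + 1 < p
      · calc V s ^ ((k : ℕ) + 1) ≤ Q := le_iSup (fun k : Fin p => V s ^ (k : ℕ)) ⟨_, hk⟩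
          _ = 1 * Q := (one_mul _).symm
          _ ≤ N * Q := mul_mono_l h1
      · rw [show (k : ℕ) + 1 = p by omega]
        calc V s ^ p ≤ N := hNV s
          _ = N * 1 := (mul_one _).symm
          _ ≤ N * Q := mul_mono_r
              ((pow_zero (V s)).ge.trans (le_iSup (fun k : Fin p => V s ^ (k : ℕ)) ⟨0, NeZero.pos p⟩))
    · have hsQ : V s * Q ≤ Q * V s := by
        rw [hQ, Submodule.mul_iSup]
        refine iSup_le fun k => (mul_pow_le (hVV s a) k).trans (mul_mono_l ?_)
        exact le_iSup (fun k : Fin p => V a ^ (k : ℕ)) k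
      have hQN : Q * N ≤ N * Q := by
        rw [hQ, Submodule.iSup_mul]
        refine iSup_le fun k => (pow_mul_le (hVN a) k).trans (mul_mono_r ?_)
        exact le_iSup (fun k : Fin p => V a ^ (k : ℕ)) k
      calc V s * Q * P ≤ Q * V s * P := mul_mono_l hsQ
        _ = Q * (V s * P) := mul_assoc _ _ _
        _ ≤ Q * (N * P) := mul_mono_r
            (mul_slices_le h1 hVN hNV hVV l s ((List.mem_cons.1 h).resolve_left hsa))
        _ = Q * N * P := (mul_assoc _ _ _).symm
        _ ≤ N * Q * P := mul_mono_l hQN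

variable [NeZero p]

/-- A family of polynomials as a polynomial with diagonal coefficients. -/
def diagPoly : (Pt p b → E[X]) →+* (Matrix (Pt p b) (Pt p b) E)[X] :=
  (matPolyEquiv : Matrix (Pt p b) (Pt p b) E[X] ≃ₐ[E] _).toAlgHom.toRingHom.comp
    (Matrix.diagonalRingHom (Pt p b) E[X])

lemma diagPoly_coeff (f : Pt p b → E[X]) (k : ℕ) :
    (diagPoly f).coeff k = diagonal fun x => (f x).coeff k := by
  ext x y
  change (matPolyEquiv (diagonal f)).coeff k x y = _
  rw [matPolyEquiv_coeff_apply]
  by_cases h : x = y <;> simp [h]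

lemma diagPoly_monomial (n : ℕ) (u : Pt p b → E) :
    diagPoly (fun x => monomial n (u x)) = monomial n (diagonal u) := by
  refine Polynomial.ext fun k => ?_
  rw [diagPoly_coeff, coeff_monomial]
  split_ifs with h <;> simp [coeff_monomial, h]

lemma monomial_mul_diagPoly (u : Pt p b → E) (v : Pt p b) (f : Pt p b → E[X]) :
    monomial 1 (trans u v) * diagPoly f =
      diagPoly (fun x => f (x + v)) * monomial 1 (trans u v) := by
  refine Polynomial.ext fun k => ?_
  cases k with
  | zero => simp [mul_coeff_zero, coeff_monomial]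
  | succ n =>
    rw [coeff_monomial_mul, coeff_mul_monomial, diagPoly_coeff, diagPoly_coeff]
    ext x y
    simp only [Matrix.mul_diagonal, Matrix.diagonal_mul, trans_apply]
    split_ifs with h <;> simp [h, mul_comm]

lemma parHom_eq_diagPoly {σ : Type*} (w : σ → L₀) (a : MvPolynomial σ K) :
    parHom (K := K) (B := Matrix (Pt p b) (Pt p b) E) p w a = diagPoly fun _ => parHom (K := K) (B := E) p w a := by
  induction a using MvPolynomial.induction_on with
  | C c =>
    have : (fun _ : Pt p b => parHom (K := K) (B := E) p w (MvPolynomial.C c)) =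
        fun _ => monomial 0 (algebraMap K E c) := by
      simp [parHom, IsScalarTower.algebraMap_apply K L₀ E]
    rw [this, diagPoly_monomial]
    simp [parHom, IsScalarTower.algebraMap_apply K L₀ E, Matrix.algebraMap_eq_diagonal, Pi.algebraMap_def]
  | add f g hf hg =>
    rw [map_add, hf, hg, ← map_add]
    congr 1
    funext x
    simp
  | mul_X f l hf =>
    have e : parHom (K := K) (B := Matrix (Pt p b) (Pt p b) E) p w (MvPolynomial.X l) =
        diagPoly fun _ => parHom (K := K) (B := E) p w (MvPolynomial.X l) := by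
      simp [parHom, diagPoly_monomial, Matrix.algebraMap_eq_diagonal, Pi.algebraMap_def]
    rw [map_mul, hf, e, ← map_mul]
    congr 1
    funext x
    simp

lemma parHom_commute {σ : Type*} (w : σ → L₀) (a : MvPolynomial σ K)
    (x : (Matrix (Pt p b) (Pt p b) E)[X]) :
    parHom (K := K) (B := Matrix (Pt p b) (Pt p b) E) p w a * x =
      x * parHom (K := K) (B := Matrix (Pt p b) (Pt p b) E) p w a := by
  obtain ⟨M, rfl⟩ :=
    (matPolyEquiv : Matrix (Pt p b) (Pt p b) E[X] ≃ₐ[E] _).surjective x
  rw [parHom_eq_diagPoly]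
  have e : diagPoly (fun _ : Pt p b => parHom (K := K) (B := E) p w a) =
      matPolyEquiv (algebraMap E[X] (Matrix (Pt p b) (Pt p b) E[X]) (parHom (K := K) (B := E) p w a)) := by
    rw [Matrix.algebraMap_eq_diagonal]
    rfl
  rw [e, ← map_mul, ← map_mul, Algebra.commutes]

variable (ω : E) (gam : Fin b → E) (lam : Fin b → Fin 2 → ZMod p → E)

lemma prod_blockGen (r : Fin b) : ∀ {n : ℕ} (sel : Fin n → Fin 2),
    (List.ofFn fun t => monomial 1 (blockGen ω gam lam (r, sel t))).prod =
      monomial n (trans (fun x => ∏ t : Fin n, genWt ω gam lam (r, sel t)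
        (x + (t : ℕ) • Pi.single r 1)) (n • Pi.single r 1))
  | 0, _ => by simp [trans_one]
  | n + 1, sel => by
    rw [List.ofFn_succ, List.prod_cons, prod_blockGen r, monomial_mul_monomial, blockGen, trans_mul,
      add_comm 1 n, succ_nsmul']
    simp only [Fin.prod_univ_succ, Fin.val_zero, zero_smul, add_zero, Fin.val_succ, succ_nsmul',
      add_assoc]

lemma prod_blockGen_full [Fact p.Prime] (hω : ω ^ p = 1) (r : Fin b) (sel : Fin p → Fin 2) :
    ∃ sel' : ZMod p → Fin 2,
      (List.ofFn fun t => monomial 1 (blockGen ω gam lam (r, sel t))).prod =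
        diagPoly (fun x => monomial p (gam r ^ p * ∏ i, lam r (sel' i) (x r + i))) := by
  refine ⟨fun i => sel ⟨i.val, ZMod.val_lt i⟩, ?_⟩
  have h0 : p • (Pi.single r (1 : ZMod p) : Pt p b) = 0 := by
    funext q; simp
  rw [prod_blockGen, h0, diagPoly_monomial]
  congr 1
  have hd : ∀ u : Pt p b → E, trans u 0 = diagonal u := fun u => by
    ext x y
    simp [trans_apply, Matrix.diagonal_apply, eq_comm]
  rw [hd]
  congr 1
  funext x
  have hterm : ∀ t : Fin p, genWt ω gam lam (r, sel t) (x + (t : ℕ) • Pi.single r 1) =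
      chr ω (psum r x) * gam r * lam r (sel t) (x r + ((t : ℕ) : ZMod p)) := by
    intro t
    rw [genWt, ← Pi.single_smul', psum_add, psum_single_self, add_zero, Pi.add_apply,
      Pi.single_eq_same, nsmul_eq_mul, mul_one]
  simp only [hterm, Finset.prod_mul_distrib, Finset.prod_const, Finset.card_univ, Fintype.card_fin]
  rw [chr_pow_self hω, one_mul]
  congr 1
  refine Finset.prod_nbij' (fun t : Fin p => ((t : ℕ) : ZMod p)) (fun i => ⟨i.val, ZMod.val_lt i⟩)
    (by simp) (by simp) (fun t _ => ?_) (fun i _ => by simp) (fun t _ => ?_)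
  · simp [ZMod.val_natCast, Nat.mod_eq_of_lt t.isLt]
  · simp [ZMod.val_natCast, Nat.mod_eq_of_lt t.isLt]

lemma blockGen_passes (hω : ω ^ p = 1) (q q' : Fin b × Fin 2) (h : q.1 ≠ q'.1) :
    ∃ n : ℕ, blockGen ω gam lam q * blockGen ω gam lam q' =
      ω ^ n • (blockGen ω gam lam q' * blockGen ω gam lam q) := by
  rcases h.lt_or_gt with hlt | hgt
  · exact ⟨1, by rw [pow_one]; exact blockGen_comm ω gam lam hω hlt⟩
  · refine ⟨p - 1, ?_⟩
    rw [blockGen_comm ω gam lam hω hgt, smul_smul, ← pow_succ, Nat.sub_add_cancel (NeZero.pos p), hω,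
      one_smul]

omit ω gam lam

/-- The field `fin` of a system of blocks. -/
theorem exists_fin [IsAlgClosed E] [Fact p.Prime] {ω : K} (hω : ω ^ p = 1)
    (L : IntermediateField L₀ E) (Bk : Fin b → Block L p) (w : Fin b × Fin 2 → L₀)
    (Bin : Fin b × Fin 2 → Fin b → MvPolynomial (Fin 2) K)
    (_hBin : ∀ l r, (Bin l r).IsHomogeneous p)
    (hfac : ∀ r (x : Fin 2 → E),
      (Bk r).gam ^ p * ∏ i, (∑ j, x j * (Bk r).lam j i) = MvPolynomial.aeval x (formG w Bin r))
    (θ : L) (D k : ℕ) (A : ℕ → MvPolynomial (Fin b × Fin 2) K)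
    (hA : ∀ i < k, (A i).IsHomogeneous (D * (k - i)))
    (hθ : θ ^ k + ∑ i ∈ Finset.range k,
      algebraMap L₀ L (MvPolynomial.aeval w (A i)) * θ ^ i = 0) :
    ∃ t : Finset (Polynomial (Matrix (Pt p b) (Pt p b) E)),
      ∀ x ∈ wordAlg K p D w
        (blockGen (algebraMap K E ω) (fun r => (Bk r).gam) (fun r => (Bk r).lam)) θ,
      ∃ a : Polynomial (Matrix (Pt p b) (Pt p b) E) → MvPolynomial (Fin b × Fin 2) K,
        x = ∑ e ∈ t, parHom p w (a e) * e := by
  classical
  set ωE := algebraMap K E ω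
  set gam := fun r => (Bk r).gam
  set lam := fun r => (Bk r).lam
  have hωE : ωE ^ p = 1 := by rw [← map_pow, hω, map_one]
  let instE : Algebra (MvPolynomial (Fin b × Fin 2) K) E[X] := (parHom (K := K) (B := E) p w).toRingHom.toAlgebra
  let instA : Algebra (MvPolynomial (Fin b × Fin 2) K) (Matrix (Pt p b) (Pt p b) E)[X] :=
    (parHom (K := K) (B := Matrix (Pt p b) (Pt p b) E) p w).toRingHom.toAlgebra' fun a x =>
      parHom_commute w a x
  let ι : (Pt p b → E[X]) →ₐ[(MvPolynomial (Fin b × Fin 2) K)] (Matrix (Pt p b) (Pt p b) E)[X] :=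
    { (diagPoly (E := E) (p := p) (b := b)) with
      commutes' := fun a => (parHom_eq_diagPoly w a).symm }
  let tau : Pt p b → ((Pt p b → E[X]) →ₐ[(MvPolynomial (Fin b × Fin 2) K)] (Pt p b → E[X])) := fun v =>
    AlgHom.pi fun x => Pi.evalAlgHom (MvPolynomial (Fin b × Fin 2) K) _ (x + v)
  let gfun : Fin b → (ZMod p → Fin 2) → (Pt p b → E[X]) := fun r sel x =>
    monomial p (gam r ^ p * ∏ i, lam r (sel i) (x r + i))
  let tth : E[X] := monomial (p * D) (θ : E)
  let G : Set (Pt p b → E[X]) := Set.range (fun q : Fin b × (ZMod p → Fin 2) => gfun q.1 q.2) ∪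
    {fun _ => tth}
  have hGfin : G.Finite := (Set.finite_range _).union (Set.finite_singleton _)
  have htth : IsIntegral (MvPolynomial (Fin b × Fin 2) K) tth := by
    refine ⟨X ^ k + ∑ i ∈ Finset.range k, C (A i) * X ^ i, ?_, ?_⟩
    · refine monic_X_pow_add (lt_of_le_of_lt (degree_sum_le _ _)
        ((Finset.sup_lt_iff (WithBot.bot_lt_coe _)).2 fun i hi => ?_))
      exact lt_of_le_of_lt (degree_C_mul_X_pow_le _ _)
        (WithBot.coe_lt_coe.2 (Finset.mem_range.1 hi))
    · have h0 := congrArg (fun y : L => (y : E)) hθ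
      simp only [AddMemClass.coe_add, AddSubmonoidClass.coe_finsetSum, MulMemClass.coe_mul,
        SubmonoidClass.coe_pow, ZeroMemClass.coe_zero] at h0
      rw [eval₂_add, eval₂_X_pow, eval₂_finsetSum]
      simp only [eval₂_mul, eval₂_C, eval₂_X_pow, tth, monomial_pow]
      rw [Finset.sum_congr rfl (g := fun i => monomial (p * D * k)
        (algebraMap L₀ E (MvPolynomial.aeval w (A i)) * (θ : E) ^ i)) fun i hi => ?_]
      · rw [← map_sum, ← map_add]
        convert map_zero (monomial (R := E) (p * D * k))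
        exact h0
      · change parHom (K := K) (B := E) p w (A i) * _ = _
        rw [parHom_homogeneous w (hA i (Finset.mem_range.1 hi)), monomial_mul_monomial]
        congr 1
        rw [← mul_assoc, ← mul_add, Nat.sub_add_cancel (Finset.mem_range.1 hi).le]
  have hGint : ∀ f ∈ G, IsIntegral (MvPolynomial (Fin b × Fin 2) K) f := by
    intro f hf
    have hx : ∀ x, IsIntegral (MvPolynomial (Fin b × Fin 2) K) (f x) := by
      rcases hf with ⟨⟨r, sel⟩, rfl⟩ | rfl
      · exact fun x => isIntegral_gfun L (Bk r) w Bin r (hfac r) sel (x r)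
      · exact fun _ => htth
    choose P hP hP0 using hx
    refine ⟨∏ x, P x, monic_prod_of_monic _ _ fun x _ => hP x, funext fun x => ?_⟩
    refine (aeval_algHom_apply (Pi.evalAlgHom (MvPolynomial (Fin b × Fin 2) K)
      (fun _ : Pt p b => E[X]) x) f _).symm.trans ?_
    rw [map_prod]
    exact Finset.prod_eq_zero (Finset.mem_univ x) (hP0 x)
  have htau : ∀ v, (Algebra.adjoin (MvPolynomial (Fin b × Fin 2) K) G).map (tau v) ≤ Algebra.adjoin (MvPolynomial (Fin b × Fin 2) K) G := by
    intro v
    rw [AlgHom.map_adjoin, Algebra.adjoin_le_iff]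
    rintro _ ⟨f, hf, rfl⟩
    refine Algebra.subset_adjoin ?_
    rcases hf with ⟨⟨r, sel⟩, rfl⟩ | rfl
    · refine Or.inl ⟨(r, fun i => sel (i - v r)), funext fun x => ?_⟩
      change monomial p _ = monomial p _
      congr 2
      refine (Equiv.prod_comp (Equiv.addRight (v r)) fun i =>
        lam r (sel (i - v r)) (x r + i)).symm.trans (Finset.prod_congr rfl fun i _ => ?_)
      simp [add_assoc, add_comm i (v r)]
    · exact Or.inr rfl
  let Nalg := (Algebra.adjoin (MvPolynomial (Fin b × Fin 2) K) G).map ι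
  set N := Subalgebra.toSubmodule Nalg with hN
  have hNfg : N.FG := (fg_adjoin_of_finite hGfin hGint).map ι.toLinearMap
  have hN1 : (1 : Submodule (MvPolynomial (Fin b × Fin 2) K) _) ≤ N := Submodule.one_le.2 (one_mem Nalg)
  have hNN : N * N ≤ N := Submodule.mul_le.2 fun m hm n hn => mul_mem (s := Nalg) hm hn
  let e : Fin b × Fin 2 → (Matrix (Pt p b) (Pt p b) E)[X] := fun q =>
    monomial 1 (blockGen ωE gam lam q)
  let V : Fin b → Submodule (MvPolynomial (Fin b × Fin 2) K) (Matrix (Pt p b) (Pt p b) E)[X] := fun r =>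
    Submodule.span (MvPolynomial (Fin b × Fin 2) K) (Set.range fun j => e (r, j))
  have hVN : ∀ s, V s * N ≤ N * V s := by
    intro s
    refine Submodule.mul_le.2 fun m hm n hn => ?_
    obtain ⟨f, hf, rfl⟩ := hn
    refine (Submodule.span_le (p := (N * V s).comap (LinearMap.mulRight (MvPolynomial (Fin b × Fin 2) K) (ι f)))).2 ?_ hm
    rintro _ ⟨j, rfl⟩
    change e (s, j) * ι f ∈ N * V s
    have : e (s, j) * ι f = ι (tau (Pi.single s 1) f) * e (s, j) := monomial_mul_diagPoly _ _ f
    rw [this]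
    exact Submodule.mul_mem_mul ⟨_, htau _ ⟨f, hf, rfl⟩, rfl⟩
      (Submodule.subset_span ⟨j, rfl⟩)
  have hVp : ∀ s, V s ^ p ≤ N := by
    intro s
    rw [Submodule.span_pow, Submodule.span_le]
    intro x hx
    obtain ⟨f, rfl⟩ := Set.mem_pow.1 hx
    choose sel hsel using fun t => (f t).2
    obtain ⟨sel', h'⟩ := prod_blockGen_full ωE gam lam hωE s sel
    refine ⟨gfun s sel', Algebra.subset_adjoin (Or.inl ⟨(s, sel'), rfl⟩), ?_⟩
    simp only [← hsel]
    exact h'.symm
  have hVV : ∀ r s, V r * V s ≤ V s * V r := by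
    intro r s
    by_cases hrs : r = s
    · rw [hrs]
    rw [Submodule.span_mul_span, Submodule.span_le]
    rintro _ ⟨_, ⟨i, rfl⟩, _, ⟨j, rfl⟩, rfl⟩
    obtain ⟨n, hn⟩ := blockGen_passes ωE gam lam hωE (r, i) (s, j) hrs
    have : e (r, i) * e (s, j) = (MvPolynomial.C (ω ^ n) : (MvPolynomial (Fin b × Fin 2) K)) • (e (s, j) * e (r, i)) := by
      rw [Algebra.smul_def]
      change _ = parHom p w (algebraMap K (MvPolynomial (Fin b × Fin 2) K) (ω ^ n)) * _
      rw [AlgHom.commutes, ← Algebra.smul_def]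
      simp only [e, monomial_mul_monomial, hn, smul_monomial]
      rw [← map_pow, IsScalarTower.algebraMap_smul]
    change e (r, i) * e (s, j) ∈ V s * V r
    rw [this]
    exact Submodule.smul_mem _ _ (Submodule.mul_mem_mul (Submodule.subset_span ⟨j, rfl⟩)
      (Submodule.subset_span ⟨i, rfl⟩))
  set Q := fun a => ⨆ k : Fin p, V a ^ (k : ℕ)
  set P := ((List.finRange b).map Q).prod
  have hPfg : P.FG ∧ 1 ≤ P := by
    simp only [P]
    induction List.finRange b with
    | nil => exact ⟨by simp [Submodule.one_eq_span, Submodule.fg_span_singleton], by simp⟩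
    | cons a l ih =>
      rw [List.map_cons, List.prod_cons]
      refine ⟨(Submodule.fg_iSup _ fun k => ?_).mul ih.1, one_le_mul ?_ ih.2⟩
      · exact (Submodule.fg_span (Set.finite_range _)).pow _
      · exact (pow_zero (V a)).ge.trans
          (le_iSup (fun k : Fin p => V a ^ (k : ℕ)) ⟨0, NeZero.pos p⟩)
  set M := N * P
  obtain ⟨t, ht⟩ : M.FG := hNfg.mul hPfg.1
  have h1 : (1 : (Matrix (Pt p b) (Pt p b) E)[X]) ∈ M :=
    Submodule.one_le.1 (one_le_mul hN1 hPfg.2)
  have hV : ∀ s, V s * M ≤ M := fun s => calc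
    V s * (N * P) = V s * N * P := (mul_assoc _ _ _).symm
    _ ≤ N * V s * P := mul_mono_l (hVN s)
    _ = N * (V s * P) := mul_assoc _ _ _
    _ ≤ N * (N * P) := mul_mono_r
        (mul_slices_le hN1 hVN hVp hVV _ s (List.mem_finRange s))
    _ = N * N * P := (mul_assoc _ _ _).symm
    _ ≤ N * P := mul_mono_l hNN
  have hNM : N * M ≤ M := by
    rw [← mul_assoc]
    exact mul_mono_l hNN
  refine ⟨t, fun x hx => ?_⟩
  have key : ∀ m ∈ M, x * m ∈ M := by
    rw [wordAlg] at hx
    induction hx using Algebra.adjoin_induction with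
    | mem y hy =>
      intro m hm
      rcases hy with (⟨q, rfl⟩ | ⟨l, rfl⟩) | rfl
      · exact hV q.1 (Submodule.mul_mem_mul (Submodule.subset_span ⟨q.2, rfl⟩) hm)
      · convert M.smul_mem (MvPolynomial.X l : (MvPolynomial (Fin b × Fin 2) K)) hm using 1
        rw [Algebra.smul_def]
        congr 1
        change _ = parHom p w (MvPolynomial.X l)
        simp [parHom]
      · refine hNM (Submodule.mul_mem_mul ?_ hm)
        refine ⟨fun _ => tth, Algebra.subset_adjoin (Or.inr rfl), ?_⟩
        change diagPoly _ = _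
        rw [diagPoly_monomial, Matrix.algebraMap_eq_diagonal]
        rfl
    | algebraMap c =>
      intro m hm
      convert M.smul_mem (algebraMap K (MvPolynomial (Fin b × Fin 2) K) c) hm using 1
      rw [Algebra.smul_def]
      congr 1
      exact (AlgHom.commutes (parHom p w) c).symm
    | add y z _ _ hy hz => intro m hm; rw [add_mul]; exact M.add_mem (hy m hm) (hz m hm)
    | mul y z _ _ hy hz => intro m hm; rw [mul_assoc]; exact hy _ (hz m hm)
  have := key 1 h1
  rw [mul_one, ← ht, Submodule.mem_span_finset] at this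
  obtain ⟨a, -, ha⟩ := this
  exact ⟨a, by rw [← ha]; exact Finset.sum_congr rfl fun y _ => Algebra.smul_def _ _⟩

end Vale.Agent.P200.Cyc
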