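import Vale.Agent.P200.Assemble
import Vale.Agent.P200.Quad.Graded

/-!
Hilbert functions of as many regular forms as variables: the count of a box.
-/

noncomputable section

namespace Vale.Agent.P200.Cyc

open MvPolynomial Module

variable {σ τ : Type*} {K : Type*} [Field K]

/-- Regular lists of the same degrees give the same Hilbert function. -/
theorem finrank_degPart_congr [Finite σ] (f f' : τ → MvPolynomial σ K) (a : τ → ℕ)
    (ha : ∀ i, 0 < a i) (hf : ∀ i, (f i).IsHomogeneous (a i))
    (hf' : ∀ i, (f' i).IsHomogeneous (a i)) :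
    ∀ (l : List τ) (J J' : Ideal (MvPolynomial σ K)), HomogI J → HomogI J' →
      (1 : MvPolynomial σ K) ∉ J → (1 : MvPolynomial σ K) ∉ J' →
      RegList J (l.map f) → RegList J' (l.map f') →
      (∀ t, finrank K (degPart t J) = finrank K (degPart t J')) →
      ∀ t, finrank K (degPart t (Ideal.ofList (l.map f) ⊔ J)) =
        finrank K (degPart t (Ideal.ofList (l.map f') ⊔ J')) := by
  intro l
  induction l with
  | nil =>
    intro J J' _ _ _ _ _ _ hdim t
    rw [List.map_nil, List.map_nil, Ideal.ofList_nil, bot_sup_eq, bot_sup_eq]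
    exact hdim t
  | cons i l ih =>
    intro J J' hJ hJ' h1 h1' hreg hreg' hdim t
    have hne : ∀ {I : Ideal (MvPolynomial σ K)} {q : MvPolynomial σ K}, (1 : MvPolynomial σ K) ∉ I →
        Nzd I q → q ≠ 0 := fun hI hq h0 => hI (hq 1 (by simp [h0]))
    have hone : ∀ {I : Ideal (MvPolynomial σ K)} {q : MvPolynomial σ K}, HomogI I →
        q.IsHomogeneous (a i) → (1 : MvPolynomial σ K) ∉ I →
          (1 : MvPolynomial σ K) ∉ Ideal.span {q} ⊔ I := fun hI hq hI1 h => by
      rcases exists_homog_of_mem_sup hI hq (isHomogeneous_one σ K) h with ⟨-, h⟩ | ⟨h, -⟩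
      · exact hI1 h
      · have := ha i
        omega
    rw [List.map_cons] at hreg hreg'
    rw [List.map_cons, List.map_cons, Ideal.ofList_cons, Ideal.ofList_cons, sup_comm (Ideal.span {f i}), sup_assoc,
      sup_comm (Ideal.span {f' i}), sup_assoc]
    refine ih _ _ (homogI_sup_span hJ (hf i)) (homogI_sup_span hJ' (hf' i))
      (hone hJ (hf i) h1) (hone hJ' (hf' i) h1') hreg.2 hreg'.2 (fun s => ?_) t
    rcases Nat.lt_or_ge s (a i) with hs | hs
    · rw [degPart_sup_of_lt hJ (hf i) hs, degPart_sup_of_lt hJ' (hf' i) hs, hdim]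
    · obtain ⟨s, rfl⟩ := Nat.exists_eq_add_of_le' hs
      have e := finrank_degPart_sup hJ (hf i) (hne h1 hreg.1) hreg.1 s
      have e' := finrank_degPart_sup hJ' (hf' i) (hne h1' hreg'.1) hreg'.1 s
      have d1 := hdim s
      have d2 := hdim (s + a i)
      omega

lemma ofList_powers (a : σ → ℕ) (L : List σ) :
    Ideal.ofList (L.map fun i => (X i : MvPolynomial σ K) ^ a i) =
      Ideal.span ((fun e => monomial e (1 : K)) ''
        ((fun i => Finsupp.single i (a i)) '' {i | i ∈ L})) := by
  refine congrArg Ideal.span ?_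
  ext g
  simp only [Set.mem_ofPred_eq, List.mem_map, Set.mem_image]
  constructor
  · rintro ⟨i, hi, rfl⟩
    exact ⟨_, ⟨i, hi, rfl⟩, X_pow_eq_monomial.symm⟩
  · rintro ⟨_, ⟨i, hi, rfl⟩, rfl⟩
    exact ⟨i, hi, X_pow_eq_monomial⟩

/-- Powers of distinct variables form a regular sequence. -/
theorem regList_powers (a : σ → ℕ) : ∀ (L : List σ), L.Nodup →
    RegList (⊥ : Ideal (MvPolynomial σ K)) (L.map fun i => X i ^ a i) := by
  classical
  intro L
  induction L using List.reverseRecOn with
  | nil => intro _; trivial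
  | append_singleton L i ih =>
    intro hnd
    obtain ⟨hL, -, hdis⟩ := List.nodup_append.1 hnd
    rw [List.map_append, List.map_singleton, regList_concat, sup_bot_eq]
    refine ⟨ih hL, fun u hu => ?_⟩
    rw [ofList_powers, mem_ideal_span_monomial_image] at hu ⊢
    intro e he
    obtain ⟨_, ⟨j, hj, rfl⟩, hle⟩ := hu (Finsupp.single i (a i) + e) (by
      rw [MvPolynomial.mem_support_iff, X_pow_eq_monomial, coeff_monomial_mul, one_mul,
        ← MvPolynomial.mem_support_iff]
      exact he)
    refine ⟨_, ⟨j, hj, rfl⟩, Finsupp.single_le_iff.2 ?_⟩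
    have hne : j ≠ i := fun h => hdis j hj i (by simp) h
    have := Finsupp.single_le_iff.1 hle
    rwa [Finsupp.add_apply, Finsupp.single_eq_of_ne hne, zero_add] at this

/-- The exponents of degree `d` outside the box. -/
def outBox {n : ℕ} (a : Fin n → ℕ) (d : ℕ) : Finset (Fin n →₀ ℕ) :=
  ((Finset.univ : Finset (Fin n)).finsuppAntidiag d).filter fun e => ∃ i, a i ≤ e i

lemma mem_outBox {n : ℕ} {a : Fin n → ℕ} {d : ℕ} {e : Fin n →₀ ℕ} :
    e ∈ outBox a d ↔ e.degree = d ∧ ∃ i, a i ≤ e i := by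
  simp [outBox, Finsupp.degree_eq_sum]

variable {n : ℕ}

/-- The Hilbert function of as many regular forms as variables. -/
theorem finrank_degPart_forms {f : Fin n → MvPolynomial (Fin n) K} {a : Fin n → ℕ}
    (ha : ∀ i, 0 < a i) (hf : ∀ i, (f i).IsHomogeneous (a i))
    (hreg : RegList ⊥ (List.ofFn f)) (d : ℕ) :
    finrank K (degPart d (Ideal.span (Set.range f))) = (outBox a d).card := by
  classical
  rw [List.ofFn_eq_map] at hreg
  have h := finrank_degPart_congr f (fun i => (X i : MvPolynomial (Fin n) K) ^ a i) a ha hf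
    (fun i => isHomogeneous_X_pow i (a i)) (List.finRange n) ⊥ ⊥ homogI_bot homogI_bot (by simp)
    (by simp) hreg (regList_powers a _ (List.nodup_finRange n)) (fun _ => rfl) d
  have hspan : Ideal.span (Set.range f) = Ideal.ofList ((List.finRange n).map f) := by
    refine congrArg Ideal.span ?_
    ext g
    simp
  rw [sup_bot_eq, sup_bot_eq, ← hspan] at h
  rw [h, ← Nat.card_eq_finsetCard]
  have hset : Ideal.ofList ((List.finRange n).map fun i => (X i : MvPolynomial (Fin n) K) ^ a i) =
      Ideal.span ((fun e => monomial e (1 : K)) '' {e | ∃ i, a i ≤ e i}) := by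
    rw [ofList_powers]
    refine le_antisymm (Ideal.span_mono (Set.image_mono ?_)) (fun u hu => ?_)
    · rintro _ ⟨i, -, rfl⟩
      exact ⟨i, by simp⟩
    · rw [mem_ideal_span_monomial_image] at hu ⊢
      intro e he
      obtain ⟨e0, ⟨i, hi⟩, hle⟩ := hu e he
      exact ⟨_, ⟨i, List.mem_finRange i, rfl⟩, Finsupp.single_le_iff.2 (hi.trans (hle i))⟩
  have hs : ∀ e ∈ {e : Fin n →₀ ℕ | ∃ i, a i ≤ e i}, ∀ e', e ≤ e' →
      e' ∈ {e : Fin n →₀ ℕ | ∃ i, a i ≤ e i} := by
    rintro e ⟨i, hi⟩ e' hle
    exact ⟨i, hi.trans (hle i)⟩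
  rw [hset, finrank_monomialIdeal _ hs]
  exact Nat.card_congr (Equiv.subtypeEquivRight fun e => (mem_outBox (a := a)).symm)

end Vale.Agent.P200.Cyc
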