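import Vale.Agent.P200.Cyc.Balance
import Vale.Agent.P200.Cyc.Hilbert
import Vale.Agent.P200.Quad.CI

/-!
The hypotheses of the rank theorem from a regular sequence of forms of degree `p`.
-/

namespace Vale.Agent.P200.Cyc

open MvPolynomial Module

variable {σ : Type} [Fintype σ] {K : Type*} [Field K] {p : ℕ}

lemma boxCoeff_eq_card (d : ℕ) :
    boxCoeff p (Fintype.card σ) d =
      (Nat.card {e : σ →₀ ℕ // e.degree = d ∧ ∀ i, e i < p} : ℤ) := by
  classical
  have h : ((∑ i ∈ Finset.range p, (Polynomial.X : Polynomial ℤ) ^ i) ^ Fintype.card σ) =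
      ∑ g : σ → Fin p, Polynomial.X ^ (∑ i, (g i : ℕ)) := by
    rw [← Fin.sum_univ_eq_sum_range (fun i => (Polynomial.X : Polynomial ℤ) ^ i), ← Finset.card_univ,
      ← Finset.prod_const, Finset.prod_univ_sum, Fintype.piFinset_univ]
    exact Finset.sum_congr rfl fun g _ => Finset.prod_pow_eq_pow_sum _ _ _
  rw [boxCoeff, h, Polynomial.finsetSum_coeff]
  simp only [Polynomial.coeff_X_pow]
  rw [Finset.sum_boole]
  norm_cast
  rw [← Fintype.card_subtype, ← Nat.card_eq_fintype_card]
  refine Nat.card_congr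
    { toFun := fun g => ⟨Finsupp.equivFunOnFinite.symm fun i => (g.1 i : ℕ),
        by rw [Finsupp.degree_eq_sum]; simpa using g.2.symm, fun i => by simp⟩
      invFun := fun e => ⟨fun i => ⟨e.1 i, e.2.2 i⟩, by
        simpa [Finsupp.degree_eq_sum] using e.2.1.symm⟩
      left_inv := fun g => Subtype.ext (funext fun i => Fin.ext (by simp))
      right_inv := fun e => Subtype.ext (Finsupp.ext fun i => by simp) }

/-- First syzygies and the Hilbert function of the quotient. -/
theorem regular_glue (hp : 0 < p) {F : σ → MvPolynomial σ K} (hF : ∀ l, (F l).IsHomogeneous p)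
    {lst : List σ} (hnd : lst.Nodup) (hmem : ∀ q, q ∈ lst) (hreg : RegList ⊥ (lst.map F)) :
    (∀ w : σ → MvPolynomial σ K, ∑ l, F l * w l = 0 → ∀ l, w l ∈ Ideal.span (Set.range F)) ∧
      ∀ e, (finrank K (qDeg F e) : ℤ) = boxCoeff p (Fintype.card σ) e := by
  classical
  refine ⟨Quad.syzygy F lst hnd hmem (fun t => ⟨p, hp, hF t⟩) hreg, fun d => ?_⟩
  have h := finrank_degPart_congr F (fun i => (X i : MvPolynomial σ K) ^ p) (fun _ => p)
    (fun _ => hp) hF (fun i => isHomogeneous_X_pow i p) lst ⊥ ⊥ homogI_bot homogI_bot (by simp)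
    (by simp) hreg (regList_powers (fun _ => p) _ hnd) (fun _ => rfl) d
  have hspan : Ideal.span (Set.range F) = Ideal.ofList (lst.map F) := by
    refine congrArg Ideal.span ?_
    ext g
    simp [hmem]
  have hset : Ideal.ofList (lst.map fun i => (X i : MvPolynomial σ K) ^ p) =
      Ideal.span ((fun e => monomial e (1 : K)) '' {e | ∃ i, p ≤ e i}) := by
    rw [ofList_powers (fun _ => p)]
    refine le_antisymm (Ideal.span_mono (Set.image_mono ?_)) (fun u hu => ?_)
    · rintro _ ⟨i, -, rfl⟩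
      exact ⟨i, by simp⟩
    · rw [mem_ideal_span_monomial_image] at hu ⊢
      intro e he
      obtain ⟨e0, ⟨i, hi⟩, hle⟩ := hu e he
      exact ⟨_, ⟨i, hmem i, rfl⟩, Finsupp.single_le_iff.2 (hi.trans (hle i))⟩
  have hs : ∀ e ∈ {e : σ →₀ ℕ | ∃ i, p ≤ e i}, ∀ e', e ≤ e' →
      e' ∈ {e : σ →₀ ℕ | ∃ i, p ≤ e i} := by
    rintro e ⟨i, hi⟩ e' hle
    exact ⟨i, hi.trans (hle i)⟩
  rw [sup_bot_eq, sup_bot_eq, ← hspan, hset, finrank_monomialIdeal _ hs] at h
  have h2 := finrank_map_add_ker
    (Ideal.Quotient.mkₐ K (Ideal.span (Set.range F))).toLinearMap (homogeneousSubmodule σ K d)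
  have h3 : homogeneousSubmodule σ K d ⊓
      LinearMap.ker (Ideal.Quotient.mkₐ K (Ideal.span (Set.range F))).toLinearMap =
      degPart d (Ideal.span (Set.range F)) := by
    ext u
    simp [degPart, LinearMap.mem_ker, Ideal.Quotient.eq_zero_iff_mem]
  rw [h3, Quad.finrank_homog, h] at h2
  change finrank K (qDeg F d) + _ = _ at h2
  rw [boxCoeff_eq_card]
  simp only [Set.mem_ofPred_eq] at h2
  have hfin : Finite {e : σ →₀ ℕ // e.degree = d} := by
    refine Finite.of_injective (fun e => (⟨e.1, ?_⟩ : ((Finset.univ : Finset σ).finsuppAntidiag d : Finset _)))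
      fun a b h => Subtype.ext (congrArg (fun x : ((Finset.univ : Finset σ).finsuppAntidiag d : Finset _) => x.1) h)
    simpa [Finsupp.degree_eq_sum] using e.2
  have e1 : Nat.card {e : σ →₀ ℕ // e.degree = d} =
      Nat.card {e : σ →₀ ℕ // e.degree = d ∧ ∀ i, e i < p} +
        Nat.card {e : σ →₀ ℕ // e.degree = d ∧ ∃ i, p ≤ e i} := by
    have hA : Finite {e : σ →₀ ℕ // e.degree = d ∧ ∀ i, e i < p} :=
      Finite.of_injective (fun e => (⟨e.1, e.2.1⟩ : {e : σ →₀ ℕ // e.degree = d}))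
        fun a b h => Subtype.ext (congrArg (fun x : {e : σ →₀ ℕ // e.degree = d} => x.1) h)
    have hB : Finite {e : σ →₀ ℕ // e.degree = d ∧ ∃ i, p ≤ e i} :=
      Finite.of_injective (fun e => (⟨e.1, e.2.1⟩ : {e : σ →₀ ℕ // e.degree = d}))
        fun a b h => Subtype.ext (congrArg (fun x : {e : σ →₀ ℕ // e.degree = d} => x.1) h)
    rw [← Nat.card_sum]
    exact Nat.card_congr
      { toFun := fun e => if h : ∀ i, e.1 i < p then Sum.inl ⟨e.1, e.2, h⟩
          else Sum.inr ⟨e.1, e.2, by push Not at h; exact h⟩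
        invFun := Sum.elim (fun e => ⟨e.1, e.2.1⟩) (fun e => ⟨e.1, e.2.1⟩)
        left_inv := fun e => by dsimp only; split_ifs <;> rfl
        right_inv := by
          rintro (e | e)
          · simp [e.2.2]
          · obtain ⟨i, hi⟩ := e.2.2
            simp [show ¬ ∀ i, e.1 i < p from fun h => absurd (h i) (not_lt.2 hi)] }
  omega

end Vale.Agent.P200.Cyc
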