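import Mathlib

/-!
The field of the parameters of a linear system, and scaled primitive elements over it.
-/

noncomputable section

namespace Vale.Agent.P200.Cyc

open MvPolynomial

variable (K : Type*) [Field K] {σ : Type*} (l₀ : σ)

/-- Fractions of the parameters other than the normalised one. -/
abbrev ParField : Type _ := FractionRing (MvPolynomial {l : σ // l ≠ l₀} K)

open Classical in
/-- The parameters, the normalised one being one. -/
def parW (l : σ) : ParField K l₀ :=
  if h : l = l₀ then 1 else algebraMap (MvPolynomial {l : σ // l ≠ l₀} K) _ (X ⟨l, h⟩)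

lemma par_self : parW K l₀ l₀ = 1 := dif_pos rfl

open Classical in
/-- Dehomogenisation at the normalised parameter. -/
def dehomAt : MvPolynomial σ K →ₐ[K] MvPolynomial {l : σ // l ≠ l₀} K :=
  aeval fun l => if h : l = l₀ then 1 else X ⟨l, h⟩

lemma aeval_par (a : MvPolynomial σ K) :
    aeval (parW K l₀) a = algebraMap _ (ParField K l₀) (dehomAt K l₀ a) := by
  classical
  have : aeval (parW K l₀) = (IsScalarTower.toAlgHom K (MvPolynomial {l : σ // l ≠ l₀} K)
      (ParField K l₀)).comp (dehomAt K l₀) := by
    refine algHom_ext fun l => ?_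
    simp only [AlgHom.comp_apply, dehomAt, aeval_X, parW, IsScalarTower.coe_toAlgHom']
    split_ifs <;> simp
  rw [this]
  rfl

lemma dehomAt_monomial [Fintype σ] [DecidableEq σ] (e : σ →₀ ℕ) (c : K) :
    dehomAt K l₀ (monomial e c) =
      monomial (Finsupp.equivFunOnFinite.symm fun l : {l : σ // l ≠ l₀} => e l.1) c := by
  rw [dehomAt, aeval_monomial, monomial_eq, algebraMap_eq, Finsupp.prod_fintype _ _ (by simp),
    Finsupp.prod_fintype _ _ (by simp), ← Finset.prod_erase_mul _ _ (Finset.mem_univ l₀),
    dif_pos rfl, one_pow, mul_one]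
  congr 1
  rw [Finset.prod_subtype (Finset.univ.erase l₀) (p := fun l => l ≠ l₀) (by simp) _]
  refine Finset.prod_congr rfl fun l _ => ?_
  rw [dif_neg l.2]
  rfl

lemma par_inj [Fintype σ] {s : ℕ} {a : MvPolynomial σ K} (ha : a.IsHomogeneous s)
    (h : aeval (parW K l₀) a = 0) : a = 0 := by
  classical
  rw [aeval_par, ← map_zero (algebraMap (MvPolynomial {l : σ // l ≠ l₀} K) (ParField K l₀))] at h
  have h0 := IsFractionRing.injective _ _ h
  by_contra hne
  obtain ⟨e, he⟩ := support_nonempty.2 hne
  have h1 := congrArg (coeff (Finsupp.equivFunOnFinite.symm fun l : {l : σ // l ≠ l₀} => e l.1)) h0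
  rw [a.as_sum, map_sum, coeff_zero, coeff_sum] at h1
  simp only [dehomAt_monomial, coeff_monomial] at h1
  rw [Finset.sum_eq_single e] at h1
  · simp only [if_true] at h1
    exact mem_support_iff.1 he h1
  · intro e' he' hne'
    rw [if_neg]
    intro heq
    have hd : ∀ x ∈ a.support, x.degree = s := fun x hx => by
      rw [Finsupp.degree_eq_weight_one]
      exact ha (mem_support_iff.1 hx)
    have hl : ∀ l, l ≠ l₀ → e' l = e l := fun l hl => congrFun
      (Finsupp.equivFunOnFinite.symm.injective heq) ⟨l, hl⟩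
    refine hne' (Finsupp.ext fun l => ?_)
    by_cases hl0 : l = l₀
    · subst hl0
      have h2 := hd e he
      have h3 := hd e' he'
      rw [Finsupp.degree_eq_sum, ← Finset.add_sum_erase _ _ (Finset.mem_univ l)] at h2 h3
      rw [Finset.sum_congr rfl fun x hx => hl x (Finset.ne_of_mem_erase hx)] at h3
      exact Nat.add_right_cancel (h3.trans h2.symm)
    · exact hl l hl0
  · intro hn; exact absurd he hn

lemma exists_homog (P : MvPolynomial {l : σ // l ≠ l₀} K) {s : ℕ} (hs : P.totalDegree ≤ s) :
    ∃ a : MvPolynomial σ K, a.IsHomogeneous s ∧ dehomAt K l₀ a = P := by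
  classical
  refine ⟨∑ d ∈ Finset.range (s + 1), rename Subtype.val (homogeneousComponent d P) * X l₀ ^ (s - d),
    (homogeneousSubmodule σ K s).sum_mem fun d hd => ?_, ?_⟩
  · have h1 : (rename Subtype.val (homogeneousComponent d P) :
        MvPolynomial σ K).IsHomogeneous d := (homogeneousComponent_isHomogeneous d P).rename_isHomogeneous
    have := h1.mul (isHomogeneous_X_pow (R := K) l₀ (s - d))
    rwa [show d + (s - d) = s by have := Finset.mem_range.1 hd; omega] at this
  · rw [map_sum]
    have h0 : dehomAt K l₀ (X l₀) = 1 := by simp [dehomAt]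
    have h1 : ∀ q, dehomAt K l₀ (rename Subtype.val q) = q := fun q => by
      rw [dehomAt, aeval_rename]
      exact DFunLike.congr_fun (show aeval ((fun l : σ =>
        if h : l = l₀ then (1 : MvPolynomial {l : σ // l ≠ l₀} K) else X ⟨l, h⟩) ∘ Subtype.val) =
          AlgHom.id K _ from algHom_ext fun l => by simp [l.2]) q
    simp only [map_mul, map_pow, h0, h1, one_pow, mul_one]
    conv_rhs => rw [← sum_homogeneousComponent P]
    refine (Finset.sum_subset ?_ ?_).symm
    · exact Finset.range_mono (by omega)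
    · intro d _ hd
      exact homogeneousComponent_eq_zero d P (by simpa using hd)

lemma par_frac (x : ParField K l₀) : ∃ s, ∃ a b : MvPolynomial σ K, a.IsHomogeneous s ∧
    b.IsHomogeneous s ∧ aeval (parW K l₀) b ≠ 0 ∧ x * aeval (parW K l₀) b = aeval (parW K l₀) a := by
  obtain ⟨P, Q, hQ, rfl⟩ := IsFractionRing.div_surjective (MvPolynomial {l : σ // l ≠ l₀} K) x
  set s := max P.totalDegree Q.totalDegree
  obtain ⟨a, ha, ha'⟩ := exists_homog K l₀ P (le_max_left _ _ : _ ≤ s)
  obtain ⟨b, hb, hb'⟩ := exists_homog K l₀ Q (le_max_right _ _ : _ ≤ s)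
  have hQ0 : algebraMap (MvPolynomial {l : σ // l ≠ l₀} K) (ParField K l₀) Q ≠ 0 :=
    IsFractionRing.to_map_ne_zero_of_mem_nonZeroDivisors hQ
  refine ⟨s, a, b, ha, hb, by rwa [aeval_par, hb'], ?_⟩
  rw [aeval_par, aeval_par, ha', hb', div_mul_cancel₀ _ hQ0]

/-- A generator scaled so that it is integral over the parameters, with homogeneous coefficients. -/
theorem exists_scaled {L : Type*} [Field L] [Algebra (ParField K l₀) L]
    [FiniteDimensional (ParField K l₀) L] [Algebra.IsSeparable (ParField K l₀) L] :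
    ∃ (θ : L) (D k : ℕ) (A : ℕ → MvPolynomial σ K), Algebra.adjoin (ParField K l₀) {θ} = ⊤ ∧
      (∀ i < k, (A i).IsHomogeneous (D * (k - i))) ∧
      θ ^ k + ∑ i ∈ Finset.range k, algebraMap _ L (aeval (parW K l₀) (A i)) * θ ^ i = 0 := by
  classical
  obtain ⟨θ, hθ⟩ := Field.exists_primitive_element (ParField K l₀) L
  have hint : IsIntegral (ParField K l₀) θ := Algebra.IsIntegral.isIntegral θ
  set m := minpoly (ParField K l₀) θ with hm
  set k := m.natDegree
  choose s a b ha hb hb0 hab using fun i : ℕ => par_frac K l₀ (m.coeff i)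
  let B : MvPolynomial σ K := ∏ i ∈ Finset.range k, b i
  let S := ∑ i ∈ Finset.range k, s i
  have hB : B.IsHomogeneous S := IsHomogeneous.prod _ _ _ fun i _ => hb i
  let β := aeval (parW K l₀) B
  have hβ : β ≠ 0 := by
    simp only [β, B, map_prod, Finset.prod_ne_zero_iff]
    exact fun i _ => hb0 i
  let A : ℕ → MvPolynomial σ K := fun i =>
    B ^ (k - i - 1) * (a i * ∏ j ∈ (Finset.range k).erase i, b j)
  have hA : ∀ i < k, aeval (parW K l₀) (A i) = β ^ (k - i) * m.coeff i := by
    intro i hi
    have h1 : β ^ (k - i) = β ^ (k - i - 1) * β := by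
      rw [← pow_succ]; congr 1; omega
    have h2 : β = aeval (parW K l₀) (b i) * ∏ j ∈ (Finset.range k).erase i, aeval (parW K l₀) (b j) := by
      rw [Finset.mul_prod_erase _ (fun j => aeval (parW K l₀) (b j)) (Finset.mem_range.2 hi)]
      simp [β, B, map_prod]
    simp only [A, map_mul, map_pow, map_prod]
    rw [← hab i, h1]
    linear_combination (-(β ^ (k - i - 1)) * m.coeff i) * h2
  refine ⟨algebraMap _ L β * θ, S, k, A, ?_, fun i hi => ?_, ?_⟩
  · rw [← Algebra.smul_def]
    refine le_antisymm le_top ?_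
    have htop : Algebra.adjoin (ParField K l₀) {θ} = ⊤ := by
      rw [← IntermediateField.adjoin_simple_toSubalgebra_of_isAlgebraic hint.isAlgebraic, hθ,
        IntermediateField.top_toSubalgebra]
    rw [← htop, Algebra.adjoin_le_iff, Set.singleton_subset_iff]
    have := Subalgebra.smul_mem (Algebra.adjoin (ParField K l₀) {β • θ})
      (Algebra.self_mem_adjoin_singleton _ _) β⁻¹
    rwa [inv_smul_smul₀ hβ] at this
  · have hprod : (∏ j ∈ (Finset.range k).erase i, b j).IsHomogeneous
        (∑ j ∈ (Finset.range k).erase i, s j) := IsHomogeneous.prod _ _ _ fun j _ => hb j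
    have := (hB.pow (k - i - 1)).mul ((ha i).mul hprod)
    rw [Finset.add_sum_erase _ s (Finset.mem_range.2 hi)] at this
    have e : S * (k - i - 1) + S = S * (k - i) := by
      rw [← Nat.mul_succ]; congr 1; omega
    rwa [e] at this
  · have h0 : Polynomial.aeval θ m = 0 := minpoly.aeval _ _
    have hmon : m.Monic := minpoly.monic hint
    rw [hmon.as_sum, map_add, map_pow, Polynomial.aeval_X, map_sum] at h0
    have hterm : ∀ i ∈ Finset.range k, algebraMap _ L (aeval (parW K l₀) (A i)) *
        (algebraMap _ L β * θ) ^ i =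
        algebraMap _ L β ^ k * Polynomial.aeval θ (Polynomial.C (m.coeff i) * Polynomial.X ^ i) := by
      intro i hi
      rw [hA i (Finset.mem_range.1 hi), map_mul, map_pow, map_mul, Polynomial.aeval_C, map_pow,
        Polynomial.aeval_X, mul_pow]
      conv_rhs => rw [← Nat.sub_add_cancel (Finset.mem_range.1 hi).le, pow_add]
      ring
    rw [Finset.sum_congr rfl hterm, ← Finset.mul_sum, mul_pow, ← mul_add, h0, mul_zero]

end Vale.Agent.P200.Cyc
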