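import Vale.Agent.P200.Cyc.Balance

/-!
The pieces of a system have the largest dimension and no homogeneous zero divisors.
-/

namespace Vale.Agent.P200.Cyc

open MvPolynomial Module

universe u v

variable {K : Type u} [Field K] {L₀ L B : Type v} [Field L₀] [Algebra K L₀] [Field L]
  [Algebra L₀ L] [Ring B] [Algebra K B] [Algebra L₀ B] [Algebra L B] [IsScalarTower K L₀ B]
  [IsScalarTower L₀ L B] {σ : Type} [Fintype σ] {p : ℕ} {F : σ → MvPolynomial σ K}
  (S : Sys K L₀ L B p F)

omit [Fintype σ] in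
lemma finrank_homog_eq [Fintype σ] (hm : 0 < Fintype.card σ) (d : ℕ) :
    finrank K (homogeneousSubmodule σ K d) =
      (d + (Fintype.card σ - 1)).choose (Fintype.card σ - 1) := by
  classical
  rw [Vale.Agent.P200.Quad.finrank_homog]
  have e : {e : σ →₀ ℕ // e.degree = d} ≃ Sym σ d :=
    (Equiv.subtypeEquivRight fun e : σ →₀ ℕ => (by
      rw [Finsupp.degree_eq_sum, Finsupp.sum_fintype _ _ (fun _ => rfl)]
      rfl : e.degree = d ↔ (e.sum fun _ => id) = d)).trans (Sym.equivNatSum σ d).symm
  rw [Nat.card_congr e, Nat.card_eq_fintype_card, Sym.card_sym_eq_choose,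
    show Fintype.card σ + d - 1 = d + (Fintype.card σ - 1) by omega]
  have := Nat.choose_symm (show d ≤ d + (Fintype.card σ - 1) by omega)
  rw [show d + (Fintype.card σ - 1) - d = Fintype.card σ - 1 by omega] at this
  exact this.symm

namespace Sys

lemma mem_R {d : ℕ} {x : B} :
    x ∈ S.R d ↔ Polynomial.monomial d x ∈ wordAlg K p S.D S.w S.gen S.θ := Iff.rfl

lemma R_mul {d e : ℕ} {x y : B} (hx : x ∈ S.R d) (hy : y ∈ S.R e) : x * y ∈ S.R (d + e) := by
  rw [mem_R] at hx hy ⊢
  rw [← Polynomial.monomial_mul_monomial]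
  exact mul_mem hx hy

lemma one_R : (1 : B) ∈ S.R 0 := by
  rw [mem_R, Polynomial.monomial_zero_left, map_one]
  exact one_mem _

lemma gen_R (i : σ) : S.gen i ∈ S.R 1 := by
  rw [mem_R]
  exact Algebra.subset_adjoin (Or.inl (Or.inl ⟨i, rfl⟩))

lemma w_R (l : σ) : algebraMap L₀ B (S.w l) ∈ S.R p := by
  rw [mem_R]
  exact Algebra.subset_adjoin (Or.inl (Or.inr ⟨l, rfl⟩))

lemma θ_R : algebraMap L B S.θ ∈ S.R (p * S.D) := by
  rw [mem_R]
  exact Algebra.subset_adjoin (Or.inr rfl)

lemma word_R (l : List σ) : (l.map S.gen).prod ∈ S.R l.length := by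
  induction l with
  | nil => exact S.one_R
  | cons i l ih =>
    rw [List.map_cons, List.prod_cons, List.length_cons, Nat.add_comm]
    exact S.R_mul (S.gen_R i) ih

/-- The family of all elements of the graded algebra. -/
noncomputable def topFam : Fam S where
  M := S.R
  le _ := le_rfl
  gen _ i _ hx := S.R_mul hx (S.gen_R i)
  par d l x hx := Nat.add_comm p d ▸ S.R_mul (S.w_R l) hx

/-- Left multiples of a fixed homogeneous element. -/
noncomputable def mulFam (a : B) {q : ℕ} (ha : a ∈ S.R q) : Fam S where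
  M d := if q ≤ d then (S.R (d - q)).map (LinearMap.mulLeft K a) else ⊥
  le d := by
    split_ifs with h
    · rintro _ ⟨y, hy, rfl⟩
      have := S.R_mul ha hy
      rwa [Nat.add_sub_cancel' h] at this
    · exact bot_le
  gen d i x hx := by
    split_ifs at hx with h
    · rw [if_pos (by omega)]
      obtain ⟨y, hy, rfl⟩ := hx
      refine ⟨y * S.gen i, ?_, (mul_assoc a y _).symm⟩
      rw [show d + 1 - q = d - q + 1 by omega]
      exact S.R_mul hy (S.gen_R i)
    · simp [(Submodule.mem_bot K).1 hx]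
  par d l x hx := by
    split_ifs at hx with h
    · rw [if_pos (by omega)]
      obtain ⟨y, hy, rfl⟩ := hx
      refine ⟨algebraMap L₀ B (S.w l) * y, ?_, ?_⟩
      · rw [show d + p - q = p + (d - q) by omega]
        exact S.R_mul (S.w_R l) hy
      · simp only [LinearMap.mulLeft_apply]
        rw [← mul_assoc, ← Algebra.commutes, mul_assoc]
    · simp [(Submodule.mem_bot K).1 hx]

end Sys

variable {S}

lemma pieceOf_mul {i j : ZMod p} {x y : B} (hx : x ∈ pieceOf L p S.gen i)
    (hy : y ∈ pieceOf L p S.gen j) : x * y ∈ pieceOf L p S.gen (i + j) := by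
  induction hx using Submodule.span_induction with
  | mem a ha =>
    obtain ⟨l, hl, rfl⟩ := ha
    induction hy using Submodule.span_induction with
    | mem b hb =>
      obtain ⟨l', hl', rfl⟩ := hb
      refine Submodule.subset_span ⟨l ++ l', ?_, by rw [List.map_append, List.prod_append]⟩
      rw [List.length_append, Nat.cast_add, hl, hl']
    | zero => simp
    | add b b' _ _ hb hb' => rw [mul_add]; exact add_mem hb hb'
    | smul c b _ hb => rw [mul_smul_comm]; exact Submodule.smul_mem _ c hb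
  | zero => simp
  | add a a' _ _ ha ha' => rw [add_mul]; exact add_mem ha ha'
  | smul c a _ ha => rw [smul_mul_assoc]; exact Submodule.smul_mem _ c ha

lemma algebraMap_mem_piece (c : L) : algebraMap L B c ∈ pieceOf L p S.gen 0 := by
  rw [Algebra.algebraMap_eq_smul_one]
  exact Submodule.smul_mem _ c (Submodule.subset_span ⟨[], by simp, by simp⟩)

lemma R_le_piece {d : ℕ} {x : B} (hx : x ∈ S.R d) : x ∈ pieceOf L p S.gen (d : ZMod p) := by
  suffices h : ∀ P ∈ wordAlg K p S.D S.w S.gen S.θ, ∀ n : ℕ,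
      P.coeff n ∈ pieceOf L p S.gen ((n : ℕ) : ZMod p) by
    simpa using h _ hx d
  have hmon : ∀ (k : ℕ) (c : B), c ∈ pieceOf L p S.gen (k : ZMod p) →
      ∀ n : ℕ, (Polynomial.monomial k c).coeff n ∈ pieceOf L p S.gen (n : ZMod p) := by
    intro k c hc n
    rw [Polynomial.coeff_monomial]
    split_ifs with h
    · exact h ▸ hc
    · exact zero_mem _
  intro P hP
  induction hP using Algebra.adjoin_induction with
  | mem P hP =>
    rcases hP with (⟨i, rfl⟩ | ⟨l, rfl⟩) | rfl
    · refine hmon 1 _ (Submodule.subset_span ⟨[i], by simp, by simp⟩)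
    · refine hmon p _ ?_
      rw [ZMod.natCast_self, IsScalarTower.algebraMap_apply L₀ L B]
      exact algebraMap_mem_piece _
    · refine hmon (p * S.D) _ ?_
      rw [Nat.cast_mul, ZMod.natCast_self, zero_mul]
      exact algebraMap_mem_piece _
  | algebraMap c =>
    rw [Polynomial.algebraMap_apply, ← Polynomial.monomial_zero_left]
    refine hmon 0 _ ?_
    rw [Nat.cast_zero, IsScalarTower.algebraMap_apply K L₀ B, IsScalarTower.algebraMap_apply L₀ L B]
    exact algebraMap_mem_piece _
  | add P Q _ _ hP hQ => intro n; rw [Polynomial.coeff_add]; exact add_mem (hP n) (hQ n)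
  | mul P Q _ _ hP hQ =>
    intro n
    rw [Polynomial.coeff_mul]
    refine sum_mem fun k hk => ?_
    rw [← Finset.HasAntidiagonal.mem_antidiagonal.1 hk, Nat.cast_add]
    exact pieceOf_mul (hP _) (hQ _)

variable (Fm : Fam S)

/-- The span over the parameter field of one residue class. -/
noncomputable def Fam.V (j : ZMod p) : Submodule L₀ B :=
  Submodule.span L₀ {x | ∃ d : ℕ, (d : ZMod p) = j ∧ x ∈ Fm.M d}

lemma Fam.V_le (j : ZMod p) : Fm.V j ≤ (pieceOf L p S.gen j).restrictScalars L₀ :=
  Submodule.span_le.2 fun _ ⟨_, hd, hx⟩ => hd ▸ R_le_piece (Fm.le _ hx)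

lemma finite_piece [FiniteDimensional L₀ L] (j : ZMod p) :
    FiniteDimensional L₀ ((pieceOf L p S.gen j).restrictScalars L₀) := by
  have := S.piece_finite j
  have : IsScalarTower L₀ L (pieceOf L p S.gen j) := ⟨fun a b x => Subtype.ext (smul_assoc a b (x : B))⟩
  exact (Module.Finite.trans L (pieceOf L p S.gen j) : Module.Finite L₀ (pieceOf L p S.gen j))

lemma Fam.finite_V [FiniteDimensional L₀ L] (j : ZMod p) : FiniteDimensional L₀ (Fm.V j) :=
  have := finite_piece (S := S) j
  Submodule.finiteDimensional_of_le (Fm.V_le j)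

lemma Fam.mono {d : ℕ} {x : B} (hx : x ∈ Fm.M d) : ∀ k, x ∈ Fm.M (d + p * k) := by
  intro k
  induction k with
  | zero => simpa using hx
  | succ k ih =>
    have := Fm.par _ S.l₀ _ ih
    rwa [S.w_one, map_one, one_mul, Nat.add_assoc, ← Nat.mul_succ] at this

lemma exists_den (G : Finset L₀) : ∃ u, ∃ b : MvPolynomial σ K, b.IsHomogeneous u ∧
    aeval S.w b ≠ 0 ∧ ∀ g ∈ G, ∃ n : MvPolynomial σ K, n.IsHomogeneous u ∧
      aeval S.w b * g = aeval S.w n := by
  classical
  induction G using Finset.induction_on with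
  | empty => exact ⟨0, 1, isHomogeneous_one _ _, by simp, by simp⟩
  | insert g G _ ih =>
    obtain ⟨u, b, hb, hb0, hG⟩ := ih
    obtain ⟨s, a, b', ha, hb', hb'0, hg⟩ := S.w_frac g
    refine ⟨u + s, b * b', hb.mul hb', by rw [map_mul]; exact mul_ne_zero hb0 hb'0, fun x hx => ?_⟩
    rcases Finset.mem_insert.1 hx with rfl | hx
    · exact ⟨b * a, hb.mul ha, by rw [map_mul, map_mul, mul_assoc, mul_comm (aeval S.w b'), hg]⟩
    · obtain ⟨n, hn, he⟩ := hG x hx
      exact ⟨n * b', hn.mul hb', by rw [map_mul, map_mul, ← he]; ring⟩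

/-- Upper bound through one linear functional. -/
lemma exists_bound (φ : B →ₗ[L₀] L₀) : ∃ u, ∃ b : MvPolynomial σ K, b.IsHomogeneous u ∧
    aeval S.w b ≠ 0 ∧ ∀ j s, j < p → ∀ x ∈ S.R (j + p * s),
      ∃ a : MvPolynomial σ K, a.IsHomogeneous (s + u) ∧ aeval S.w b * φ x = aeval S.w a := by
  classical
  obtain ⟨t, ht⟩ := S.fin
  obtain ⟨u, b, hb, hb0, hG⟩ := exists_den (S := S)
    (t.biUnion fun e => e.support.image fun q => φ (e.coeff q))
  refine ⟨u, b, hb, hb0, fun j s hj x hx => ?_⟩
  let W : Submodule K B :=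
    { carrier := {x | ∃ a : MvPolynomial σ K, a.IsHomogeneous (s + u) ∧
        aeval S.w b * φ x = aeval S.w a}
      zero_mem' := ⟨0, isHomogeneous_zero _ _ _, by simp⟩
      add_mem' := by
        rintro x y ⟨a, ha, hxa⟩ ⟨c, hc, hyc⟩
        exact ⟨a + c, ha.add hc, by rw [map_add, mul_add, hxa, hyc, map_add]⟩
      smul_mem' := by
        rintro k x ⟨a, ha, hxa⟩
        refine ⟨k • a, Submodule.smul_mem (homogeneousSubmodule σ K _) k ha, ?_⟩
        rw [← IsScalarTower.algebraMap_smul L₀ k x, map_smul, map_smul, ← hxa]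
        simp only [smul_eq_mul, Algebra.smul_def]
        ring }
  show x ∈ W
  obtain ⟨a, ha⟩ := ht _ hx
  have hd := congrArg (fun q : Polynomial B => q.coeff (j + p * s)) ha
  simp only [Polynomial.finsetSum_coeff, LinearMap.coe_restrictScalars, Polynomial.coeff_monomial,
    if_true] at hd
  rw [hd]
  refine sum_mem fun e he => ?_
  rw [(a e).as_sum, map_sum, Finset.sum_mul, Polynomial.finsetSum_coeff]
  refine sum_mem fun β _ => ?_
  generalize (a e).coeff β = c
  rw [parHom_homog S.w (isHomogeneous_monomial c rfl), ← Polynomial.C_mul_X_pow_eq_monomial,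
    mul_assoc, Polynomial.coeff_C_mul, Polynomial.coeff_X_pow_mul']
  split_ifs with h
  · have hβ : β.degree ≤ s := by
      by_contra hcon
      have := Nat.mul_le_mul_left p (Nat.succ_le_of_lt (Nat.lt_of_not_le hcon))
      rw [Nat.mul_succ] at this
      omega
    by_cases h0 : e.coeff (j + p * s - p * β.degree) = 0
    · rw [h0, mul_zero]; exact zero_mem _
    obtain ⟨n, hn, hne⟩ := hG _ (Finset.mem_biUnion.2 ⟨e, he,
      Finset.mem_image.2 ⟨_, Polynomial.mem_support_iff.2 h0, rfl⟩⟩)
    refine ⟨monomial β c * X S.l₀ ^ (s - β.degree) * n, ?_, ?_⟩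
    · have := ((isHomogeneous_monomial (σ := σ) (R := K) (d := β) c rfl).mul
        ((isHomogeneous_X K S.l₀).pow (s - β.degree))).mul hn
      rwa [show β.degree + 1 * (s - β.degree) + u = s + u by omega] at this
    · rw [← Algebra.smul_def, map_smul, smul_eq_mul, map_mul, map_mul, map_pow, aeval_X, S.w_one,
        one_pow, mul_one, ← hne]
      ring
  · rw [mul_zero]; exact zero_mem _

/-- The Hilbert function of a residue class is sandwiched by its rank. -/
lemma Fam.sandwich [Infinite K] [FiniteDimensional L₀ L] (hp : 0 < p) (j : ℕ) (hj : j < p) :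
    ∃ β γ, ∀ s, β ≤ s →
      (finrank L₀ (Fm.V (j : ZMod p)) : ℤ) *
        ((s - β + (Fintype.card σ - 1)).choose (Fintype.card σ - 1) : ℤ) ≤
        (finrank K (Fm.M (j + p * s)) : ℤ) ∧
      (finrank K (Fm.M (j + p * s)) : ℤ) ≤ (finrank L₀ (Fm.V (j : ZMod p)) : ℤ) *
        ((s + γ + (Fintype.card σ - 1)).choose (Fintype.card σ - 1) : ℤ) := by
  classical
  have hm : 0 < Fintype.card σ := Fintype.card_pos_iff.2 ⟨S.l₀⟩
  have hfin := Fm.finite_V (j : ZMod p)
  have hcast : ∀ s, ((j + p * s : ℕ) : ZMod p) = (j : ZMod p) := fun s => by simp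
  set G := {x : B | ∃ d : ℕ, (d : ZMod p) = (j : ZMod p) ∧ x ∈ Fm.M d}
  obtain ⟨Bs, hBs, hspan, hli⟩ := exists_linearIndependent L₀ G
  have hBfin : Bs.Finite := by
    have hV : Submodule.span L₀ Bs = Fm.V (j : ZMod p) := hspan
    have hle : ∀ x : Bs, (x : B) ∈ Fm.V (j : ZMod p) := fun x => hV ▸ Submodule.subset_span x.2
    have : LinearIndependent L₀ (fun x : Bs => (⟨x, hle x⟩ : Fm.V (j : ZMod p))) :=
      LinearIndependent.of_comp (Fm.V (j : ZMod p)).subtype hli
    exact Set.finite_coe_iff.1 this.finite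
  have := hBfin.fintype
  have hrank : finrank L₀ (Fm.V (j : ZMod p)) = Fintype.card Bs := by
    rw [← finrank_span_eq_card hli, Subtype.range_coe]
    exact congrArg (fun W : Submodule L₀ B => finrank L₀ W) hspan.symm
  have hpos : ∀ x : Bs, ∃ β, (x : B) ∈ Fm.M (j + p * β) := by
    rintro ⟨x, hx⟩
    obtain ⟨d, hd, hxd⟩ := hBs hx
    refine ⟨d / p, ?_⟩
    have : d % p = j := by
      have := congrArg ZMod.val hd
      rwa [ZMod.val_natCast, ZMod.val_natCast, Nat.mod_eq_of_lt hj] at this
    rwa [← this, Nat.mod_add_div]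
  choose β' hβ' using hpos
  set β := Finset.univ.sup β'
  have hβ : ∀ x : Bs, ∀ s, β ≤ s → (x : B) ∈ Fm.M (j + p * s) := by
    intro x s hs
    have := Fm.mono (hβ' x) (s - β' x)
    have hle : β' x ≤ s := le_trans (Finset.le_sup (Finset.mem_univ x)) hs
    rwa [Nat.add_assoc, ← Nat.mul_add, Nat.add_sub_cancel' hle] at this
  have hext : ∀ x : Bs, ∃ φ : B →ₗ[L₀] L₀, ∀ y : Bs, φ y = if y = x then 1 else 0 := by
    intro x
    obtain ⟨φ, hφ⟩ := LinearMap.exists_extend ((Basis.span hli).coord x)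
    refine ⟨φ, fun y => ?_⟩
    have h := LinearMap.congr_fun hφ (Basis.span hli y)
    rw [LinearMap.comp_apply, Submodule.subtype_apply, Basis.coord_apply, Basis.repr_self,
      Finsupp.single_apply, Basis.span_apply] at h
    exact h
  choose φ hφ using hext
  choose u b hb hb0 hbound using fun x => exists_bound (S := S) (φ x)
  refine ⟨β, Finset.univ.sup u, fun s hs => ⟨?_, ?_⟩⟩
  · have hfd := finite_M Fm hp (j + p * s)
    let T : (Bs → homogeneousSubmodule σ K (s - β)) →ₗ[K] B :=
      ∑ x : Bs, ((LinearMap.mulRight K (x : B)).comp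
        ((IsScalarTower.toAlgHom K L₀ B).toLinearMap.comp
          ((aeval S.w).toLinearMap.comp (homogeneousSubmodule σ K (s - β)).subtype))).comp
        (LinearMap.proj (R := K) (φ := fun _ : Bs => homogeneousSubmodule σ K (s - β)) x)
    have hT : ∀ a, T a = ∑ x : Bs, aeval S.w (a x : MvPolynomial σ K) • (x : B) := fun a => by
      simp [T, LinearMap.sum_apply, Algebra.smul_def]
    have hinj : Function.Injective T := by
      rw [injective_iff_map_eq_zero]
      intro a ha
      rw [hT] at ha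
      funext x
      exact Subtype.ext (S.w_inj _ _ (a x).2 (Fintype.linearIndependent_iff.1 hli _ ha x))
    have hmem : ∀ a, T a ∈ Fm.M (j + p * s) := by
      intro a
      rw [hT]
      refine sum_mem fun x _ => ?_
      rw [Algebra.smul_def]
      have := par_M Fm (a x).2 (hβ x β le_rfl)
      rwa [Nat.add_assoc, ← Nat.mul_add, Nat.add_sub_cancel' hs] at this
    have hle := LinearMap.finrank_le_finrank_of_injective (f := T.codRestrict _ hmem)
      (fun a c h => hinj (congrArg Subtype.val h))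
    rw [Module.finrank_pi_fintype, Finset.sum_const, Finset.card_univ, smul_eq_mul,
      finrank_homog_eq hm, ← hrank] at hle
    exact_mod_cast hle
  · set γ := Finset.univ.sup u
    let T : Fm.M (j + p * s) →ₗ[K] (Bs → L₀) :=
      LinearMap.pi fun x => (LinearMap.mulLeft K (aeval S.w (b x))).comp
        (((φ x).restrictScalars K).comp (Fm.M (j + p * s)).subtype)
    have hinj : Function.Injective T := by
      rw [injective_iff_map_eq_zero]
      rintro ⟨z, hz⟩ h0
      have hzV : z ∈ Submodule.span L₀ (Set.range fun x : Bs => (x : B)) := by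
        rw [Subtype.range_coe, hspan]
        exact Submodule.subset_span ⟨_, hcast s, hz⟩
      obtain ⟨c, hc⟩ := (Submodule.mem_span_range_iff_exists_fun L₀).1 hzV
      have : ∀ x, c x = 0 := fun x => by
        have h1 : aeval S.w (b x) * φ x z = 0 := congrFun h0 x
        rw [← hc, map_sum] at h1
        simpa [hφ, hb0 x] using h1
      exact Subtype.ext (by simp [← hc, this])
    let W : Submodule K L₀ := (homogeneousSubmodule σ K (s + γ)).map (aeval S.w).toLinearMap
    have hW : FiniteDimensional K W := Module.Finite.map _ _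
    have hmem : ∀ z x, T z x ∈ W := by
      rintro ⟨z, hz⟩ x
      obtain ⟨a, ha, he⟩ := hbound x j s hj z (Fm.le _ hz)
      refine ⟨a * X S.l₀ ^ (γ - u x), ?_, ?_⟩
      · have := ha.mul ((isHomogeneous_X K S.l₀).pow (γ - u x))
        have hle : u x ≤ γ := Finset.le_sup (Finset.mem_univ x)
        rwa [show s + u x + 1 * (γ - u x) = s + γ by omega] at this
      · show aeval S.w _ = aeval S.w (b x) * φ x z
        rw [map_mul, map_pow, aeval_X, S.w_one, one_pow, mul_one, he]
    let T' : Fm.M (j + p * s) →ₗ[K] (Bs → W) :=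
      LinearMap.pi fun x => ((LinearMap.proj x).comp T).codRestrict W fun z => hmem z x
    have hle := LinearMap.finrank_le_finrank_of_injective (f := T')
      (fun a c h => hinj (funext fun x => congrArg Subtype.val (congrFun h x)))
    rw [Module.finrank_pi_fintype, Finset.sum_const, Finset.card_univ, smul_eq_mul, ← hrank] at hle
    have hWle := Submodule.finrank_map_le (aeval S.w).toLinearMap (homogeneousSubmodule σ K (s + γ))
    rw [finrank_homog_eq hm] at hWle
    exact_mod_cast hle.trans (Nat.mul_le_mul_left _ hWle)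

variable (hp : p.Prime) (hF : ∀ l, (F l).IsHomogeneous p)
  (hsyz : ∀ w : σ → MvPolynomial σ K, ∑ l, F l * w l = 0 →
    ∀ l, w l ∈ Ideal.span (Set.range F))
  (hA : ∀ e, (finrank K (qDeg F e) : ℤ) = boxCoeff p (Fintype.card σ) e)
  (hcop : (finrank L₀ L).Coprime p)

include hp hF hsyz hA hcop in
/-- A family spanning nonzero subspaces over `L` spans the largest possible ones. -/
lemma Fam.full [Infinite K] [FiniteDimensional L₀ L] (W : ZMod p → Submodule L B)
    (hWV : ∀ j, (W j).restrictScalars L₀ = Fm.V j) (hne : ∃ j, W j ≠ ⊥) (j : ZMod p) :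
    finrank L (W j) = p ^ (Fintype.card σ - 1) := by
  have : NeZero p := ⟨hp.ne_zero⟩
  have hm : 0 < Fintype.card σ := Fintype.card_pos_iff.2 ⟨S.l₀⟩
  obtain ⟨k, hk⟩ := rank_dvd hp hm (fun d => (finrank K (Fm.M d) : ℤ))
    (balanced Fm hp hF hsyz hA) (fun i : Fin p => finrank L₀ (Fm.V ((i : ℕ) : ZMod p)))
    (fun i => Fm.sandwich hp.pos i i.2)
  have htower : ∀ i, finrank L₀ (Fm.V i) = finrank L₀ L * finrank L (W i) := fun i => by
    have : IsScalarTower L₀ L (W i) := ⟨fun a b x => Subtype.ext (smul_assoc a b (x : B))⟩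
    rw [← hWV]
    exact (Module.finrank_mul_finrank L₀ L (W i)).symm
  have hWle : ∀ i, W i ≤ pieceOf L p S.gen i := fun i x hx =>
    Fm.V_le i ((hWV i).le hx)
  set P := p ^ (Fintype.card σ - 1)
  have hk' : ∀ i : ZMod p, ((finrank L₀ L : ℤ) * finrank L (W i)) = (P : ℤ) * k := fun i => by
    have := hk ⟨i.val, ZMod.val_lt i⟩
    simp only [htower, Nat.cast_mul] at this
    rw [ZMod.natCast_zmod_val] at this
    rw [this]
    simp [P]
  have he : 0 < finrank L₀ L := Module.finrank_pos
  have hco : (finrank L₀ L).Coprime P := Nat.Coprime.pow_right _ hcop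
  have hdiv : ∀ i, P ∣ finrank L (W i) := by
    intro i
    refine hco.symm.dvd_of_dvd_mul_left ?_
    exact Int.natCast_dvd_natCast.1 ⟨k, by push_cast; exact hk' i⟩
  have hbound : ∀ i, finrank L (W i) ≤ P := fun i => by
    have := S.piece_finite i
    exact (Submodule.finrank_mono (hWle i)).trans (S.piece_le i)
  obtain ⟨i₀, hi₀⟩ := hne
  have hi₀' : finrank L (W i₀) = P := by
    have := S.piece_finite i₀
    have : FiniteDimensional L (W i₀) := Submodule.finiteDimensional_of_le (hWle i₀)
    refine le_antisymm (hbound i₀) (Nat.le_of_dvd ?_ (hdiv i₀))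
    exact Nat.pos_of_ne_zero fun h0 => hi₀ (Submodule.finrank_eq_zero.1 h0)
  have h1 := (hk' i₀).trans (hk' j).symm
  rw [hi₀'] at h1
  have : finrank L₀ L * P = finrank L₀ L * finrank L (W j) := by exact_mod_cast h1
  exact (Nat.eq_of_mul_eq_mul_left he this).symm

lemma mem_span_of_smul (j : ZMod p) (c : L) {x : B} (hx : x ∈ S.topFam.V j) :
    c • x ∈ S.topFam.V j := by
  have hc : c ∈ Algebra.adjoin L₀ {S.θ} := S.θ_gen ▸ Algebra.mem_top
  induction hc using Algebra.adjoin_induction generalizing x with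
  | mem c hc =>
    rw [Set.mem_singleton_iff.1 hc]
    induction hx using Submodule.span_induction with
    | mem x hx =>
      obtain ⟨d, hd, hx⟩ := hx
      refine Submodule.subset_span ⟨p * S.D + d, by simpa using hd, ?_⟩
      rw [Algebra.smul_def]
      exact S.R_mul S.θ_R hx
    | zero => simp
    | add a b _ _ ha hb => rw [smul_add]; exact add_mem ha hb
    | smul k a _ ha => rw [smul_comm]; exact Submodule.smul_mem _ k ha
  | algebraMap k => rw [IsScalarTower.algebraMap_smul]; exact Submodule.smul_mem _ k hx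
  | add a b _ _ ha hb => rw [add_smul]; exact add_mem (ha hx) (hb hx)
  | mul a b _ _ ha hb => rw [mul_smul]; exact ha (hb hx)

lemma topFam_V (j : ZMod p) : (pieceOf L p S.gen j).restrictScalars L₀ = S.topFam.V j := by
  refine le_antisymm (fun x hx => ?_) (S.topFam.V_le j)
  change x ∈ pieceOf L p S.gen j at hx
  induction hx using Submodule.span_induction with
  | mem x hx =>
    obtain ⟨l, hl, rfl⟩ := hx
    exact Submodule.subset_span ⟨_, hl, S.word_R l⟩
  | zero => simp
  | add a b _ _ ha hb => exact add_mem ha hb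
  | smul c a _ ha => exact mem_span_of_smul j c ha

include hp hF hsyz hA hcop in
/-- Every piece has the largest possible dimension. -/
theorem Sys.full [Infinite K] [FiniteDimensional L₀ L] [Nontrivial B] : S.Full := fun j =>
  S.topFam.full hp hF hsyz hA hcop _ topFam_V ⟨0, fun h => one_ne_zero (α := B)
    ((Submodule.mem_bot L).1 (h ▸ (Submodule.subset_span ⟨[], by simp, by simp⟩ :
      (1 : B) ∈ pieceOf L p S.gen 0)))⟩ j

lemma smul_R {d s : ℕ} {a : MvPolynomial σ K} {y : B} (ha : a.IsHomogeneous s) (hy : y ∈ S.R d) :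
    aeval S.w a • y ∈ S.R (d + p * s) := by
  rw [Algebra.smul_def]
  exact par_M S.topFam ha hy

lemma mono_R {d : ℕ} {y : B} (hy : y ∈ S.R d) (k : ℕ) : y ∈ S.R (d + p * k) :=
  S.topFam.mono hy k

lemma add_R_aligned {d d' : ℕ} (h : (d : ZMod p) = (d' : ZMod p)) {x y : B} (hx : x ∈ S.R d)
    (hy : y ∈ S.R d') : ∃ e : ℕ, (e : ZMod p) = (d : ZMod p) ∧ x + y ∈ S.R e := by
  rw [ZMod.natCast_eq_natCast_iff'] at h
  have e1 := Nat.mod_add_div d p
  have e2 := Nat.mod_add_div d' p
  refine ⟨d + p * (d' / p), by simp, add_mem (mono_R hx _) ?_⟩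
  rw [show d + p * (d' / p) = d' + p * (d / p) by omega]
  exact mono_R hy _

/-- Elements cleared of their denominators. -/
def Clear (i : ZMod p) (x : B) : Prop :=
  ∃ s d : ℕ, ∃ b : MvPolynomial σ K, b.IsHomogeneous s ∧ aeval S.w b ≠ 0 ∧
    (d : ZMod p) = i ∧ aeval S.w b • x ∈ S.R d

lemma clear_add {i : ZMod p} {x y : B} (hx : Clear (S := S) i x) (hy : Clear (S := S) i y) :
    Clear (S := S) i (x + y) := by
  obtain ⟨s, d, b, hb, hb0, hd, hx⟩ := hx
  obtain ⟨s', d', b', hb', hb0', hd', hy⟩ := hy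
  have h1 : aeval S.w (b * b') • x ∈ S.R (d + p * s') := by
    rw [map_mul, mul_comm (aeval S.w b) (aeval S.w b'), mul_smul]; exact smul_R hb' hx
  have h2 : aeval S.w (b * b') • y ∈ S.R (d' + p * s) := by
    rw [map_mul, mul_smul]; exact smul_R hb hy
  obtain ⟨e, he, hmem⟩ := add_R_aligned (by simp [hd, hd']) h1 h2
  refine ⟨s + s', e, b * b', hb.mul hb', by rw [map_mul]; exact mul_ne_zero hb0 hb0',
    by rw [he]; simpa using hd, ?_⟩
  rw [smul_add]
  exact hmem

lemma clear_smul {i : ZMod p} (c : L₀) {x : B} (hx : Clear (S := S) i x) :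
    Clear (S := S) i (c • x) := by
  obtain ⟨s, d, b, hb, hb0, hd, hx⟩ := hx
  obtain ⟨s', a, b', ha, hb', hb0', hc⟩ := S.w_frac c
  refine ⟨s + s', d + p * s', b * b', hb.mul hb', by rw [map_mul]; exact mul_ne_zero hb0 hb0',
    by simpa using hd, ?_⟩
  rw [map_mul, smul_smul, show aeval S.w b * aeval S.w b' * c = aeval S.w a * aeval S.w b by
    rw [← hc]; ring, mul_smul]
  exact smul_R ha hx

lemma exists_clear [NeZero p] {i : ZMod p} {x : B} (hx : x ∈ S.topFam.V i) :
    ∃ δ : L₀, δ ≠ 0 ∧ ∃ d : ℕ, (d : ZMod p) = i ∧ δ • x ∈ S.R d := by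
  suffices h : Clear (S := S) i x by
    obtain ⟨s, d, b, -, hb0, hd, h⟩ := h
    exact ⟨_, hb0, d, hd, h⟩
  have h1 : aeval S.w (1 : MvPolynomial σ K) ≠ 0 := by rw [map_one]; exact one_ne_zero
  induction hx using Submodule.span_induction with
  | mem x hx =>
    obtain ⟨d, hd, hx⟩ := hx
    refine ⟨0, d, 1, isHomogeneous_one _ _, h1, hd, ?_⟩
    rw [map_one, one_smul]
    exact hx
  | zero =>
    refine ⟨0, i.val, 1, isHomogeneous_one _ _, h1, ZMod.natCast_zmod_val i, ?_⟩
    rw [smul_zero]
    exact zero_mem _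
  | add x y _ _ hx hy => exact clear_add hx hy
  | smul c x _ hx => exact clear_smul c hx

lemma map_mulLeft_V (a : B) {q : ℕ} (ha : a ∈ S.R q) (k : ZMod p) :
    ((pieceOf L p S.gen (k - (q : ZMod p))).map (LinearMap.mulLeft L a)).restrictScalars L₀ =
      (S.mulFam a ha).V k := by
  refine le_antisymm ?_ (Submodule.span_le.2 ?_)
  · have hsub : S.topFam.V (k - (q : ZMod p)) ≤
        ((S.mulFam a ha).V k).comap (LinearMap.mulLeft L₀ a) := by
      refine Submodule.span_le.2 ?_
      rintro z ⟨d, hd, hz⟩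
      refine Submodule.subset_span ⟨q + d, by rw [Nat.cast_add, hd]; abel, ?_⟩
      show a * z ∈ (if q ≤ q + d then _ else _)
      rw [if_pos (Nat.le_add_right _ _), Nat.add_sub_cancel_left]
      exact ⟨z, hz, rfl⟩
    rintro _ ⟨z, hz, rfl⟩
    exact hsub ((topFam_V _).le hz)
  · rintro z ⟨d, hd, hz⟩
    change z ∈ (if q ≤ d then _ else _) at hz
    split_ifs at hz with h
    · obtain ⟨u, hu, rfl⟩ := hz
      refine ⟨u, ?_, rfl⟩
      have := R_le_piece hu
      rwa [Nat.cast_sub h, hd] at this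
    · rw [(Submodule.mem_bot K).1 hz]; exact zero_mem _

include hp hF hsyz hA hcop in
/-- No homogeneous zero divisors. -/
theorem Sys.no_zero [Infinite K] [FiniteDimensional L₀ L] [Nontrivial B] {i j : ZMod p} {x y : B}
    (hx : x ∈ pieceOf L p S.gen i) (hy : y ∈ pieceOf L p S.gen j) (hxy : x * y = 0) :
    x = 0 ∨ y = 0 := by
  by_contra hne
  push Not at hne
  obtain ⟨hx0, hy0⟩ := hne
  have : NeZero p := ⟨hp.ne_zero⟩
  obtain ⟨δ, hδ, q, hq, ha⟩ := exists_clear (S := S) ((topFam_V i).le hx)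
  set a := δ • x
  have ha0 : a ≠ 0 := smul_ne_zero hδ hx0
  have hay : a * y = 0 := by rw [smul_mul_assoc, hxy, smul_zero]
  let W : ZMod p → Submodule L B := fun k =>
    (pieceOf L p S.gen (k - (q : ZMod p))).map (LinearMap.mulLeft L a)
  have hWV : ∀ k, (W k).restrictScalars L₀ = (S.mulFam a ha).V k := map_mulLeft_V a ha
  have hWne : ∃ k, W k ≠ ⊥ := by
    refine ⟨(q : ZMod p), fun h => ha0 ?_⟩
    have : a ∈ W (q : ZMod p) := ⟨1, by
      rw [sub_self]; exact Submodule.subset_span ⟨[], by simp, by simp⟩, mul_one a⟩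
    exact (Submodule.mem_bot L).1 (h ▸ this)
  have h1 := (S.mulFam a ha).full hp hF hsyz hA hcop W hWV hWne (j + (q : ZMod p))
  rw [show W (j + (q : ZMod p)) = (pieceOf L p S.gen j).map (LinearMap.mulLeft L a) from
    congrArg (fun k => (pieceOf L p S.gen k).map (LinearMap.mulLeft L a)) (add_sub_cancel_right j _)] at h1
  have := S.piece_finite j
  set g := (LinearMap.mulLeft L a).comp (pieceOf L p S.gen j).subtype
  have hrk := g.finrank_range_add_finrank_ker
  have hrange : LinearMap.range g = (pieceOf L p S.gen j).map (LinearMap.mulLeft L a) := by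
    rw [LinearMap.range_comp, Submodule.range_subtype]
  rw [hrange, h1] at hrk
  have hker : (⟨y, hy⟩ : pieceOf L p S.gen j) ∈ LinearMap.ker g := hay
  have hle := S.piece_le j
  have hk0 : LinearMap.ker g = ⊥ := Submodule.finrank_eq_zero.1 (by omega)
  rw [hk0, Submodule.mem_bot] at hker
  exact hy0 (congrArg Subtype.val hker)

end Vale.Agent.P200.Cyc
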