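import Vale.Agent.P200.Cyc.Blocks
import Vale.Agent.P200.Cyc.Bound
import Vale.Agent.P200.Cyc.Param
import Vale.Agent.P200.Cyc.Finite
import Vale.Agent.P200.Cyc.BlockField
import Vale.Agent.P200.Cyc.Rank
import Vale.Agent.P200.Cyc.Glue
import Vale.Agent.P200.Cyc.Division

/-!
Linear factorisations over division rings for forms of prime degree `p` in characteristic zero or
greater than `p`.
-/

noncomputable section

namespace Vale.Agent.P200.Cyc

open MvPolynomial Module
open scoped TensorProduct

universe u

variable {K : Type u} [Field K] {p : ℕ}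

lemma exists_primitiveRoot [IsAlgClosed K] (hp : p.Prime) (h : (p : K) ≠ 0) :
    ∃ ω : K, IsPrimitiveRoot ω p := by
  have : NeZero (p : K) := ⟨h⟩
  obtain ⟨ω, hω⟩ := IsAlgClosed.exists_root (Polynomial.cyclotomic p K) (by
    rw [Polynomial.degree_cyclotomic, Nat.totient_prime hp]
    have := hp.two_le
    exact_mod_cast (show p - 1 ≠ 0 by omega))
  exact ⟨ω, Polynomial.isRoot_cyclotomic_iff.1 hω⟩

lemma formG_homogeneous {L₀ σ : Type*} [Field L₀] [Algebra K L₀] [Fintype σ] {b : ℕ} (w : σ → L₀)
    (Bin : σ → Fin b → MvPolynomial (Fin 2) K) (hBin : ∀ l r, (Bin l r).IsHomogeneous p)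
    (r : Fin b) : (formG w Bin r).IsHomogeneous p :=
  (homogeneousSubmodule (Fin 2) L₀ p).sum_mem fun l _ => ((hBin l r).map _).C_mul _

lemma sum_aeval_formG {L₀ E σ : Type*} [Field L₀] [Field E] [Algebra K L₀] [Algebra K E]
    [Algebra L₀ E] [IsScalarTower K L₀ E] [Fintype σ] {b : ℕ} (w : σ → L₀)
    (Bin : σ → Fin b → MvPolynomial (Fin 2) K) (y : Fin b × Fin 2 → K) :
    ∑ r, aeval (fun j => algebraMap K E (y (r, j))) (formG w Bin r) =
      algebraMap L₀ E
        (∑ l, algebraMap K L₀ (eval y (∑ r, rename (Prod.mk r) (Bin l r))) * w l) := by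
  have h : ∀ (r : Fin b) (P : MvPolynomial (Fin 2) K),
      aeval (fun j => algebraMap K E (y (r, j))) (map (algebraMap K L₀) P) =
        algebraMap K E (eval (fun j => y (r, j)) P) := by
    intro r P
    rw [aeval_map_algebraMap]
    exact aeval_algebraMap_apply _ _ _ |>.trans (by rw [aeval_eq_eval])
  simp only [formG, map_sum, map_mul, aeval_C, h, eval_rename, Function.comp_def, Finset.sum_mul]
  rw [Finset.sum_comm]
  refine Finset.sum_congr rfl fun l _ => Finset.sum_congr rfl fun r _ => ?_
  rw [← IsScalarTower.algebraMap_apply, mul_comm]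

/-- Evaluation of a polynomial over an algebra at one. -/
def evalOne (B : Type*) [Ring B] [Algebra K B] : Polynomial B →ₐ[K] B :=
  { Polynomial.eval₂RingHom' (RingHom.id B) 1 fun _ => Commute.one_right _ with
    commutes' := fun c => by
      show Polynomial.eval₂ _ _ (algebraMap K (Polynomial B) c) = _
      rw [Polynomial.algebraMap_apply, Polynomial.eval₂_C]
      rfl }

lemma evalOne_monomial {B : Type*} [Ring B] [Algebra K B] (n : ℕ) (x : B) :
    evalOne (K := K) B (Polynomial.monomial n x) = x := by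
  show Polynomial.eval₂ _ _ (Polynomial.monomial n x) = x
  rw [Polynomial.eval₂_monomial, one_pow, mul_one]
  rfl

lemma lt_card_filter_iff {b n : ℕ} {cp : Fin b → Fin n} (hcp : Monotone cp) (k : Fin n)
    (r : Fin b) :
    (r : ℕ) < (Finset.univ.filter fun s => cp s < k).card ↔ cp r < k := by
  constructor
  · intro h
    by_contra hne
    have hsub : (Finset.univ.filter fun s => cp s < k) ⊆ Finset.Iio r := fun s hs => by
      rw [Finset.mem_filter] at hs
      rw [Finset.mem_Iio]
      by_contra hle
      exact hne (lt_of_le_of_lt (hcp (not_lt.1 hle)) hs.2)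
    have := Finset.card_le_card hsub
    rw [Fin.card_Iio] at this
    omega
  · intro h
    have hsub : Finset.Iic r ⊆ Finset.univ.filter fun s => cp s < k := fun s hs => by
      rw [Finset.mem_Iic] at hs
      exact Finset.mem_filter.2 ⟨Finset.mem_univ _, lt_of_le_of_lt (hcp hs) h⟩
    have := Finset.card_le_card hsub
    rw [Fin.card_Iic] at this
    omega

set_option maxHeartbeats 800000 in
/-- Forms of prime degree `p` have linear factorisations over a division ring. -/
theorem exists_factorisation_prime [IsAlgClosed K] (hp : p.Prime)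
    (hchar : ∀ i : ℕ, 0 < i → i ≤ p → (i : K) ≠ 0) {n : ℕ} (hn : 0 < n)
    {f : Fin n → MvPolynomial (Fin n) K} (hf : ∀ i, (f i).IsHomogeneous p)
    (hreg : RegList ⊥ (List.ofFn f)) :
    ∃ (D : Type u) (_ : DivisionRing D) (_ : Algebra K D) (g : Fin n → Fin n → D) (ω : K)
      (E : Fin n → Fin n → D), ω ≠ 0 ∧
      (∀ k l, k < l → ∀ i j, g k i * g l j = ω • (g l j * g k i)) ∧
      (∀ k, (∑ i, g k i ⊗ₜ[K] Quad.mkA f (X i)) ^ p = 0) ∧
      ∀ i j, ∑ k, E i k * g k j = if i = j then 1 else 0 := by
  classical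
  have : Fact p.Prime := ⟨hp⟩
  obtain ⟨ω, hω⟩ := exists_primitiveRoot hp (hchar p hp.pos le_rfl)
  obtain ⟨b, cp, Λ, Bin, hb, hcp, hBin, hunit, ⟨lst, hnd, hmem, hregF⟩, hpull⟩ :=
    exists_blocks hp.pos hn hchar hf hreg
  let l₀ : Fin b × Fin 2 := (⟨0, hb⟩, 0)
  let w : Fin b × Fin 2 → ParField K l₀ := parW K l₀
  let E := AlgebraicClosure (ParField K l₀)
  have hcharL : ∀ i : ℕ, 0 < i → i ≤ p → (i : ParField K l₀) ≠ 0 := fun i h1 h2 => by
    rw [← map_natCast (algebraMap K (ParField K l₀))]
    exact fun h => hchar i h1 h2 ((map_eq_zero _).1 h)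
  have hcharE : ∀ i : ℕ, 0 < i → i ≤ p → (i : E) ≠ 0 := fun i h1 h2 => by
    rw [← map_natCast (algebraMap K E)]
    exact fun h => hchar i h1 h2 ((map_eq_zero _).1 h)
  obtain ⟨L, hLfin, hLsep, hcop, Bk, hfac⟩ := exists_blockField' (E := E) hcharL (formG w Bin)
    (formG_homogeneous w Bin hBin)
  obtain ⟨θ, D, k, A, hθgen, hA, hθ⟩ := exists_scaled K l₀ (L := L)
  have hωp : (algebraMap K E ω) ^ p = 1 := by rw [← map_pow, hω.pow_eq_one, map_one]
  have hω' : IsPrimitiveRoot (algebraMap K E ω) p := hω.map_of_injective (algebraMap K E).injective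
  have hωL : algebraMap K E ω ∈ L := by
    rw [IsScalarTower.algebraMap_apply K (ParField K l₀) E]
    exact L.algebraMap_mem _
  let gen := blockGen (p := p) (algebraMap K E ω) (fun r => (Bk r).gam) fun r => (Bk r).lam
  let F : Fin b × Fin 2 → MvPolynomial (Fin b × Fin 2) K :=
    fun l => ∑ r, rename (Prod.mk r) (Bin l r)
  have hF : ∀ l, (F l).IsHomogeneous p := fun l =>
    (homogeneousSubmodule _ K p).sum_mem fun r _ => (hBin l r).rename_isHomogeneous
  have hcard : Fintype.card (Fin b × Fin 2) - 1 = 2 * b - 1 := by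
    rw [Fintype.card_prod, Fintype.card_fin, Fintype.card_fin, mul_comm]
  have hbound := fun j => piece_bound (L := L) hb hωp ⟨⟨_, hωL⟩, rfl⟩
    (fun r => (Bk r).chain) j
  have hpower : ∀ y : Fin b × Fin 2 → K, (∑ q, y q • gen q) ^ p = algebraMap (ParField K l₀) _
      (∑ l, algebraMap K (ParField K l₀) (eval y (F l)) * w l) := by
    intro y
    have h1 := blockGen_power (algebraMap K E ω) (fun r => (Bk r).gam) (fun r => (Bk r).lam) hω'
      fun q => algebraMap K E (y q)
    simp only [hfac, algebraMap_smul] at h1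
    rw [sum_aeval_formG, ← IsScalarTower.algebraMap_apply] at h1
    exact h1
  let S : Sys K (ParField K l₀) L (Matrix (Pt p b) (Pt p b) E) p F :=
    { w := w
      l₀ := l₀
      w_one := par_self K l₀
      w_inj := fun s a ha h => par_inj K l₀ ha h
      w_frac := par_frac K l₀
      gen := gen
      θ := θ
      D := D
      θ_gen := hθgen
      piece_finite := fun j => (hbound j).1
      piece_le := fun j => (hbound j).2.trans (le_of_eq (by
        rw [hcard, Finset.prod_const, Finset.card_univ, Fintype.card_fin, ← pow_add]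
        congr 1
        omega))
      power := hpower
      fin := exists_fin hω.pow_eq_one L Bk w Bin hBin hfac θ D k A hA hθ }
  obtain ⟨hsyz, hAF⟩ := regular_glue hp.pos hF hnd hmem hregF
  have : Nonempty (Pt p b) := ⟨0⟩
  have hfull := S.full hp hF hsyz hAF hcop 0
  have hnd' := fun r => nondegenerate_of_full hp.one_lt hcharE hωp hωL Bk 0
    (by rw [← hcard]; exact hfull) r
  haveI : IsScalarTower K L E := IsScalarTower.of_algebraMap_eq fun c => rfl
  haveI : IsScalarTower K L (Matrix (Pt p b) (Pt p b) E) :=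
    IsScalarTower.of_algebraMap_eq fun c => by
      rw [IsScalarTower.algebraMap_apply K E (Matrix (Pt p b) (Pt p b) E),
        IsScalarTower.algebraMap_apply L E (Matrix (Pt p b) (Pt p b) E),
        ← IsScalarTower.algebraMap_apply K L E]
  let sel : Fin n → Finset (Fin b × Fin 2) := fun k => Finset.univ.filter fun q => cp q.1 = k
  let G : Fin n → Fin n → Matrix (Pt p b) (Pt p b) E := fun k i => ∑ q ∈ sel k, Λ q i • gen q
  let thr : Fin n → ℕ := fun k => (Finset.univ.filter fun s => cp s < k).card
  have hG : ∀ k i, G k i ∈ pieceOf L p gen 1 := fun k i => sum_mem fun q _ =>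
    Submodule.smul_of_tower_mem _ _ (Submodule.subset_span ⟨[q], by simp, by simp⟩)
  have hcomm : ∀ k l, k < l → ∀ i j, G k i * G l j = ω • (G l j * G k i) := by
    intro k l hkl i j
    simp only [G, Matrix.sum_mul, Matrix.mul_sum, Finset.smul_sum]
    rw [Finset.sum_comm]
    refine Finset.sum_congr rfl fun q hq => Finset.sum_congr rfl fun q' hq' => ?_
    have hlt : q.1 < q'.1 := by
      by_contra hle
      have h1 := hcp (not_lt.1 hle)
      rw [(Finset.mem_filter.1 hq).2, (Finset.mem_filter.1 hq').2] at h1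
      exact absurd h1 (not_le.2 hkl)
    rw [smul_mul_smul_comm, smul_mul_smul_comm, smul_smul,
      show gen q * gen q' = algebraMap K E ω • (gen q' * gen q) from
        blockGen_comm _ _ _ hωp hlt, algebraMap_smul, smul_smul]
    congr 1
    ring
  have hpow : ∀ k, (∑ i, G k i ⊗ₜ[K]
      Ideal.Quotient.mkₐ K (Ideal.span (Set.range f)) (X i)) ^ p = 0 := by
    intro k
    let v : Fin b × Fin 2 → MvPolynomial (Fin n) K := fun q =>
      if cp q.1 = k then lin (Λ q) else 0
    let sub : MvPolynomial (Fin b × Fin 2) K →ₐ[K] MvPolynomial (Fin n) K ⧸ Ideal.span (Set.range f) :=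
      (Ideal.Quotient.mkₐ K (Ideal.span (Set.range f))).comp (aeval v)
    let Θ := Algebra.TensorProduct.map (evalOne (K := K) (Matrix (Pt p b) (Pt p b) E)) sub
    have hsum : ∑ i, G k i ⊗ₜ[K] Ideal.Quotient.mkₐ K (Ideal.span (Set.range f)) (X i) =
        Θ S.phi := by
      simp only [Sys.phi, map_sum, Θ, Algebra.TensorProduct.map_tmul, evalOne_monomial, sub,
        AlgHom.comp_apply, aeval_X, G, TensorProduct.sum_tmul]
      rw [Finset.sum_comm]
      simp only [sel, Finset.sum_filter]
      refine Finset.sum_congr rfl fun q _ => ?_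
      by_cases h : cp q.1 = k
      · simp only [v, if_pos h, lin, map_sum, map_smul, TensorProduct.tmul_sum,
          TensorProduct.smul_tmul]
        rfl
      · simp [v, h]
    rw [hsum, ← map_pow, S.phi_pow, map_sum]
    refine Finset.sum_eq_zero fun l _ => ?_
    rw [Algebra.TensorProduct.map_tmul, show sub (F l) = 0 from ?_, TensorProduct.tmul_zero]
    refine Ideal.Quotient.eq_zero_iff_mem.2 ?_
    have hsub : ∀ r, aeval v (rename (Prod.mk r) (Bin l r)) =
        if cp r = k then pullBin (fun j => Λ (r, j)) (Bin l r) else 0 := by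
      intro r
      rw [aeval_rename]
      by_cases h : cp r = k
      · rw [if_pos h, pullBin]
        congr 2
        funext j
        simp [v, h]
      · rw [if_neg h, show v ∘ Prod.mk r = 0 from funext fun j => by simp [v, h]]
        rw [aeval_zero]
        rw [show constantCoeff (Bin l r) = 0 from (hBin l r).coeff_eq_zero (by simp; exact hp.ne_zero.symm),
          map_zero]
    show aeval v (F l) ∈ Ideal.span (Set.range f)
    simp only [F, map_sum, hsub, ← Finset.sum_filter]
    exact hpull k l
  have hinj : ∀ k (u : Fin n → Matrix (Pt p b) (Pt p b) E), (∀ i, u i ∈ old L (thr k)) →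
      ∑ i, G k i * u i = 0 → u = 0 := by
    intro k u hu h
    let U : Fin b × Fin 2 → Matrix (Pt p b) (Pt p b) E := fun q =>
      if cp q.1 = k then ∑ i, Λ q i • u i else 0
    have hU : U = 0 := by
      refine blockGen_old_injective (R := L) (r₀ := thr k) (algebraMap K E ω)
        (fun r => (Bk r).gam) (fun r => (Bk r).lam) (hω'.ne_zero hp.ne_zero)
        (fun r _ => (hnd' r).1) (fun r _ => (hnd' r).2) U (fun q => ?_) (fun q hq => ?_) ?_
      · simp only [U]
        split_ifs
        · exact sum_mem fun i _ => Submodule.smul_of_tower_mem _ _ (hu i)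
        · exact zero_mem _
      · simp only [U]
        rw [if_neg]
        intro hq'
        exact absurd ((lt_card_filter_iff hcp k q.1).1 hq) (by rw [hq']; exact lt_irrefl k)
      · rw [← h]
        simp only [U, mul_ite, mul_zero, ← Finset.sum_filter, G, Matrix.mul_sum, Matrix.sum_mul,
          sel, mul_smul_comm, smul_mul_assoc]
        exact Finset.sum_comm
    funext i
    obtain ⟨q, hq, hΛ⟩ := hunit k i
    have := congrFun hU q
    simp only [U, if_pos hq, hΛ, Pi.zero_apply] at this
    rw [Finset.sum_eq_single i (fun j _ hj => by simp [hj]) (by simp)] at this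
    simpa using this
  obtain ⟨D', iD, iA, g, hg, hgpow, Emat, hEmat⟩ := exists_factorisation (p := p) (gen := gen) hp
    (fun j => (hbound j).1)
    (fun i j x hx y hy hxy => S.no_zero hp hF hsyz hAF hcop hx hy hxy)
    f G hG (fun k => old L (thr k)) (fun k => one_mem_old)
    (fun l k hlk i u hu => by
      rw [Finset.sum_mul]
      refine sum_mem fun q hq => ?_
      rw [smul_mul_assoc]
      refine Submodule.smul_of_tower_mem _ _ (blockGen_mul_old _ _ _ ?_ hu)
      exact (lt_card_filter_iff hcp k q.1).2 (by rw [(Finset.mem_filter.1 hq).2]; exact hlk))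
    hinj ω hcomm hpow
  exact ⟨D', iD, iA, g, ω, Emat, hω.ne_zero hp.ne_zero, hg, hgpow, hEmat⟩

end Vale.Agent.P200.Cyc
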