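import Vale.Agent.P200.Cyc.Hilbert
import Vale.Agent.P200.Quad.Artinian

/-!
Monomial models from linear factorisations over a division ring, in any degrees.
-/

namespace Vale.Agent.P200.Cyc

open MvPolynomial Module Quad
open scoped TensorProduct

universe u

/-- Models monotone in the ideal, for the ideals containing given forms. -/
def HasModel {K : Type*} [Field K] {n : ℕ} (f : Fin n → MvPolynomial (Fin n) K) (a : Fin n → ℕ) :
    Prop :=
  ∃ T : Ideal (MvPolynomial (Fin n) K) → ℕ → Finset (Fin n →₀ ℕ),
    ∀ J, (∀ i, f i ∈ J) →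
      (∀ d, (∀ e ∈ T J d, e.degree = d) ∧
        (T J d).card = finrank K (Vale.Agent.P200.degPart d J) ∧
        (∀ e : Fin n →₀ ℕ, e.degree = d → (∃ i, a i ≤ e i) → e ∈ T J d) ∧
        ∀ e ∈ T J d, ∀ i, e + Finsupp.single i 1 ∈ T J (d + 1)) ∧
      ∀ J', J ≤ J' → ∀ d, T J d ⊆ T J' d

/-- Models for every regular sequence of the given degrees filling all variables. -/
def Models (K : Type*) [Field K] {n : ℕ} (a : Fin n → ℕ) : Prop :=
  ∀ f : Fin n → MvPolynomial (Fin n) K, (∀ i, (f i).IsHomogeneous (a i)) →
    RegList ⊥ (List.ofFn f) → HasModel f a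

section lead

variable {D V ι α : Type*} [DivisionRing D] [AddCommGroup V] [Module D V] [Fintype ι]
  [LinearOrder α] (b : Basis ι D V) (key : ι → α)

/-- `i` is the leading index of `v`. -/
def IsLead (v : V) (i : ι) : Prop :=
  b.repr v i ≠ 0 ∧ ∀ j, b.repr v j ≠ 0 → key j ≤ key i

open Classical in
/-- The leading indices of a subspace. -/
noncomputable def leadSet (U : Submodule D V) : Finset ι :=
  Finset.univ.filter fun i => ∃ v ∈ U, IsLead b key v i

lemma mem_leadSet {U : Submodule D V} {i : ι} :
    i ∈ leadSet b key U ↔ ∃ v ∈ U, IsLead b key v i := by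
  simp [leadSet]

lemma card_leadSet (hk : Function.Injective key) (U : Submodule D V) :
    (leadSet b key U).card = finrank D U := by
  classical
  have : Module.Finite D V := Module.Finite.of_basis b
  have hex : ∀ i : {i // i ∈ leadSet b key U}, ∃ v ∈ U, IsLead b key v i.1 :=
    fun i => (mem_leadSet b key).1 i.2
  choose w hw hl using hex
  refine le_antisymm ?_ ?_
  · let F : {i // i ∈ leadSet b key U} → U := fun i => ⟨w i, hw i⟩
    have hli : LinearIndependent D F := by
      rw [Fintype.linearIndependent_iff]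
      intro g hg
      by_contra hne
      push Not at hne
      obtain ⟨i, hi⟩ := hne
      obtain ⟨S, hS, hmax⟩ := (Finset.univ.filter fun j => g j ≠ 0).exists_max_image
        (fun j => key j.1) ⟨i, by simp [hi]⟩
      have h0 : b.repr (∑ j, g j • w j) S.1 = 0 := by
        have := congrArg Subtype.val hg
        simp only [F, Submodule.coe_sum, Submodule.coe_smul, ZeroMemClass.coe_zero] at this
        rw [this]; simp
      rw [map_sum, Finsupp.finsetSum_apply, Finset.sum_eq_single S] at h0
      · rw [map_smul, Finsupp.smul_apply, smul_eq_mul] at h0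
        rcases mul_eq_zero.mp h0 with h | h
        · exact (Finset.mem_filter.mp hS).2 h
        · exact (hl S).1 h
      · intro j _ hjS
        rw [map_smul, Finsupp.smul_apply, smul_eq_mul]
        by_cases hg0 : g j = 0
        · rw [hg0, zero_mul]
        by_cases hr : b.repr (w j) S.1 = 0
        · rw [hr, mul_zero]
        exact absurd (Subtype.ext (hk (le_antisymm (hmax j (by simp [hg0])) ((hl j).2 S.1 hr)))) hjS
      · simp
    simpa using hli.fintype_card_le_finrank
  · let g : U →ₗ[D] {i // i ∈ leadSet b key U} → D :=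
      LinearMap.pi fun i => ((Finsupp.lapply i.1).comp b.repr.toLinearMap).comp U.subtype
    have hinj : Function.Injective g := by
      rw [← LinearMap.ker_eq_bot, LinearMap.ker_eq_bot']
      intro v hv
      by_contra hne
      have hne' : (b.repr (v : V)).support.Nonempty := by simp [hne]
      obtain ⟨S, hS, hmax⟩ := (b.repr (v : V)).support.exists_max_image key hne'
      have hlead : S ∈ leadSet b key U := (mem_leadSet b key).2
        ⟨v, v.2, Finsupp.mem_support_iff.1 hS, fun j hj => hmax j (Finsupp.mem_support_iff.2 hj)⟩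
      exact (Finsupp.mem_support_iff.1 hS) (congrFun hv ⟨S, hlead⟩)
    simpa using LinearMap.finrank_le_finrank_of_injective hinj

end lead

variable {K : Type u} [Field K] {n : ℕ} {D : Type u} [DivisionRing D] [Algebra K D]

section words

variable {A : Type u} [CommRing A] [Algebra K A] (x : Fin n → A) (g : Fin n → Fin n → D)

lemma smul_mul_tensor (r : D) (v w : D ⊗[K] A) : (r • v) * w = r • (v * w) := by
  induction v using TensorProduct.induction_on with
  | zero => simp
  | tmul y q =>
    induction w using TensorProduct.induction_on with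
    | zero => simp
    | tmul y' s =>
      simp [TensorProduct.smul_tmul', Algebra.TensorProduct.tmul_mul_tmul, mul_assoc]
    | add w w' hw hw' => rw [mul_add, mul_add, smul_add, hw, hw']
  | add v v' hv hv' => rw [smul_add, add_mul, add_mul, hv, hv', smul_add]

/-- A linear factorisation as a tensor. -/
noncomputable def phi (k : Fin n) : D ⊗[K] A := ∑ i, g k i ⊗ₜ[K] x i

/-- Multiplication on the right by a factorisation. -/
noncomputable def rmul (k : Fin n) : D ⊗[K] A →ₗ[D] D ⊗[K] A where
  toFun v := v * phi (K := K) x g k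
  map_add' v w := add_mul v w _
  map_smul' r v := smul_mul_tensor r v _

lemma rmul_one_tmul (k : Fin n) (q : A) :
    rmul (K := K) x g k ((1 : D) ⊗ₜ[K] q) = ∑ j, g k j ⊗ₜ[K] (x j * q) := by
  show ((1 : D) ⊗ₜ[K] q) * phi (K := K) x g k = _
  rw [phi, Finset.mul_sum]
  simp [Algebra.TensorProduct.tmul_mul_tmul, mul_comm q]

/-- The ordered word of an exponent. -/
noncomputable def word (e : Fin n →₀ ℕ) : D ⊗[K] A :=
  ((List.finRange n).map fun k => phi (K := K) x g k ^ e k).prod

lemma word_zero : word (K := K) x g 0 = (1 : D) ⊗ₜ[K] (1 : A) := by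
  rw [← Algebra.TensorProduct.one_def]
  refine List.prod_eq_one fun y hy => ?_
  obtain ⟨k, -, rfl⟩ := List.mem_map.1 hy
  simp

lemma word_eq_zero_of_pow {e : Fin n →₀ ℕ} {i : Fin n} (h : phi (K := K) x g i ^ e i = 0) :
    word (K := K) x g e = 0 :=
  List.prod_eq_zero (List.mem_map.2 ⟨i, List.mem_finRange i, h⟩)

lemma phi_pow_of_le {i : Fin n} {m m' : ℕ} (h : phi (K := K) x g i ^ m = 0) (hm : m ≤ m') :
    phi (K := K) x g i ^ m' = 0 :=
  pow_eq_zero_of_le hm h

variable (hcomm : ∀ k l, k ≠ l → ∃ q : K, q ≠ 0 ∧ ∀ i j, g k i * g l j = q • (g l j * g k i))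

include hcomm in
lemma phi_comm {k l : Fin n} (h : k ≠ l) :
    ∃ q : K, q ≠ 0 ∧ phi (K := K) x g k * phi (K := K) x g l = q • (phi (K := K) x g l * phi (K := K) x g k) := by
  obtain ⟨q, hq0, hq⟩ := hcomm k l h
  refine ⟨q, hq0, ?_⟩
  simp only [phi, Finset.sum_mul_sum, Finset.smul_sum, Algebra.TensorProduct.tmul_mul_tmul, hq,
    ← TensorProduct.smul_tmul']
  rw [Finset.sum_comm]
  exact Finset.sum_congr rfl fun i _ => Finset.sum_congr rfl fun j _ => by
    rw [mul_comm (x j)]

include hcomm in
lemma pass_pow {k l : Fin n} (h : k ≠ l) :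
    ∀ j : ℕ, ∃ q : K, q ≠ 0 ∧ phi (K := K) x g k ^ j * phi (K := K) x g l = q • (phi (K := K) x g l * phi (K := K) x g k ^ j) := by
  obtain ⟨q, hq0, hq⟩ := phi_comm (K := K) x g hcomm h
  intro j
  induction j with
  | zero => exact ⟨1, one_ne_zero, by simp⟩
  | succ j ih =>
    obtain ⟨c, hc0, hc⟩ := ih
    refine ⟨q * c, mul_ne_zero hq0 hc0, ?_⟩
    rw [pow_succ, mul_assoc, hq, mul_smul_comm, ← mul_assoc, hc, smul_mul_assoc, smul_smul,
      mul_assoc]

include hcomm in
lemma pass_prod {k : Fin n} (e : Fin n →₀ ℕ) : ∀ L : List (Fin n), k ∉ L →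
    ∃ q : K, q ≠ 0 ∧ (L.map fun l => phi (K := K) x g l ^ e l).prod * phi (K := K) x g k =
      q • (phi (K := K) x g k * (L.map fun l => phi (K := K) x g l ^ e l).prod)
  | [], _ => ⟨1, one_ne_zero, by simp⟩
  | l :: L, h => by
    obtain ⟨c, hc0, hc⟩ := pass_prod e L fun h' => h (List.mem_cons_of_mem _ h')
    obtain ⟨q, hq0, hq⟩ := pass_pow (K := K) x g hcomm
      (fun h' => h (h' ▸ List.mem_cons_self) : l ≠ k) (e l)
    refine ⟨c * q, mul_ne_zero hc0 hq0, ?_⟩
    rw [List.map_cons, List.prod_cons, mul_assoc, hc, mul_smul_comm, ← mul_assoc, hq,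
      smul_mul_assoc, smul_smul, mul_assoc]

include hcomm in
lemma rmul_word (e : Fin n →₀ ℕ) (k : Fin n) :
    ∃ q : K, q ≠ 0 ∧ rmul (K := K) x g k (word (K := K) x g e) = q • word (K := K) x g (e + Finsupp.single k 1) := by
  obtain ⟨L₁, L₂, hL⟩ := List.append_of_mem (List.mem_finRange k)
  have hnd := List.nodup_finRange n
  rw [hL, List.nodup_middle, List.nodup_cons] at hnd
  have h₁ : k ∉ L₁ := fun h => hnd.1 (List.mem_append_left _ h)
  have h₂ : k ∉ L₂ := fun h => hnd.1 (List.mem_append_right _ h)
  obtain ⟨q, hq0, hq⟩ := pass_prod (K := K) x g hcomm e L₂ h₂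
  refine ⟨q, hq0, ?_⟩
  have hsame : ∀ L : List (Fin n), k ∉ L →
      (L.map fun l => phi (K := K) x g l ^ (e + Finsupp.single k 1 : Fin n →₀ ℕ) l) =
        L.map fun l => phi (K := K) x g l ^ e l := fun L hk => List.map_congr_left fun l hl => by
    have hne : l ≠ k := fun h => hk (h ▸ hl)
    rw [Finsupp.add_apply, Finsupp.single_eq_of_ne hne, add_zero]
  show word (K := K) x g e * phi (K := K) x g k = _
  simp only [word, hL, List.map_append, List.map_cons, List.prod_append, List.prod_cons]
  rw [hsame L₁ h₁, hsame L₂ h₂]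
  simp only [Finsupp.add_apply, Finsupp.single_eq_same, pow_succ, mul_assoc, hq, mul_smul_comm]

end words

variable (f : Fin n → MvPolynomial (Fin n) K) (g : Fin n → Fin n → D)
variable (hcomm : ∀ k l, k ≠ l → ∃ q : K, q ≠ 0 ∧ ∀ i j, g k i * g l j = q • (g l j * g k i))

/-- The classes of the variables. -/
noncomputable abbrev cls (i : Fin n) : Quo f := mkA f (X i)

variable {a : Fin n → ℕ} (hpow : ∀ k, (∑ i, g k i ⊗ₜ[K] mkA f (X i)) ^ a k = 0)

include hpow in
lemma word_eq_zero {e : Fin n →₀ ℕ} (h : ∃ i, a i ≤ e i) : word (K := K) (cls f) g e = 0 := by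
  obtain ⟨i, hi⟩ := h
  exact word_eq_zero_of_pow (K := K) _ g (phi_pow_of_le (K := K) _ g (hpow i) hi)

include hcomm in
lemma word_mem_piece : ∀ (d : ℕ) (e : Fin n →₀ ℕ), e.degree = d → word (K := K) (cls f) g e ∈ piece f d := by
  intro d
  induction d with
  | zero =>
    intro e he
    rw [Finsupp.degree_eq_zero_iff] at he
    rw [he, word_zero]
    exact tmul_mem_piece f _ (one_mem_quoDeg f)
  | succ d ih =>
    intro e he
    obtain ⟨k, hk⟩ : ∃ k, 0 < e k := by
      by_contra hcon
      push Not at hcon
      rw [show e = 0 from Finsupp.ext fun i => Nat.le_zero.1 (hcon i), map_zero] at he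
      omega
    obtain ⟨e', rfl⟩ : ∃ e', e = e' + Finsupp.single k 1 :=
      ⟨e - Finsupp.single k 1,
        (tsub_add_cancel_of_le (Finsupp.single_le_iff.2 hk)).symm⟩
    rw [map_add, Finsupp.degree_single] at he
    obtain ⟨q, hq0, hq⟩ := rmul_word (K := K) (cls f) g hcomm e' k
    have hw : word (K := K) (cls f) g (e' + Finsupp.single k 1) = q⁻¹ • rmul (K := K) (cls f) g k (word (K := K) (cls f) g e') := by
      rw [hq, inv_smul_smul₀ hq0]
    rw [hw]
    refine Submodule.smul_of_tower_mem _ _ ?_
    have h' := ih e' (by omega)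
    clear hw hq
    generalize word (K := K) (cls f) g e' = y at h' ⊢
    induction h' using Submodule.span_induction with
    | mem x hx =>
      obtain ⟨s, hs, rfl⟩ := hx
      rw [rmul_one_tmul]
      exact sum_mem fun j _ => tmul_mem_piece f _ (Quad.mkA_X_mul_mem f j hs)
    | zero => simp
    | add x y _ _ hx hy => rw [map_add]; exact add_mem hx hy
    | smul r x _ hx => rw [map_smul]; exact Submodule.smul_mem _ _ hx

/-- The span of the words of degree `d`. -/
noncomputable def wordSpan (d : ℕ) : Submodule D (D ⊗[K] Quo f) :=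
  Submodule.span D (word (K := K) (cls f) g '' {e | e.degree = d})

include hcomm in
lemma wordSpan_mul_phi (k : Fin n) {d : ℕ} {v : D ⊗[K] Quo f} (hv : v ∈ wordSpan f g d) :
    rmul (K := K) (cls f) g k v ∈ wordSpan f g (d + 1) := by
  induction hv using Submodule.span_induction with
  | mem x hx =>
    obtain ⟨e, he, rfl⟩ := hx
    obtain ⟨q, -, hq⟩ := rmul_word (K := K) (cls f) g hcomm e k
    rw [hq]
    refine Submodule.smul_of_tower_mem _ _ (Submodule.subset_span ⟨_, ?_, rfl⟩)
    simp only [Set.mem_ofPred_eq] at he ⊢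
    rw [map_add, Finsupp.degree_single, he]
  | zero => simp
  | add x y _ _ hx hy => rw [map_add]; exact add_mem hx hy
  | smul r x _ hx => rw [map_smul]; exact Submodule.smul_mem _ _ hx

variable (E : Fin n → Fin n → D) (hE : ∀ i j, ∑ k, E i k * g k j = if i = j then 1 else 0)

include hcomm hE in
lemma wordSpan_eq_piece (d : ℕ) : wordSpan f g d = piece f d := by
  refine le_antisymm (Submodule.span_le.2 ?_) ?_
  · rintro _ ⟨e, he, rfl⟩
    exact word_mem_piece f g hcomm d e he
  induction d with
  | zero =>
    refine Submodule.span_le.2 ?_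
    rintro _ ⟨q, ⟨u, hu, rfl⟩, rfl⟩
    rw [show u = C (coeff 0 u) from totalDegree_eq_zero_iff_eq_C.1 (Nat.le_zero.1 hu.totalDegree_le),
      C_eq_smul_one]
    simp only [map_smul, SetLike.mem_coe, TensorProduct.tmul_smul]
    refine Submodule.smul_of_tower_mem _ _ (Submodule.subset_span ⟨0, map_zero _, ?_⟩)
    rw [word_zero, show mkA f 1 = 1 from map_one (Ideal.Quotient.mkₐ K (Ideal.span (Set.range f)))]
  | succ d ih =>
    refine Submodule.span_le.2 ?_
    rintro _ ⟨q, ⟨u, hu, rfl⟩, rfl⟩
    have hu' : u ∈ homogeneousSubmodule (Fin n) K d * homogeneousSubmodule (Fin n) K 1 := by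
      rw [← homogeneousSubmodule_one_pow (σ := Fin n) (R := K) d, ← pow_succ,
        homogeneousSubmodule_one_pow]
      exact hu
    clear hu
    induction hu' using Submodule.mul_induction_on' with
    | mem_mul_mem x hx y hy =>
      rw [homogeneousSubmodule_one_eq_span_X] at hy
      induction hy using Submodule.span_induction with
      | mem y hy =>
        obtain ⟨i, rfl⟩ := hy
        have key : ∑ k, E i k • rmul (K := K) (cls f) g k ((1 : D) ⊗ₜ[K] mkA f x) =
            (1 : D) ⊗ₜ[K] mkA f (x * X i) := by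
          simp only [rmul_one_tmul, Finset.smul_sum, TensorProduct.smul_tmul', smul_eq_mul]
          rw [Finset.sum_comm]
          simp only [← TensorProduct.sum_tmul, hE]
          rw [Finset.sum_eq_single i (fun j _ hj => by simp [Ne.symm hj]) (by simp), if_pos rfl,
            mul_comm x, show mkA f (X i * x) = mkA f (X i) * mkA f x from
            map_mul (Ideal.Quotient.mkₐ K (Ideal.span (Set.range f))) _ _]
        show (1 : D) ⊗ₜ[K] mkA f (x * X i) ∈ wordSpan f g (d + 1)
        rw [← key]
        exact sum_mem fun k _ => Submodule.smul_mem _ _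
          (wordSpan_mul_phi f g hcomm k (ih (tmul_mem_piece f _ ⟨x, hx, rfl⟩)))
      | zero => simp
      | add y y' _ _ hy hy' =>
        simp only [SetLike.mem_coe] at hy hy' ⊢
        rw [mul_add, map_add, TensorProduct.tmul_add]; exact add_mem hy hy'
      | smul c y _ hy =>
        simp only [SetLike.mem_coe] at hy ⊢
        rw [mul_smul_comm, map_smul, TensorProduct.tmul_smul]
        exact Submodule.smul_of_tower_mem _ _ hy
    | add x _ y _ hx hy =>
      simp only [SetLike.mem_coe] at hx hy ⊢
      rw [map_add, TensorProduct.tmul_add]; exact add_mem hx hy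

/-- The exponent of a point of the box. -/
noncomputable def toE (α : ∀ i, Fin (a i)) : Fin n →₀ ℕ :=
  Finsupp.equivFunOnFinite.symm fun i => (α i : ℕ)

lemma toE_apply (α : ∀ i, Fin (a i)) (i : Fin n) : toE α i = (α i : ℕ) := rfl

lemma toE_injective : Function.Injective (toE (a := a)) := fun _ _ h => funext fun i =>
  Fin.ext (congrArg (fun e : Fin n →₀ ℕ => e i) h)

include hcomm hpow hE in
set_option maxHeartbeats 400000 in
/-- The monomial model of a linear factorisation. -/
theorem hasModel (ha : ∀ i, 0 < a i) (hf : ∀ i, (f i).IsHomogeneous (a i))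
    (hreg : RegList ⊥ (List.ofFn f)) : HasModel f a := by
  classical
  set I := Ideal.span (Set.range f)
  have hI : HomogI I := by
    have := homogI_ofList' (L := List.ofFn f) fun q hq => by
      obtain ⟨i, rfl⟩ := List.mem_ofFn.1 hq
      exact ⟨a i, ha i, hf i⟩
    convert this using 1
    exact congrArg Ideal.span (Set.ext fun x => by simp [List.mem_ofFn])
  have hH := finrank_degPart_forms ha hf hreg
  let box : ℕ → Finset (∀ i, Fin (a i)) := fun d => Finset.univ.filter fun α => (toE α).degree = d
  have himg : ∀ d, (box d).image toE = ((Finset.univ : Finset (Fin n)).finsuppAntidiag d).filter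
      fun e => ¬ ∃ i, a i ≤ e i := by
    intro d
    ext e
    simp only [box, Finset.mem_image, Finset.mem_filter, Finset.mem_univ, true_and,
      Finset.mem_finsuppAntidiag, Finset.subset_univ, and_true, Finsupp.degree_eq_sum, not_exists,
      not_le]
    constructor
    · rintro ⟨α, hα, rfl⟩
      exact ⟨hα, fun i => (α i).2⟩
    · rintro ⟨hd, hlt⟩
      exact ⟨fun i => ⟨e i, hlt i⟩, hd, Finsupp.ext fun i => rfl⟩
  have htot : ∀ d, (outBox a d).card + (box d).card =
      finrank K (homogeneousSubmodule (Fin n) K d) := by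
    intro d
    rw [← Finset.card_image_of_injective (box d) toE_injective, himg, outBox,
      Finset.card_filter_add_card_filter_not, Quad.finrank_homog, ← Nat.card_eq_finsetCard]
    exact Nat.card_congr (Equiv.subtypeEquivRight fun e => by simp [Finsupp.degree_eq_sum])
  have hdec : ∀ (J : Ideal (MvPolynomial (Fin n) K)), (∀ i, f i ∈ J) → ∀ d,
      finrank K (jbar f J d) + (outBox a d).card =
        finrank K (Vale.Agent.P200.degPart d J) := by
    intro J hJ d
    have h1 := finrank_map_add_ker (mkA f) (Vale.Agent.P200.degPart d J)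
    have h2 : Vale.Agent.P200.degPart d J ⊓ LinearMap.ker (mkA f) =
        Vale.Agent.P200.degPart d I := by
      have hIJ : I ≤ J := Ideal.span_le.2 fun x ⟨i, hi⟩ => hi ▸ hJ i
      ext u
      simp only [Submodule.mem_inf, Vale.Agent.P200.mem_degPart, LinearMap.mem_ker]
      constructor
      · rintro ⟨⟨h1, -⟩, h2⟩; exact ⟨h1, Ideal.Quotient.eq_zero_iff_mem.1 h2⟩
      · rintro ⟨h1, h2⟩; exact ⟨⟨h1, hIJ h2⟩, Ideal.Quotient.eq_zero_iff_mem.2 h2⟩
    rw [h2, hH d] at h1
    exact h1
  have hquo : ∀ d, finrank K (quoDeg f d) = (box d).card := by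
    intro d
    have h := hdec ⊤ (fun _ => Submodule.mem_top) d
    have htop : Vale.Agent.P200.degPart d (⊤ : Ideal (MvPolynomial (Fin n) K)) =
        homogeneousSubmodule (Fin n) K d := by
      ext u; simp [Vale.Agent.P200.mem_degPart]
    have h' := htot d
    rw [jbar, htop] at h
    simp only [quoDeg] at h ⊢
    exact Nat.add_right_cancel (h.trans (h'.symm.trans (add_comm _ _)))
  choose π hπ using exists_compA f hI
  let P : ℕ → D ⊗[K] Quo f →ₗ[D] D ⊗[K] Quo f := fun d =>
    TensorProduct.AlgebraTensorModule.map LinearMap.id (π d)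
  have hπdeg : ∀ {d e : ℕ} {q : Quo f}, q ∈ quoDeg f e → π d q = if e = d then q else 0 := by
    rintro d e _ ⟨u, hu, rfl⟩
    rw [hπ, homogeneousComponent_of_mem hu]
    by_cases h : e = d
    · rw [if_pos h.symm, if_pos h]
    · rw [if_neg (Ne.symm h), if_neg h, map_zero]
  have hP : ∀ (d e : ℕ) (v : D ⊗[K] Quo f), v ∈ piece f e → P d v = if e = d then v else 0 := by
    intro d e v hv
    induction hv using Submodule.span_induction with
    | mem x hx =>
      obtain ⟨q, hq, rfl⟩ := hx
      simp only [P, TensorProduct.AlgebraTensorModule.map_tmul, LinearMap.id_apply, hπdeg hq]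
      split_ifs <;> simp
    | zero => simp
    | add x y _ _ hx hy => rw [map_add, hx, hy]; split_ifs <;> simp
    | smul r x _ hx => rw [map_smul, hx]; split_ifs <;> simp
  have hws := wordSpan_eq_piece f g hcomm E hE
  have hspanbox : ∀ d, Submodule.span D ((fun α => word (K := K) (cls f) g (toE α)) '' (↑(box d) : Set (∀ i, Fin (a i)))) =
      piece f d := by
    intro d
    rw [← hws, wordSpan]
    refine le_antisymm (Submodule.span_mono ?_) (Submodule.span_le.2 ?_)
    · rintro _ ⟨α, hα, rfl⟩
      exact ⟨_, (Finset.mem_filter.1 (Finset.mem_coe.1 hα)).2, rfl⟩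
    · rintro _ ⟨e, he, rfl⟩
      by_cases h : ∃ i, a i ≤ e i
      · rw [word_eq_zero f g hpow h]; exact zero_mem _
      · push Not at h
        have he' : toE (fun i => (⟨e i, h i⟩ : Fin (a i))) = e := Finsupp.ext fun i => rfl
        refine Submodule.subset_span ⟨fun i => ⟨e i, h i⟩, ?_, by simp only [he']⟩
        simp only [box, Finset.coe_filter, Finset.mem_univ, true_and, Set.mem_ofPred_eq, he']
        exact he
  have hfin : ∀ d, FiniteDimensional K (quoDeg f d) := Quad.finite_quoDeg f
  have hli : LinearIndependent D fun α : ∀ i, Fin (a i) => word (K := K) (cls f) g (toE α) := by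
    rw [Fintype.linearIndependent_iff]
    intro c hc α
    set d := (toE α).degree with hdα
    have hd : LinearIndependent D (fun β : {β // β ∈ box d} => word (K := K) (cls f) g (toE β.1)) := by
      rw [linearIndependent_iff_card_eq_finrank_span, Set.finrank]
      have : Submodule.span D (Set.range fun β : {β // β ∈ box d} => word (K := K) (cls f) g (toE β.1)) =
          piece f d := by
        rw [← hspanbox]
        congr 1
        ext x
        simp
      rw [this, piece, finrank_span_one_tmul, hquo, Fintype.card_coe]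
    have h2 := congrArg (P d) hc
    simp only [map_sum, map_smul, map_zero, hP d _ _ (word_mem_piece f g hcomm _ _ rfl),
      smul_ite, smul_zero] at h2
    rw [← Finset.sum_filter, show (Finset.univ.filter fun β => (toE β).degree = d) = box d from rfl,
      ← Finset.sum_coe_sort] at h2
    exact Fintype.linearIndependent_iff.1 hd (fun β => c β.1) h2 ⟨α, by simp [box, d]⟩
  have hsp : ⊤ ≤ Submodule.span D (Set.range fun α : ∀ i, Fin (a i) => word (K := K) (cls f) g (toE α)) := by
    intro v _
    induction v using TensorProduct.induction_on with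
    | zero => exact zero_mem _
    | add x y hx hy => exact add_mem (hx trivial) (hy trivial)
    | tmul x q =>
      obtain ⟨u, rfl⟩ := mkA_surjective f q
      rw [← sum_homogeneousComponent u, map_sum, TensorProduct.tmul_sum]
      refine sum_mem fun d _ => ?_
      have := tmul_mem_piece f x (q := mkA f (homogeneousComponent d u))
        ⟨_, homogeneousComponent_mem _ _, rfl⟩
      rw [← hspanbox] at this
      exact Submodule.span_mono (Set.image_subset_range _ _) this
  let b : Basis (∀ i, Fin (a i)) D (D ⊗[K] Quo f) := Basis.mk hli hsp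
  have hb : ∀ α, b α = word (K := K) (cls f) g (toE α) := fun α => Basis.mk_apply hli hsp α
  have hbw : ∀ e R, b.repr (word (K := K) (cls f) g e) R = if e = toE R then 1 else 0 := by
    intro e R
    by_cases h : ∃ i, a i ≤ e i
    · rw [word_eq_zero f g hpow h, map_zero, Finsupp.zero_apply, if_neg]
      rintro rfl
      obtain ⟨i, hi⟩ := h
      exact absurd hi (not_le.2 (R i).2)
    · push Not at h
      have he' : e = toE (fun i => (⟨e i, h i⟩ : Fin (a i))) := Finsupp.ext fun i => rfl
      rw [he', ← hb, Basis.repr_self, Finsupp.single_apply]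
      simp only [toE_injective.eq_iff]
  let key : (∀ i, Fin (a i)) → Lex (Fin n →₀ ℕ) := fun α => toLex (toE α)
  have hkey : Function.Injective key := toLex.injective.comp toE_injective
  let U : Ideal (MvPolynomial (Fin n) K) → Submodule D (D ⊗[K] Quo f) := fun J =>
    Submodule.span D (⋃ d, (fun q : Quo f => (1 : D) ⊗ₜ[K] q) '' (jbar f J d : Set (Quo f)))
  let L : Ideal (MvPolynomial (Fin n) K) → ℕ → Finset (∀ i, Fin (a i)) := fun J d =>
    leadSet b key (U J ⊓ piece f d)
  have hLdeg : ∀ J d, ∀ α ∈ L J d, (toE α).degree = d := by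
    intro J d α hα
    obtain ⟨v, hv, h1, -⟩ := (mem_leadSet b key).1 hα
    have hv2 : v ∈ Submodule.span D (b '' (↑(box d) : Set (∀ i, Fin (a i)))) := by
      rw [show (b '' (↑(box d) : Set (∀ i, Fin (a i)))) = (fun α => word (K := K) (cls f) g (toE α)) '' (↑(box d) : Set (∀ i, Fin (a i))) from
        Set.image_congr fun α _ => hb α, hspanbox]
      exact hv.2
    rw [Basis.mem_span_image] at hv2
    exact (Finset.mem_filter.1 (hv2 (Finsupp.mem_support_iff.2 h1))).2
  have hLmono : ∀ J J', J ≤ J' → ∀ d, L J d ⊆ L J' d := by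
    intro J J' hJJ' d α hα
    obtain ⟨v, hv, h⟩ := (mem_leadSet b key).1 hα
    refine (mem_leadSet b key).2 ⟨v, ⟨?_, hv.2⟩, h⟩
    refine Submodule.span_mono (Set.iUnion_mono fun e => Set.image_mono ?_) hv.1
    exact Submodule.map_mono (inf_le_inf_left _ fun u hu => hJJ' hu)
  have hLcard : ∀ J d, (L J d).card = finrank K (jbar f J d) := by
    intro J d
    rw [card_leadSet b key hkey]
    have hjb : jbar f J d ≤ quoDeg f d := Submodule.map_mono inf_le_left
    have := Submodule.finiteDimensional_of_le hjb
    rw [← finrank_span_one_tmul (D := D) (jbar f J d)]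
    suffices heq : U J ⊓ piece f d = Submodule.span D
        ((fun q : Quo f => (1 : D) ⊗ₜ[K] q) '' (jbar f J d : Set (Quo f))) by rw [heq]
    refine le_antisymm ?_ (le_inf ?_ ?_)
    · rintro v ⟨hv1, hv2⟩
      have h3 : P d v = v := by rw [hP d d v hv2, if_pos rfl]
      rw [← h3]
      clear h3 hv2
      induction hv1 using Submodule.span_induction with
      | mem x hx =>
        obtain ⟨e, q, hq, rfl⟩ := Set.mem_iUnion.1 hx
        rw [hP d e _ (tmul_mem_piece f 1 (Submodule.map_mono inf_le_left hq))]
        split_ifs with h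
        · exact Submodule.subset_span ⟨q, h ▸ hq, rfl⟩
        · exact zero_mem _
      | zero => simp
      | add x y _ _ hx hy => rw [map_add]; exact add_mem hx hy
      | smul r x _ hx => rw [map_smul]; exact Submodule.smul_mem _ _ hx
    · exact Submodule.span_mono (Set.subset_iUnion
        (fun d => (fun q : Quo f => (1 : D) ⊗ₜ[K] q) '' (jbar f J d : Set (Quo f))) d)
    · exact Submodule.span_mono (Set.image_mono fun q hq => hjb hq)
  have hLclosed : ∀ J d, ∀ α ∈ L J d, ∀ k (β : ∀ i, Fin (a i)),
      toE β = toE α + Finsupp.single k 1 → β ∈ L J (d + 1) := by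
    intro J d α hα k β hβ
    obtain ⟨v, ⟨hv1, hv2⟩, hl1, hl2⟩ := (mem_leadSet b key).1 hα
    choose c hc0 hc using fun γ : ∀ i, Fin (a i) => rmul_word (K := K) (cls f) g hcomm (toE γ) k
    have hrepr : ∀ R, b.repr (rmul (K := K) (cls f) g k v) R = ∑ γ, b.repr v γ *
        if toE γ + Finsupp.single k 1 = toE R then algebraMap K D (c γ) else 0 := by
      intro R
      conv_lhs => rw [← b.sum_repr v]
      rw [map_sum, map_sum, Finsupp.finsetSum_apply]
      refine Finset.sum_congr rfl fun γ _ => ?_
      rw [map_smul, map_smul, Finsupp.smul_apply, smul_eq_mul, hb, hc, ← algebraMap_smul D,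
        map_smul, Finsupp.smul_apply, smul_eq_mul, hbw, mul_ite, mul_one, mul_zero]
    refine (mem_leadSet b key).2 ⟨rmul (K := K) (cls f) g k v, ⟨?_, ?_⟩, ?_, ?_⟩
    · clear hv2 hl1 hl2 hrepr
      induction hv1 using Submodule.span_induction with
      | mem x hx =>
        obtain ⟨e, q, hq, rfl⟩ := Set.mem_iUnion.1 hx
        rw [rmul_one_tmul]
        refine sum_mem fun j _ => ?_
        rw [show g k j ⊗ₜ[K] (mkA f (X j) * q) = g k j • ((1 : D) ⊗ₜ[K] (mkA f (X j) * q)) by
          simp [TensorProduct.smul_tmul']]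
        refine Submodule.smul_mem _ _ (Submodule.subset_span (Set.mem_iUnion.2 ⟨e + 1, _, ?_, rfl⟩))
        obtain ⟨u, hu, rfl⟩ := hq
        refine ⟨X j * u, ⟨?_, Ideal.mul_mem_left J _ hu.2⟩,
          map_mul (Ideal.Quotient.mkₐ K (Ideal.span (Set.range f))) _ _⟩
        show (X j * u).IsHomogeneous (e + 1)
        rw [add_comm]
        exact (isHomogeneous_X K j).mul hu.1
      | zero => simp
      | add x y _ _ hx hy => rw [map_add]; exact add_mem hx hy
      | smul r x _ hx => rw [map_smul]; exact Submodule.smul_mem _ _ hx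
    · rw [← hws]
      exact wordSpan_mul_phi f g hcomm k (by rw [hws]; exact hv2)
    · rw [hrepr, Finset.sum_eq_single α]
      · rw [if_pos hβ.symm]
        refine mul_ne_zero hl1 ?_
        simpa using hc0 α
      · intro γ _ hne
        rw [if_neg, mul_zero]
        rw [hβ]
        exact fun h => hne (toE_injective (add_right_cancel h))
      · simp
    · intro R hR
      rw [hrepr] at hR
      obtain ⟨γ, -, hγ⟩ := Finset.exists_ne_zero_of_sum_ne_zero hR
      split_ifs at hγ with h
      · have := hl2 γ (left_ne_zero_of_mul hγ)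
        show toLex (toE R) ≤ toLex (toE β)
        rw [← h, hβ]
        exact add_le_add_left this _
      · simp at hγ
  refine ⟨fun J d => (L J d).image toE ∪ outBox a d, fun J hJ => ⟨fun d => ⟨?_, ?_, ?_, ?_⟩, ?_⟩⟩
    <;> simp only
  · intro e he
    rcases Finset.mem_union.1 he with he | he
    · obtain ⟨α, hα, rfl⟩ := Finset.mem_image.1 he
      exact hLdeg J d α hα
    · exact (mem_outBox.1 he).1
  · have hdis : Disjoint ((L J d).image toE) (outBox a d) := by
      rw [Finset.disjoint_left]
      intro e he he'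
      obtain ⟨α, -, rfl⟩ := Finset.mem_image.1 he
      obtain ⟨-, i, hi⟩ := mem_outBox.1 he'
      exact absurd hi (not_le.2 (α i).2)
    rw [Finset.card_union_of_disjoint hdis, Finset.card_image_of_injective _ toE_injective, hLcard,
      hdec J hJ d]
  · intro e hd hi
    exact Finset.mem_union_right _ (mem_outBox.2 ⟨hd, hi⟩)
  · intro e he k
    have hout : e.degree = d → (∃ i, a i ≤ (e + Finsupp.single k 1 : Fin n →₀ ℕ) i) →
        e + Finsupp.single k 1 ∈ (L J (d + 1)).image toE ∪ outBox a (d + 1) := fun hd h =>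
      Finset.mem_union_right _ (mem_outBox.2 ⟨by rw [map_add, Finsupp.degree_single, hd], h⟩)
    rcases Finset.mem_union.1 he with he | he
    · obtain ⟨α, hα, rfl⟩ := Finset.mem_image.1 he
      by_cases h : ∃ i, a i ≤ (toE α + Finsupp.single k 1 : Fin n →₀ ℕ) i
      · exact hout (hLdeg J d α hα) h
      · push Not at h
        exact Finset.mem_union_left _ (Finset.mem_image.2
          ⟨fun i => ⟨_, h i⟩, hLclosed J d α hα k _ (Finsupp.ext fun i => rfl),
            Finsupp.ext fun i => rfl⟩)
    · obtain ⟨hd, j, hj⟩ := mem_outBox.1 he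
      exact hout hd ⟨j, le_trans hj (by simp)⟩
  · intro J' hJJ' d
    exact Finset.union_subset_union (Finset.image_subset_image (hLmono _ _ hJJ' d)) subset_rfl

end Vale.Agent.P200.Cyc
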