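import Mathlib

/-!
Interfaces for linear factorisations of forms of prime degree in characteristic zero.

A system has parameters `w` in a field `L₀` (the projective coordinates of the linear system, one
of them equal to one), a field `L` over `L₀` of degree prime to `p`, and an `L`-algebra with
elements `gen` such that `∑ yᵢ genᵢ` has `p`-th power `∑ Fₗ(y) wₗ`.
-/

namespace Vale.Agent.P200.Cyc

open MvPolynomial Module

variable {K L₀ L B σ : Type*}

/-- The span of the products of generators of length congruent to `j`. -/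
def pieceOf (L : Type*) {B σ : Type*} [CommRing L] [Ring B] [Algebra L B] (p : ℕ) (gen : σ → B)
    (j : ZMod p) : Submodule L B :=
  Submodule.span L {x | ∃ l : List σ, (l.length : ZMod p) = j ∧ x = (l.map gen).prod}

/-- Parameters as elements of degree `p` of the polynomials over the algebra. -/
noncomputable def parHom [Field K] [Field L₀] [Algebra K L₀] [Ring B] [Algebra K B] [Algebra L₀ B]
    [IsScalarTower K L₀ B] (p : ℕ) (w : σ → L₀) : MvPolynomial σ K →ₐ[K] Polynomial B :=
  (Polynomial.mapAlgHom (IsScalarTower.toAlgHom K L₀ B)).comp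
    (aeval fun l => Polynomial.monomial p (w l))

/-- The graded algebra of the parameters, the generators and the primitive element. -/
noncomputable def wordAlg (K : Type*) {L₀ L B σ : Type*} [Field K] [Field L₀] [Field L] [Ring B]
    [Algebra K B] [Algebra L₀ B] [Algebra L B] (p D : ℕ) (w : σ → L₀) (gen : σ → B) (θ : L) :
    Subalgebra K (Polynomial B) :=
  Algebra.adjoin K ((Set.range fun i => Polynomial.monomial 1 (gen i)) ∪
    (Set.range fun l => Polynomial.monomial p (algebraMap L₀ B (w l))) ∪
    {Polynomial.monomial (p * D) (algebraMap L B θ)})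

variable (K L₀ L B)

/-- A system of linear factorisations. -/
structure Sys [Field K] [Field L₀] [Algebra K L₀] [Field L] [Algebra L₀ L] [Ring B] [Algebra K B]
    [Algebra L₀ B] [Algebra L B] [IsScalarTower K L₀ B] [IsScalarTower L₀ L B]
    [Fintype σ] (p : ℕ) (F : σ → MvPolynomial σ K) where
  /-- the parameters -/
  w : σ → L₀
  /-- a normalised parameter -/
  l₀ : σ
  w_one : w l₀ = 1
  /-- no homogeneous relations among the parameters -/
  w_inj : ∀ s (a : MvPolynomial σ K), a.IsHomogeneous s → aeval w a = 0 → a = 0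
  /-- the field is generated by fractions of degree zero -/
  w_frac : ∀ x : L₀, ∃ s, ∃ a b : MvPolynomial σ K, a.IsHomogeneous s ∧ b.IsHomogeneous s ∧
    aeval w b ≠ 0 ∧ x * aeval w b = aeval w a
  /-- the generators -/
  gen : σ → B
  /-- a generator of `L` -/
  θ : L
  /-- its weight -/
  D : ℕ
  θ_gen : Algebra.adjoin L₀ {θ} = ⊤
  piece_finite : ∀ j, FiniteDimensional L (pieceOf L p gen j)
  piece_le : ∀ j, finrank L (pieceOf L p gen j) ≤ p ^ (Fintype.card σ - 1)
  power : ∀ y : σ → K, (∑ i, y i • gen i) ^ p =
    algebraMap L₀ B (∑ l, algebraMap K L₀ (eval y (F l)) * w l)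
  /-- the graded algebra is finite over the parameters -/
  fin : ∃ t : Finset (Polynomial B), ∀ x ∈ wordAlg K p D w gen θ,
    ∃ a : Polynomial B → MvPolynomial σ K, x = ∑ e ∈ t, parHom p w (a e) * e

variable {K L₀ L B}

/-- Every homogeneous component of the algebra has the largest possible dimension. -/
def Sys.Full [Field K] [Field L₀] [Algebra K L₀] [Field L] [Algebra L₀ L] [Ring B] [Algebra K B]
    [Algebra L₀ B] [Algebra L B] [IsScalarTower K L₀ B] [IsScalarTower L₀ L B]
    [Fintype σ] {p : ℕ} {F : σ → MvPolynomial σ K} (S : Sys K L₀ L B p F) : Prop :=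
  ∀ j, finrank L (pieceOf L p S.gen j) = p ^ (Fintype.card σ - 1)

/-- A weighted cyclic factorisation of a binary form over `L`: `gam ^ p · ∏ᵢ (∑ⱼ xⱼ lam j i)`. -/
structure Block {L₀ E : Type*} [Field L₀] [Field E] [Algebra L₀ E] (L : IntermediateField L₀ E)
    (p : ℕ) [NeZero p] where
  /-- the root of the leading coefficient -/
  gam : E
  gam_pow : gam ^ p ∈ L
  /-- the allowed weights -/
  W : Subalgebra L (ZMod p → E)
  shift : ∀ u ∈ W, (fun i => u (i + 1)) ∈ W
  W_finite : FiniteDimensional L W
  W_le : finrank L W ≤ p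
  const : ∀ u ∈ W, (∀ i, u i = u 0) → u 0 ∈ L
  /-- the coefficients of the linear factors -/
  lam : Fin 2 → ZMod p → E
  lam_mem : ∀ j, lam j ∈ W

end Vale.Agent.P200.Cyc
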