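import Vale.Agent.P200.Cyc.Final
import Vale.Agent.P200.Split.Induct

/-!
Good growth for regular sequences of two forms of degree at most `p` and forms of prime degree
`p`, in characteristic zero or greater than `p`.
-/

namespace Vale.Agent.P200.Split

open MvPolynomial Module

universe u

lemma goodCore_prime_large {K : Type u} [Field K] {p : ℕ} (hp : p.Prime)
    (hchar : ∀ i : ℕ, 0 < i → i ≤ p → (i : K) ≠ 0) : GoodCore K p := by
  intro m a ha h2 h1 htail f hf hreg I hI hfI d
  have hchar' : ∀ i : ℕ, 0 < i → i ≤ p → (i : AlgebraicClosure K) ≠ 0 := fun i h1 h2 => by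
    rw [← map_natCast (algebraMap K (AlgebraicClosure K))]
    exact fun h => hchar i h1 h2 ((map_eq_zero _).1 h)
  have hfac : Skew.Factorises (AlgebraicClosure K) (m + 2) p := fun g hg hr =>
    Cyc.factorises hp hchar' hg hr
  have hpos : ∀ i, 0 < a i := fun i => by linarith [h2 i]
  obtain ⟨s, hs, hd⟩ := Cyc.exists_monomialIdeal hpos
    (Skew.models_two_low hfac hpos (ha (Fin.zero_le _)) h1 htail) le_rfl hf hreg hI hfI
  obtain ⟨T, hT⟩ := Box.exists_lpp K le_rfl ha s hs
  exact good_of_sets (T := T) (fun t => (hT t).1)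
    (fun t e he ⟨i, hi⟩ => (hT t).2.1 e he ⟨i, by simpa using hi⟩)
    (fun t e he e' hd' h h' => (hT t).2.2.1 e he e' hd' (fun i => by simpa using h i)
      (fun i => by simpa using h' i))
    (fun t => (hT t).2.2.2.1.trans (hd t)) (fun t => (hT t).2.2.2.2) d

end Vale.Agent.P200.Split
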